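import Vale.Agent.P133.Combine

/-!
Sequences in the unitization that vanish or commute asymptotically.
-/

set_option linter.unusedSectionVars false

namespace Vale.Agent.P133dim

open Filter Topology

variable {U : Type*} [NormedRing U] [StarRing U] [NormedStarGroup U]

/-- The sequence tends to zero. -/
def AZ (u : ℕ → U) : Prop := Tendsto u atTop (𝓝 0)

/-- The sequence is bounded in norm. -/
def Bd (u : ℕ → U) : Prop := ∃ C : ℝ, ∀ n, ‖u n‖ ≤ C

/-- The two sequences commute asymptotically. -/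
def AC (u v : ℕ → U) : Prop := AZ fun n => u n * v n - v n * u n

lemma AZ.zero : AZ (fun _ : ℕ => (0 : U)) := tendsto_const_nhds

lemma AZ.congr {u v : ℕ → U} (h : AZ u) (e : ∀ n, u n = v n) : AZ v := Tendsto.congr e h

lemma AZ.add {u v : ℕ → U} (h : AZ u) (h' : AZ v) : AZ fun n => u n + v n := by
  simpa [AZ] using Tendsto.add h h'

lemma AZ.neg {u : ℕ → U} (h : AZ u) : AZ fun n => -u n := by
  simpa [AZ] using Tendsto.neg h

lemma AZ.sub {u v : ℕ → U} (h : AZ u) (h' : AZ v) : AZ fun n => u n - v n := by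
  simpa [AZ] using Tendsto.sub h h'

lemma AZ.star {u : ℕ → U} (h : AZ u) : AZ fun n => star (u n) := by
  have := (continuous_star.tendsto (0 : U)).comp h
  rwa [star_zero] at this

lemma AZ.sum {ι : Type*} (s : Finset ι) {u : ι → ℕ → U} (h : ∀ i ∈ s, AZ (u i)) :
    AZ fun n => ∑ i ∈ s, u i n := by
  simpa [AZ] using tendsto_finsetSum s h

lemma AZ.bd_mul {u v : ℕ → U} (hu : Bd u) (hv : AZ v) : AZ fun n => u n * v n := by
  obtain ⟨C, hC⟩ := hu
  have h1 : Tendsto (fun n => C * ‖v n‖) atTop (𝓝 0) := by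
    simpa using (tendsto_norm_zero.comp hv).const_mul C
  exact squeeze_zero_norm (fun n => (norm_mul_le _ _).trans
    (mul_le_mul_of_nonneg_right (hC n) (norm_nonneg _))) h1

lemma AZ.mul_bd {u v : ℕ → U} (hu : AZ u) (hv : Bd v) : AZ fun n => u n * v n := by
  obtain ⟨C, hC⟩ := hv
  have h1 : Tendsto (fun n => ‖u n‖ * C) atTop (𝓝 0) := by
    simpa using (tendsto_norm_zero.comp hu).mul_const C
  exact squeeze_zero_norm (fun n => (norm_mul_le _ _).trans
    (mul_le_mul_of_nonneg_left (hC n) (norm_nonneg _))) h1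

lemma AZ.eventually_lt {u : ℕ → U} (h : AZ u) {ε : ℝ} (hε : 0 < ε) :
    ∀ᶠ n in atTop, ‖u n‖ < ε :=
  (tendsto_norm_zero.comp h).eventually (gt_mem_nhds hε)

lemma Bd.const (c : U) : Bd fun _ : ℕ => c := ⟨‖c‖, fun _ => le_rfl⟩

lemma Bd.mul {u v : ℕ → U} (hu : Bd u) (hv : Bd v) : Bd fun n => u n * v n := by
  obtain ⟨C, hC⟩ := hu
  obtain ⟨D, hD⟩ := hv
  exact ⟨C * D, fun n => (norm_mul_le _ _).trans
    (mul_le_mul (hC n) (hD n) (norm_nonneg _) ((norm_nonneg _).trans (hC n)))⟩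

lemma Bd.add {u v : ℕ → U} (hu : Bd u) (hv : Bd v) : Bd fun n => u n + v n := by
  obtain ⟨C, hC⟩ := hu
  obtain ⟨D, hD⟩ := hv
  exact ⟨C + D, fun n => (norm_add_le _ _).trans (add_le_add (hC n) (hD n))⟩

lemma Bd.sub {u v : ℕ → U} (hu : Bd u) (hv : Bd v) : Bd fun n => u n - v n := by
  obtain ⟨C, hC⟩ := hu
  obtain ⟨D, hD⟩ := hv
  exact ⟨C + D, fun n => (norm_sub_le _ _).trans (add_le_add (hC n) (hD n))⟩

lemma Bd.star {u : ℕ → U} (hu : Bd u) : Bd fun n => star (u n) := by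
  obtain ⟨C, hC⟩ := hu
  exact ⟨C, fun n => by rw [norm_star]; exact hC n⟩

lemma Bd.sum {ι : Type*} (s : Finset ι) {u : ι → ℕ → U} (h : ∀ i ∈ s, Bd (u i)) :
    Bd fun n => ∑ i ∈ s, u i n := by
  classical
  induction s using Finset.induction with
  | empty => exact ⟨0, fun n => by simp⟩
  | insert i s hi ih =>
    simp only [Finset.sum_insert hi]
    exact (h i (by simp)).add (ih fun j hj => h j (by simp [hj]))

lemma AC.symm {u v : ℕ → U} (h : AC u v) : AC v u :=
  h.neg.congr fun n => neg_sub _ _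

lemma AC.one_left (v : ℕ → U) : AC (fun _ => 1) v := AZ.zero.congr fun n => by simp

lemma AC.self (u : ℕ → U) : AC u u := AZ.zero.congr fun n => by simp

lemma AC.mul_left {a b v : ℕ → U} (ha : Bd a) (hb : Bd b) (h1 : AC a v) (h2 : AC b v) :
    AC (fun n => a n * b n) v :=
  ((AZ.bd_mul ha h2).add (AZ.mul_bd h1 hb)).congr fun n => by noncomm_ring

lemma AC.sub_left {a b v : ℕ → U} (h1 : AC a v) (h2 : AC b v) : AC (fun n => a n - b n) v :=
  (h1.sub h2).congr fun n => by noncomm_ring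

lemma AC.sum_left {ι : Type*} (s : Finset ι) {a : ι → ℕ → U} {v : ℕ → U}
    (h : ∀ i ∈ s, AC (a i) v) : AC (fun n => ∑ i ∈ s, a i n) v :=
  (AZ.sum s h).congr fun n => by rw [Finset.sum_mul, Finset.mul_sum, Finset.sum_sub_distrib]

lemma AC.star {a v : ℕ → U} (h : AC a v) : AC (fun n => star (a n)) fun n => star (v n) :=
  (AZ.star h).neg.congr fun n => by simp only [star_sub, star_mul, neg_sub]

end Vale.Agent.P133dim
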