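import Vale.Agent.P133.Defs
import Vale.Agent.P133.Base

/-!
A dimension condition on the lattice of closed ideals.
-/

set_option linter.unusedSectionVars false

namespace Vale.Agent.P133dim

open Vale.Agent.P133

variable (A : Type*) [NonUnitalCStarAlgebra A] [PartialOrder A] [StarOrderedRing A]

/-- Locally finite covering dimension: for each positive `h` and `η > 0` there is `m` such that,
for every positive `T` in the closed ideal generated by `(h - η)₊`, every finite cover of `T` by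
closed ideals has, up to `θ`, a finite refinement in which any more than `m` ideals meet in zero. -/
def FiniteOrder : Prop :=
  ∀ h : A, 0 ≤ h → ∀ η : ℝ, 0 < η → ∃ m : ℕ, ∀ T : A, 0 ≤ T → T ∈ gen {cut η h} →
    ∀ (R : ℕ) (J : Fin R → Submodule ℂ A), (∀ r, IsClosedIdeal A (J r)) →
      (∀ P, IsClosedIdeal A P → (∀ r, J r ≤ P) → T ∈ P) →
      ∀ θ : ℝ, 0 < θ → ∃ (K : ℕ) (I : Fin K → Submodule ℂ A) (r : Fin K → Fin R),
        (∀ k, IsClosedIdeal A (I k) ∧ I k ≤ J (r k)) ∧
        (∀ S : Finset (Fin K), m < S.card → (⨅ k ∈ S, I k) = ⊥) ∧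
        ∀ P, IsClosedIdeal A P → (∀ k, I k ≤ P) → Metric.infDist T (P : Set A) ≤ θ

variable {A}

lemma finiteOrder_of_disjointRefinement (h : DisjointRefinement A) : FiniteOrder A := by
  intro h0 _ η _
  refine ⟨1, fun T hT _ R J hJ hcov θ hθ => ?_⟩
  obtain ⟨K, I, r, h1, h2, h3⟩ := h R J hJ T hT hcov θ hθ
  refine ⟨K, I, r, h1, fun S hS => ?_, h3⟩
  obtain ⟨k, hk, l, hl, hkl⟩ := Finset.one_lt_card.1 hS
  exact le_bot_iff.1 ((le_inf (iInf₂_le k hk) (iInf₂_le l hl)).trans (h2 k l hkl).le)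

end Vale.Agent.P133dim
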