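import Vale.Agent.P133dim.Weights

/-!
Gluing many orthogonal systems along a family of ideals of bounded order.
-/

set_option linter.unusedSectionVars false

namespace Vale.Agent.P133dim

open Vale.Agent.P133 Unitization Filter Topology
open scoped CStarAlgebra

variable {A : Type*} [NonUnitalCStarAlgebra A] [PartialOrder A] [StarOrderedRing A]

lemma inr_mul_eq (a : A) (E : A⁺¹) : (a : A⁺¹) * E = ((E.fst • a + a * E.snd : A) : A⁺¹) := by
  conv_lhs => rw [← inl_fst_add_inr_snd_eq E, mul_add, inr_mul_inl, ← inr_mul]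
  rw [inr_add]

lemma inr_sum_eq {ι : Type*} (s : Finset ι) (u : ι → A) :
    ((∑ i ∈ s, u i : A) : A⁺¹) = ∑ i ∈ s, (u i : A⁺¹) :=
  map_sum (inrNonUnitalStarAlgHom ℂ A) u s

variable {U : Type*} [CStarAlgebra U] [PartialOrder U] [StarOrderedRing U]

lemma norm_le_one_of_le {q : U} (h0 : 0 ≤ q) (h1 : q ≤ 1) : ‖q‖ ≤ 1 :=
  (CStarAlgebra.norm_le_iff_le_algebraMap q zero_le_one h0).2 (by simpa using h1)

lemma exists_glue {V m : ℕ} (I : Fin V → Submodule ℂ A) (hI : ∀ v, IsClosedIdeal A (I v))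
    (hord : ∀ S : Finset (Fin V), m < S.card → (⨅ v ∈ S, I v) = ⊥) {L : ℕ}
    (R : Fin V → Fin L → A) (hR : ∀ v l, R v l ∈ I v) {N K : ℕ} (s : Fin N → Fin K → A) {g0 : A}
    (hg0 : 0 ≤ g0) (hg1 : ‖g0‖ ≤ 1) {η : ℝ}
    (hs : ∀ i i' j j', ‖star (s i j) * s i' j' - (if i = i' ∧ j = j' then g0 else 0)‖ ≤ η)
    (Bad : Fin V → Finset (Fin N)) {Rb : ℕ} (hB : ∀ v, (Bad v).card ≤ Rb) (hN : m * Rb < N)
    {σ0 : ℝ} (hσ : 0 ≤ σ0) (hgood : ∀ v, ∀ i ∉ Bad v, ∀ j l, ‖star (s i j) * R v l‖ ≤ σ0)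
    {ε : ℝ} (hε : 0 < ε) :
    ∃ (s' : Fin K → A) (g' E : A),
      (∀ z, (∀ i j, RMem z (s i j)) → ∀ j, RMem z (s' j)) ∧ 0 ≤ g' ∧ ‖g'‖ ≤ 1 ∧
      ‖E‖ ≤ ε ∧ IsSelfAdjoint E ∧ ((1 / 8 : ℝ) ^ m) • g0 ≤ g' + E ∧
      (∀ j j', ‖star (s' j) * s' j' - (if j = j' then g' else 0)‖ ≤ (N : ℝ) * N * η) ∧
      ∀ v j l, ‖star (s' j) * R v l‖ ≤ 4 * σ0 + ε := by
  classical
  set D : Finset A := (Finset.univ.image fun p : Fin N × Fin K => s p.1 p.2) ∪
    (Finset.univ.image fun p : Fin N × Fin K => star (s p.1 p.2)) ∪ {CFC.sqrt g0} ∪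
    (Finset.univ.image fun p : Fin V × Fin L => R p.1 p.2) with hD
  obtain ⟨f, hf, hff, hfD, hfR⟩ := exists_weights I hI
    (fun v => Finset.univ.image fun l => R v l)
    (fun v i hi => by
      obtain ⟨l, -, rfl⟩ := Finset.mem_image.1 hi
      exact hR v l) D
  set F : Fin V → ℕ → A⁺¹ := fun v n => (f v n : A⁺¹) with hF
  have hFs : ∀ v n, IsSelfAdjoint (F v n) := fun v n => ((hf v n).2.1.isSelfAdjoint).inr ℂ
  have hFb : ∀ v, Bd (F v) := fun v => ⟨1, fun n => by
    simp only [hF, norm_inr]; exact (hf v n).2.2⟩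
  have hF01 : ∀ n v, 0 ≤ F v n ∧ F v n ≤ 1 := fun n v =>
    CStarAlgebra.inr_mem_Icc_iff_norm_le.2 ⟨(hf v n).2.1, (hf v n).2.2⟩
  set X : (Fin V → Bool) → ℕ → A⁺¹ := fun τ n => Xw (fun v => F v n) τ with hX
  set p : (Fin V → Bool) → ℕ → A⁺¹ := fun τ n => star (X τ n) * X τ n with hp
  have hXb : ∀ τ, Bd (X τ) := fun τ => bd_Xw hFb τ
  have hpb : ∀ τ, Bd (p τ) := fun τ => (hXb τ).star.mul (hXb τ)
  have hp0 : ∀ τ n, 0 ≤ p τ n := fun τ n => star_mul_self_nonneg _
  have hP : ∀ n (S : Finset (Fin V → Bool)), ∑ τ ∈ S, p τ n ≤ 1 := fun n S =>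
    (Finset.sum_le_sum_of_subset_of_nonneg S.subset_univ fun τ _ _ => hp0 τ n).trans
      (sum_pw_le_one (hF01 n))
  -- choose indices
  have hidx : ∀ τ : Fin V → Bool, ∃ i : Fin N,
      (Finset.univ.filter fun v => τ v = true).card ≤ m → ∀ v, τ v = true → i ∉ Bad v := by
    intro τ
    haveI : Nonempty (Fin N) := ⟨⟨0, by omega⟩⟩
    by_cases hc : (Finset.univ.filter fun v => τ v = true).card ≤ m
    · obtain ⟨i, hi⟩ : ∃ i : Fin N, i ∉ (Finset.univ.filter fun v => τ v = true).biUnion Bad := by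
        by_contra hcon
        push Not at hcon
        have h1 : Fintype.card (Fin N) ≤ m * Rb := by
          rw [← Finset.card_univ]
          refine (Finset.card_le_card fun i _ => hcon i).trans ?_
          refine Finset.card_biUnion_le.trans ?_
          refine (Finset.sum_le_card_nsmul _ _ Rb fun v _ => hB v).trans ?_
          exact Nat.mul_le_mul_right Rb hc
        rw [Fintype.card_fin] at h1
        omega
      exact ⟨i, fun _ v hv h => hi (Finset.mem_biUnion.2 ⟨v, by simp [hv], h⟩)⟩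
    · exact ⟨Classical.arbitrary _, fun h => absurd h hc⟩
  choose idx hidx using hidx
  set q : Fin N → ℕ → A⁺¹ := fun i n => ∑ τ ∈ Finset.univ.filter (fun τ => idx τ = i), p τ n
    with hq
  have hq0 : ∀ i n, 0 ≤ q i n := fun i n => Finset.sum_nonneg fun τ _ => hp0 τ n
  have hq1 : ∀ i n, q i n ≤ 1 := fun i n => hP n _
  have hqn : ∀ i n, ‖q i n‖ ≤ 1 := fun i n => norm_le_one_of_le (hq0 i n) (hq1 i n)
  have hqs : ∀ i n, star (q i n) = q i n := fun i n => (hq0 i n).isSelfAdjoint.star_eq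
  have hqsum : ∀ n, ∑ i, q i n ≤ 1 := fun n => by
    simp only [hq]
    rw [Finset.sum_fiberwise]
    exact hP n _
  -- constants commuting with the weights
  have hac : ∀ d ∈ D, ∀ τ, AC (X τ) fun _ => (d : A⁺¹) := fun d hd τ =>
    ac_Xw hFb (fun v => hfD v d hd) τ
  have hDs : ∀ i j, s i j ∈ D ∧ star (s i j) ∈ D := fun i j => by
    constructor <;>
      simp only [hD, Finset.mem_union, Finset.mem_image, Finset.mem_univ, true_and] <;>
      [exact Or.inl (Or.inl (Or.inl ⟨(i, j), rfl⟩)); exact Or.inl (Or.inl (Or.inr ⟨(i, j), rfl⟩))]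
  have hDR : ∀ v l, R v l ∈ D := fun v l => by
    simp only [hD, Finset.mem_union, Finset.mem_image, Finset.mem_univ, true_and]
    exact Or.inr ⟨(v, l), rfl⟩
  have hDg : CFC.sqrt g0 ∈ D := by
    simp only [hD, Finset.mem_union, Finset.mem_singleton]
    exact Or.inl (Or.inr trivial)
  set r : A⁺¹ := ((CFC.sqrt g0 : A) : A⁺¹) with hr
  have hrs : star r = r := ((CFC.sqrt_nonneg g0).isSelfAdjoint.inr ℂ).star_eq
  have hrr : r * r = (g0 : A⁺¹) := by
    rw [hr, ← inr_mul, CFC.sqrt_mul_sqrt_self g0]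
  have hqr : ∀ i, AC (q i) fun _ => r := fun i =>
    AC.sum_left _ fun τ _ => AC.mul_left (hXb τ).star (hXb τ)
      (ac_Xw_star hFb hFs (fun v => by rw [hrs]; exact hfD v _ hDg) τ) (hac _ hDg τ)
  have hqb : ∀ i, Bd (q i) := fun i => Bd.sum _ fun τ _ => hpb τ
  -- the lower bound
  set Φ : ℕ → A⁺¹ := fun n => ∑ τ, (star (Yw (fun v => F v n) τ) * Yw (fun v => F v n) τ +
    ∑ τ' ∈ (Finset.univ.filter fun τ' => idx τ' = idx τ).erase τ,
      star (X τ n * X τ' n) * (X τ n * X τ' n)) with hΦ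
  set G : ℕ → A⁺¹ := fun n => ∑ i, q i n * (g0 : A⁺¹) * q i n with hG
  have hqq : AZ fun n => (∑ i, q i n * q i n) - Φ n := by
    refine (AZ.sum Finset.univ fun τ _ => (az_sq hFb hFs hff τ).add
      (AZ.sum ((Finset.univ.filter fun τ' => idx τ' = idx τ).erase τ) fun τ' _ =>
        az_cross hFb hFs hff τ τ')).congr fun n => ?_
    have e : ∑ i, q i n * q i n
        = ∑ τ, (p τ n * p τ n + ∑ τ' ∈ (Finset.univ.filter fun τ' => idx τ' = idx τ).erase τ,
            p τ n * p τ' n) := by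
      rw [← Finset.sum_fiberwise Finset.univ idx (fun τ => p τ n * p τ n +
        ∑ τ' ∈ (Finset.univ.filter fun τ' => idx τ' = idx τ).erase τ, p τ n * p τ' n)]
      refine Finset.sum_congr rfl fun i _ => ?_
      simp only [hq]
      rw [Finset.sum_mul]
      refine Finset.sum_congr rfl fun τ hτ => ?_
      rw [Finset.mem_filter] at hτ
      rw [hτ.2, Finset.mul_sum, Finset.add_sum_erase _ (fun τ' => p τ n * p τ' n) (by simp [hτ.2])]
    simp only [e, hΦ, hp, hX, Finset.sum_sub_distrib, Finset.sum_add_distrib]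
    abel
  have hGΦ : AZ fun n => G n - r * Φ n * r := by
    have h1 : AZ fun n => ∑ i, (q i n * (g0 : A⁺¹) * q i n - r * (q i n * q i n) * r) := by
      refine AZ.sum Finset.univ fun i _ => ?_
      refine ((AZ.mul_bd (hqr i) ((Bd.const r).mul (hqb i))).sub
        (AZ.bd_mul ((Bd.const r).mul (hqb i)) (hqr i))).congr fun n => ?_
      rw [← hrr]
      noncomm_ring
    refine (h1.add (AZ.mul_bd (AZ.bd_mul (Bd.const r) hqq) (Bd.const r))).congr fun n => ?_
    simp only [hG, Finset.sum_sub_distrib, ← Finset.mul_sum, ← Finset.sum_mul]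
    noncomm_ring
  have hlow : ∀ n, ((1 / 8 : ℝ) ^ m) • (g0 : A⁺¹) ≤ r * Φ n * r := by
    intro n
    have h1 := sum_yw_lower hI hord (f := fun v => f v n)
      (fun v => ⟨(hf v n).1, (hf v n).2.1.isSelfAdjoint⟩) (CFC.sqrt g0)
    rw [← hr, hrs, hrr] at h1
    refine h1.trans ?_
    refine (IsSelfAdjoint.conjugate_le_conjugate ?_ hrs)
    simp only [hΦ]
    refine Finset.sum_le_sum fun τ _ => le_add_of_nonneg_right ?_
    exact Finset.sum_nonneg fun τ' _ => star_mul_self_nonneg _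
  -- cross terms
  have hcross : ∀ v j l, ∃ u : ℕ → A⁺¹, AZ u ∧
      ∀ n, ‖(∑ i, q i n * ((star (s i j) * R v l : A) : A⁺¹)) - u n‖ ≤ 4 * σ0 := by
    intro v j l
    set C : (Fin V → Bool) → A := fun τ => star (s (idx τ) j) * R v l with hC
    set Sg := Finset.univ.filter fun τ : Fin V → Bool => idx τ ∉ Bad v with hSg
    refine ⟨fun n => (∑ τ ∈ Sg, (p τ n * (C τ : A⁺¹) - star (X τ n) * (C τ : A⁺¹) * X τ n)) +
      ∑ τ ∈ Finset.univ \ Sg, p τ n * (C τ : A⁺¹), ?_, fun n => ?_⟩
    · refine AZ.add (AZ.sum _ fun τ _ => ?_) (AZ.sum _ fun τ hτ => ?_)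
      · have hacC : AC (X τ) fun _ => (C τ : A⁺¹) := by
          have := ((AC.mul_left (Bd.const _) (Bd.const _) (hac _ (hDs (idx τ) j).2 τ).symm
            (hac _ (hDR v l) τ).symm)).symm
          simpa only [hC, inr_mul] using this
        exact (AZ.bd_mul (hXb τ).star hacC).congr fun n => by simp only [hp]; noncomm_ring
      · simp only [hSg, Finset.mem_sdiff, Finset.mem_univ, Finset.mem_filter, true_and,
          not_not] at hτ
        by_cases hcard : (Finset.univ.filter fun w => τ w = true).card ≤ m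
        · have hv : τ v = false := by
            by_contra h
            exact hidx τ hcard v (by simpa using h) hτ
          have hz : AZ fun n => X τ n * (R v l : A⁺¹) :=
            az_Xw_mul hFb (fun w => hfD w _ (hDR v l)) τ v hv
              (hfR v _ (Finset.mem_image_of_mem _ (Finset.mem_univ l)))
          refine ((AZ.bd_mul ((hXb τ).star.mul (Bd.const ((star (s (idx τ) j) : A) : A⁺¹))) hz).add
            (AZ.mul_bd (AZ.bd_mul (hXb τ).star (hac _ (hDs (idx τ) j).2 τ))
              (Bd.const (R v l : A⁺¹)))).congr fun n => ?_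
          simp only [hp, hC, inr_mul]
          noncomm_ring
        · refine AZ.zero.congr fun n => ?_
          have := Xw_eq_zero hI hord (f := fun v => f v n) (fun v => (hf v n).1) (σ := τ)
            (S := Finset.univ.filter fun w => τ w = true) (fun w hw => by simpa using hw)
            (by omega)
          simp only [hp, hX, hF, this, mul_zero, zero_mul]
    · have e : (∑ i, q i n * ((star (s i j) * R v l : A) : A⁺¹))
          = ∑ τ, p τ n * (C τ : A⁺¹) := by
        rw [← Finset.sum_fiberwise Finset.univ idx (fun τ => p τ n * (C τ : A⁺¹))]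
        refine Finset.sum_congr rfl fun i _ => ?_
        simp only [hq, Finset.sum_mul]
        refine Finset.sum_congr rfl fun τ hτ => ?_
        rw [Finset.mem_filter] at hτ
        simp only [hC, hτ.2]
      simp only [e, ← Finset.sum_sdiff (Finset.subset_univ Sg), Finset.sum_sub_distrib]
      rw [show ∀ a b c : A⁺¹, a + b - (b - c + a) = c by intros; abel]
      exact norm_conj_sum_le Sg (fun τ => X τ n) C hσ
        (fun τ hτ => hgood v _ (by simpa [hSg] using hτ) j l) (hP n Sg)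
  choose u hu hub using hcross
  -- pick a late index
  have ev : ∀ᶠ n in atTop, ‖G n - r * Φ n * r‖ < ε ∧ ∀ v j l, ‖u v j l n‖ < ε :=
    (hGΦ.eventually_lt hε).and (eventually_all.2 fun v => eventually_all.2 fun j =>
      eventually_all.2 fun l => (hu v j l).eventually_lt hε)
  obtain ⟨n, hn1, hn2⟩ := ev.exists
  set w : Fin K → A := fun j => ∑ i, ((q i n).fst • s i j + s i j * (q i n).snd) with hw
  have hwU : ∀ j, (w j : A⁺¹) = ∑ i, (s i j : A⁺¹) * q i n := fun j => by
    simp only [hw, inr_sum_eq, ← inr_mul_eq]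
  choose gi hgi1 hgi2 using fun i =>
    inr_mul_mem_right (I := (⊤ : Submodule ℂ A)) ⟨isClosed_univ, fun _ _ _ => ⟨trivial, trivial⟩⟩
      (q i n) (z := (q i n).fst • g0 + (q i n).snd * g0) trivial
  have hgiU : ∀ i, (gi i : A⁺¹) = q i n * (g0 : A⁺¹) * q i n := fun i => by
    rw [← hgi2 i]
    congr 1
    conv_rhs => rw [← inl_fst_add_inr_snd_eq (q i n), add_mul, inl_mul_inr, ← inr_mul]
    rw [inr_add]
  have hGU : ((∑ i, gi i : A) : A⁺¹) = G n := by simp only [inr_sum_eq, hgiU, hG]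
  have hG0 : 0 ≤ G n := Finset.sum_nonneg fun i _ => by
    have := star_left_conjugate_nonneg (inr_nonneg_iff.2 hg0 : (0 : A⁺¹) ≤ g0) (q i n)
    rwa [hqs i n] at this
  have hg0n : 0 ≤ ∑ i, gi i := inr_nonneg_iff.1 (by rw [hGU]; exact hG0)
  have hg01 : (g0 : A⁺¹) ≤ 1 := (CStarAlgebra.inr_mem_Icc_iff_norm_le.2 ⟨hg0, hg1⟩).2
  have hGle : G n ≤ 1 := by
    refine le_trans (Finset.sum_le_sum fun i _ => ?_) (hqsum n)
    have h1 := star_left_conjugate_le_conjugate hg01 (q i n)
    rw [hqs i n, mul_one] at h1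
    refine h1.trans ?_
    have h2 := CStarAlgebra.pow_antitone (hq0 i n) (hq1 i n) (show 1 ≤ 2 by norm_num)
    simpa [sq] using h2
  set Φr : A⁺¹ := r * Φ n * r with hΦr
  obtain ⟨e0, -, he0⟩ := inr_mul_mem (I := (⊤ : Submodule ℂ A))
    ⟨isClosed_univ, fun _ _ _ => ⟨trivial, trivial⟩⟩ (r * Φ n) (z := CFC.sqrt g0) trivial
  set E : A := e0 - ∑ i, gi i with hE
  have hEU : (E : A⁺¹) = Φr - G n := by rw [hE, inr_sub, hGU, hΦr, ← he0]
  have hΦs : IsSelfAdjoint (Φ n) := isSelfAdjoint_sum _ fun τ _ =>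
    (IsSelfAdjoint.star_mul_self _).add (isSelfAdjoint_sum _ fun τ' _ => IsSelfAdjoint.star_mul_self _)
  have hEs : IsSelfAdjoint E := by
    have h : IsSelfAdjoint ((E : A) : A⁺¹) := by
      rw [hEU]
      refine IsSelfAdjoint.sub ?_ hG0.isSelfAdjoint
      simp [hΦr, IsSelfAdjoint, star_mul, hrs, hΦs.star_eq, mul_assoc]
    exact (Unitization.isSelfAdjoint_inr (R := ℂ)).1 h
  refine ⟨w, ∑ i, gi i, E, fun z hz j => RMem.sum _ fun i _ =>
      ((hz i j).smul _).add ((hz i j).mul _), hg0n, ?_, ?_, hEs, ?_, fun j j' => ?_,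
    fun v j l => ?_⟩
  · rw [← norm_inr (𝕜 := ℂ), hGU]; exact norm_le_one_of_le hG0 hGle
  · rw [← norm_inr (𝕜 := ℂ), hEU, norm_sub_rev]; exact hn1.le
  · rw [← inr_le_iff _ _ ((IsSelfAdjoint.all _).smul hg0.isSelfAdjoint)
      (hg0n.isSelfAdjoint.add hEs), inr_add, hGU, hEU, inr_smul]
    simpa using hlow n
  · rw [← norm_inr (𝕜 := ℂ)]
    have e : ((star (w j) * w j' - (if j = j' then ∑ i, gi i else 0) : A) : A⁺¹)
        = ∑ i, ∑ i', q i n *
            ((star (s i j) * s i' j' - (if i = i' ∧ j = j' then g0 else 0) : A) : A⁺¹) * q i' n := by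
      simp only [inr_sub, inr_mul, inr_star, hwU, star_sum, star_mul, hqs, mul_sub, sub_mul,
        Finset.sum_sub_distrib, Finset.sum_mul, Finset.mul_sum, mul_assoc]
      rw [Finset.sum_comm (f := fun i i' => q i' n * (star (s i' j : A⁺¹) * ((s i j' : A⁺¹) * q i n)))]
      congr 1
      by_cases hjj : j = j'
      · subst hjj
        simp only [and_true, if_true, hGU, hG]
        refine Finset.sum_congr rfl fun i _ => ?_
        rw [Finset.sum_eq_single i (fun b _ hb => by simp [Ne.symm hb]) (by simp)]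
        simp [mul_assoc]
      · simp [hjj]
    rw [e]
    refine (norm_sum_le _ _).trans ?_
    calc ∑ i : Fin N, ‖∑ i', q i n * ((star (s i j) * s i' j' -
          (if i = i' ∧ j = j' then g0 else 0) : A) : A⁺¹) * q i' n‖
        ≤ ∑ _i : Fin N, ∑ _i' : Fin N, η := by
          refine Finset.sum_le_sum fun i _ => (norm_sum_le _ _).trans (Finset.sum_le_sum fun i' _ => ?_)
          refine (norm_mul₃_le ..).trans ?_
          rw [norm_inr]
          calc _ ≤ 1 * η * 1 := by
                gcongr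
                all_goals first
                  | exact hqn i n
                  | exact hqn i' n
                  | exact hs i i' j j'
                  | exact (norm_nonneg _).trans (hs i i' j j')
                  | linarith [(norm_nonneg _).trans (hs i i' j j')]
            _ = η := by ring
      _ = (N : ℝ) * N * η := by simp [mul_assoc]
  · rw [← norm_inr (𝕜 := ℂ)]
    have e : ((star (w j) * R v l : A) : A⁺¹)
        = ∑ i, q i n * ((star (s i j) * R v l : A) : A⁺¹) := by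
      simp only [inr_mul, inr_star, hwU, star_sum, star_mul, hqs, Finset.sum_mul, mul_assoc]
    rw [e]
    have h1 := norm_le_insert' (∑ i, q i n * ((star (s i j) * R v l : A) : A⁺¹)) (u v j l n)
    have h2 := hub v j l n
    have h3 := hn2 v j l
    linarith

end Vale.Agent.P133dim
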