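import Vale.Agent.P133.Combine

/-!
Partitions of unity indexed by subsets, and local-to-global bounds through ideals.
-/

set_option linter.unusedSectionVars false

namespace Vale.Agent.P133dim

open Vale.Agent.P133 Unitization
open scoped CStarAlgebra

variable {A : Type*} [NonUnitalCStarAlgebra A] [PartialOrder A] [StarOrderedRing A]

section Alg

variable {U : Type*} [Ring U]

/-- `x` or `1 - x`. -/
def pick (b : Bool) (x : U) : U := if b then x else 1 - x

/-- The ordered product of the `pick`s of `f` along `σ`. -/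
def Xw : {V : ℕ} → (Fin V → U) → (Fin V → Bool) → U
  | 0, _, _ => 1
  | _ + 1, f, σ => Xw (fun v => f v.succ) (fun v => σ v.succ) * pick (σ 0) (f 0)

/-- The ordered product of the squares of the `pick`s. -/
def Yw : {V : ℕ} → (Fin V → U) → (Fin V → Bool) → U
  | 0, _, _ => 1
  | _ + 1, f, σ => Yw (fun v => f v.succ) (fun v => σ v.succ) * (pick (σ 0) (f 0) * pick (σ 0) (f 0))

lemma sum_bool_fun {M : Type*} [AddCommMonoid M] {V : ℕ} (g : (Fin (V + 1) → Bool) → M) :
    ∑ σ, g σ = ∑ b, ∑ τ : Fin V → Bool, g (Fin.cons b τ) := by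
  rw [← (Fin.consEquiv fun _ => Bool).sum_comp g, Fintype.sum_prod_type]
  rfl

lemma sum_star_cons [StarRing U] {V : ℕ} (W : (Fin V → Bool) → U) (q : Bool → U) :
    (∑ b, ∑ τ, star (W τ * q b) * (W τ * q b)) = ∑ b, star (q b) * (∑ τ, star (W τ) * W τ) * q b := by
  refine Finset.sum_congr rfl fun b _ => ?_
  rw [Finset.mul_sum, Finset.sum_mul]
  exact Finset.sum_congr rfl fun τ _ => by simp only [star_mul, mul_assoc]

end Alg

section Bounds

variable {U : Type*} [CStarAlgebra U] [PartialOrder U] [StarOrderedRing U]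

lemma sq_add_sq_one_sub_le {x : U} (h0 : 0 ≤ x) (h1 : x ≤ 1) :
    x * x + (1 - x) * (1 - x) ≤ 1 := by
  have h : x ^ 2 ≤ x ^ 1 := CStarAlgebra.pow_antitone h0 h1 (by norm_num)
  rw [pow_one, sq] at h
  rw [← sub_nonneg, show (1 : U) - (x * x + (1 - x) * (1 - x))
    = (x - x * x) + (x - x * x) by noncomm_ring]
  exact add_nonneg (sub_nonneg.2 h) (sub_nonneg.2 h)

lemma one_eighth_le {x : U} (hx : IsSelfAdjoint x) :
    (1 / 8 : ℝ) • (1 : U) ≤ x * x * (x * x) + (1 - x) * (1 - x) * ((1 - x) * (1 - x)) := by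
  set u := x + x - 1 with hu
  have hus : star u = u := by simp [hu, hx.star_eq]
  have h1 : 0 ≤ u * u := by simpa [hus] using star_mul_self_nonneg u
  have h2 : 0 ≤ u * u * (u * u) := by simpa [hus] using star_mul_self_nonneg (u * u)
  have e : (8 : ℕ) • (x * x * (x * x) + (1 - x) * (1 - x) * ((1 - x) * (1 - x)))
      = 1 + ((6 : ℕ) • (u * u) + u * u * (u * u)) := by
    rw [hu]; noncomm_ring
  have h3 : (1 : U) ≤ (8 : ℕ) • (x * x * (x * x) + (1 - x) * (1 - x) * ((1 - x) * (1 - x))) := by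
    rw [e]
    exact le_add_of_nonneg_right (add_nonneg (nsmul_nonneg h1 _) h2)
  have h4 := smul_le_smul_of_nonneg_left h3 (show (0 : ℝ) ≤ 1 / 8 by norm_num)
  rw [← Nat.cast_smul_eq_nsmul ℝ, smul_smul] at h4
  norm_num at h4 ⊢
  exact h4

lemma star_pick {x : U} (hx : IsSelfAdjoint x) (b : Bool) : star (pick b x) = pick b x := by
  cases b <;> simp [pick, hx.star_eq]

lemma sum_pw_le_one : ∀ {V : ℕ} {f : Fin V → U}, (∀ v, 0 ≤ f v ∧ f v ≤ 1) →
    ∑ σ, star (Xw f σ) * Xw f σ ≤ 1 := by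
  intro V
  induction V with
  | zero => intro f _; simp [Xw]
  | succ V ih =>
    intro f hf
    rw [sum_bool_fun]
    simp only [Xw, Fin.cons_zero, Fin.cons_succ]
    rw [sum_star_cons]
    refine le_trans ?_ (sq_add_sq_one_sub_le (hf 0).1 (hf 0).2)
    refine le_trans (Finset.sum_le_sum fun b _ =>
      star_left_conjugate_le_conjugate (ih fun v => hf v.succ) _) (le_of_eq ?_)
    simp only [mul_one, Fintype.sum_bool, star_pick (hf 0).1.isSelfAdjoint]
    simp [pick]

lemma le_sum_yw : ∀ {V : ℕ} {f : Fin V → U}, (∀ v, IsSelfAdjoint (f v)) →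
    ∀ c : Fin V → ℝ, (∀ v, c v = 1 / 8 ∨ (c v = 1 ∧ f v = 0)) →
    (∏ v, c v) • (1 : U) ≤ ∑ σ, star (Yw f σ) * Yw f σ := by
  intro V
  induction V with
  | zero => intro f _ c _; simp [Yw]
  | succ V ih =>
    intro f hf c hc
    rw [sum_bool_fun]
    simp only [Yw, Fin.cons_zero, Fin.cons_succ]
    rw [sum_star_cons]
    have hpos : 0 ≤ ∏ v : Fin V, c v.succ := Finset.prod_nonneg fun v _ => by
      rcases hc v.succ with h | ⟨h, -⟩ <;> rw [h] <;> norm_num
    refine le_trans ?_ (Finset.sum_le_sum fun b _ =>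
      star_left_conjugate_le_conjugate (ih (fun v => hf v.succ) _ fun v => hc v.succ) _)
    simp only [mul_smul_comm, smul_mul_assoc, mul_one, ← Finset.smul_sum]
    rw [Fin.prod_univ_succ, mul_comm (c 0), ← smul_smul]
    refine smul_le_smul_of_nonneg_left ?_ hpos
    simp only [Fintype.sum_bool, star_mul, star_pick (hf 0)]
    rcases hc 0 with h | ⟨h, h0⟩
    · rw [h]
      simpa [pick, mul_assoc] using one_eighth_le (hf 0)
    · simp [h, h0, pick]

end Bounds

lemma inr_mul_mem {I : Submodule ℂ A} (hI : IsClosedIdeal A I) (E : A⁺¹) {z : A} (hz : z ∈ I) :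
    ∃ w ∈ I, E * (z : A⁺¹) = (w : A⁺¹) := by
  refine ⟨E.fst • z + E.snd * z, add_mem (I.smul_mem _ hz) (hI.2 _ z hz).1, ?_⟩
  conv_lhs => rw [← inl_fst_add_inr_snd_eq E, add_mul, inl_mul_inr, ← inr_mul]
  rw [inr_add]

lemma inr_mul_mem_right {I : Submodule ℂ A} (hI : IsClosedIdeal A I) (E : A⁺¹) {z : A}
    (hz : z ∈ I) : ∃ w ∈ I, (z : A⁺¹) * E = (w : A⁺¹) := by
  refine ⟨E.fst • z + z * E.snd, add_mem (I.smul_mem _ hz) (hI.2 _ z hz).2, ?_⟩
  conv_lhs => rw [← inl_fst_add_inr_snd_eq E, mul_add, inr_mul_inl, ← inr_mul]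
  rw [inr_add]

lemma isClosedIdeal_iInf {V : ℕ} {I : Fin V → Submodule ℂ A} (hI : ∀ v, IsClosedIdeal A (I v))
    (S : Finset (Fin V)) : IsClosedIdeal A (⨅ v ∈ S, I v) := by
  constructor
  · rw [Submodule.coe_iInf]
    refine isClosed_iInter fun v => ?_
    rw [Submodule.coe_iInf]
    exact isClosed_iInter fun _ => (hI v).1
  · intro a j hj
    simp only [Submodule.mem_iInf] at hj ⊢
    exact ⟨fun v hv => ((hI v).2 a j (hj v hv)).1, fun v hv => ((hI v).2 a j (hj v hv)).2⟩

/-- The ordered product vanishes in the unitization when too many of its ideals are used. -/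
lemma Xw_mem : ∀ {V : ℕ} {I : Fin V → Submodule ℂ A}, (∀ v, IsClosedIdeal A (I v)) →
    ∀ f : Fin V → A, (∀ v, f v ∈ I v) → ∀ σ : Fin V → Bool, ∀ v, σ v = true →
    ∃ w ∈ I v, Xw (fun v => (f v : A⁺¹)) σ = (w : A⁺¹) := by
  intro V
  induction V with
  | zero => intro I hI f hf σ v; exact v.elim0
  | succ V ih =>
    intro I hI f hf σ v hv
    simp only [Xw]
    cases v using Fin.cases with
    | zero =>
      rw [hv]
      exact inr_mul_mem (hI 0) _ (hf 0)
    | succ v =>
      obtain ⟨w, hw, e⟩ := ih (fun v => hI v.succ) (fun v => f v.succ) (fun v => hf v.succ)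
        (fun v => σ v.succ) v hv
      rw [e]
      exact inr_mul_mem_right (hI v.succ) _ hw

lemma Xw_eq_zero {V m : ℕ} {I : Fin V → Submodule ℂ A} (hI : ∀ v, IsClosedIdeal A (I v))
    (hord : ∀ S : Finset (Fin V), m < S.card → (⨅ v ∈ S, I v) = ⊥) {f : Fin V → A}
    (hf : ∀ v, f v ∈ I v) {σ : Fin V → Bool} {S : Finset (Fin V)} (hS : ∀ v ∈ S, σ v = true)
    (hm : m < S.card) : Xw (fun v => (f v : A⁺¹)) σ = 0 := by
  obtain ⟨v0, hv0⟩ : S.Nonempty := Finset.card_pos.1 (lt_of_le_of_lt (Nat.zero_le m) hm)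
  obtain ⟨w, -, e⟩ := Xw_mem hI f hf σ v0 (hS v0 hv0)
  have hw : w ∈ (⨅ v ∈ S, I v) := by
    simp only [Submodule.mem_iInf]
    intro v hv
    obtain ⟨w', hw', e'⟩ := Xw_mem hI f hf σ v (hS v hv)
    have : w = w' := inr_injective (R := ℂ) (e.symm.trans e')
    rwa [this]
  rw [hord S hm, Submodule.mem_bot] at hw
  rw [e, hw, inr_zero]

/-- If `y = (E)₊` is killed ideal by ideal, then `E` is nonpositive on `A`. -/
lemma conj_nonpos_of_local {V m : ℕ} {I : Fin V → Submodule ℂ A} (hI : ∀ v, IsClosedIdeal A (I v))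
    (hord : ∀ S : Finset (Fin V), m < S.card → (⨅ v ∈ S, I v) = ⊥) {E : A⁺¹}
    (hE : IsSelfAdjoint E)
    (hloc : ∀ S : Finset (Fin V), S.card ≤ m →
      (∀ v ∉ S, ∀ z ∈ (⨅ w ∈ insert v S, I w), cfc (fun t : ℝ => max t 0) E * (z : A⁺¹) = 0) →
      ∀ z ∈ (⨅ w ∈ S, I w),
        star (z : A⁺¹) * (cfc (fun t : ℝ => max t 0) E * E * cfc (fun t : ℝ => max t 0) E)
          * (z : A⁺¹) ≤ 0) :
    ∀ k : A, star (k : A⁺¹) * E * (k : A⁺¹) ≤ 0 := by
  set y := cfc (fun t : ℝ => max t 0) E with hy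
  have hys : star y = y := (cfc_predicate (p := IsSelfAdjoint) _ E).star_eq
  set r := cfc (fun t : ℝ => Real.sqrt (max t 0) * max t 0) E with hr
  have hr' : star r * r = y * E * y := by
    rw [(cfc_predicate (p := IsSelfAdjoint) _ E).star_eq, hr, hy]
    nth_rw 4 [← cfc_id ℝ E]
    rw [← cfc_mul .., ← cfc_mul .., ← cfc_mul ..]
    refine cfc_congr fun t _ => ?_
    rcases le_total t 0 with h | h
    · simp [max_eq_right h]
    · simp only [max_eq_left h, id]
      calc √t * t * (√t * t) = (√t * √t) * (t * t) := by ring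
        _ = t * t * t := by rw [Real.mul_self_sqrt h]; ring
  have hyy : ∀ z : A⁺¹, r * z = 0 → y * z = 0 := by
    intro z hz
    have e : y * y = cfc (fun t : ℝ => Real.sqrt (max t 0)) E * r := by
      rw [hy, hr, ← cfc_mul .., ← cfc_mul ..]
      refine cfc_congr fun t _ => ?_
      simp only [← mul_assoc, Real.mul_self_sqrt (le_max_right t 0)]
    have : y * y * z = 0 := by rw [e, mul_assoc, hz, mul_zero]
    rw [← CStarRing.star_mul_self_eq_zero_iff, star_mul, hys,
      show star z * y * (y * z) = star z * (y * y * z) by simp only [mul_assoc], this, mul_zero]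
  have key : ∀ j, ∀ S : Finset (Fin V), S.card + j = m + 1 →
      ∀ z ∈ (⨅ w ∈ S, I w), y * (z : A⁺¹) = 0 := by
    intro j
    induction j with
    | zero =>
      intro S hS z hz
      rw [hord S (by omega), Submodule.mem_bot] at hz
      simp [hz]
    | succ j ih =>
      intro S hS z hz
      refine hyy _ ?_
      rw [← CStarRing.star_mul_self_eq_zero_iff, star_mul,
        show star (z : A⁺¹) * star r * (r * (z : A⁺¹)) = star (z : A⁺¹) * (star r * r) * (z : A⁺¹) by
          simp only [mul_assoc]]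
      refine le_antisymm ?_ (star_left_conjugate_nonneg (star_mul_self_nonneg r) _)
      rw [hr']
      refine hloc S (by omega) (fun v hv w hw => ih _ ?_ w hw) z hz
      rw [Finset.card_insert_of_notMem hv]
      omega
  intro k
  have hk : y * (k : A⁺¹) = 0 := key (m + 1) ∅ (by simp) k (by simp)
  have hle : E ≤ y := by
    rw [hy]
    nth_rw 1 [← cfc_id ℝ E]
    exact cfc_mono fun t _ => le_max_left t 0
  refine (star_left_conjugate_le_conjugate hle _).trans (le_of_eq ?_)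
  rw [mul_assoc, hk, mul_zero]

/-- If ideals meet in zero more than `m` at a time, so their positive elements add boundedly. -/
lemma norm_sum_le_of_order {V m : ℕ} {I : Fin V → Submodule ℂ A} (hI : ∀ v, IsClosedIdeal A (I v))
    (hord : ∀ S : Finset (Fin V), m < S.card → (⨅ v ∈ S, I v) = ⊥) {X : Fin V → A}
    (hX : ∀ v, X v ∈ I v ∧ 0 ≤ X v) {σ : ℝ} (hσ : 0 ≤ σ) (hb : ∀ v, ‖X v‖ ≤ σ) :
    ‖∑ v, X v‖ ≤ m * σ := by
  set Z := ∑ v, X v with hZ
  have hZ0 : 0 ≤ Z := Finset.sum_nonneg fun v _ => (hX v).2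
  set E : A⁺¹ := (Z : A⁺¹) - (m * σ : ℝ) • (1 : A⁺¹) with hE
  have hEs : IsSelfAdjoint E :=
    (hZ0.isSelfAdjoint.inr ℂ).sub ((IsSelfAdjoint.all _).smul (IsSelfAdjoint.one _))
  have hcore := conj_nonpos_of_local hI hord hEs fun S hS hkill z hz => by
    set y := cfc (fun t : ℝ => max t 0) E with hy
    have hys : star y = y := (cfc_predicate (p := IsSelfAdjoint) _ E).star_eq
    have hIS := isClosedIdeal_iInf hI S
    obtain ⟨u, hu, eu⟩ := inr_mul_mem hIS y hz
    have hterm : ∀ v ∉ S, y * ((X v : A⁺¹) * (y * (z : A⁺¹))) = 0 := by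
      intro v hv
      rw [eu, ← inr_mul]
      refine hkill v hv _ ?_
      rw [Finset.iInf_insert, Submodule.mem_inf]
      exact ⟨((hI v).2 u _ (hX v).1).2, (hIS.2 (X v) u hu).1⟩
    have h1 : star (z : A⁺¹) * (y * (Z : A⁺¹) * y) * (z : A⁺¹)
        = ∑ v ∈ S, star (y * (z : A⁺¹)) * (X v : A⁺¹) * (y * (z : A⁺¹)) := by
      rw [Finset.sum_subset S.subset_univ
        (f := fun v => star (y * (z : A⁺¹)) * (X v : A⁺¹) * (y * (z : A⁺¹))) (fun v _ hv => by
        rw [star_mul, hys, mul_assoc, mul_assoc, hterm v hv, mul_zero])]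
      have eZ : (Z : A⁺¹) = ∑ v, (X v : A⁺¹) := by
        rw [hZ]; exact map_sum (inrNonUnitalStarAlgHom ℂ A) X _
      simp only [eZ, Finset.mul_sum, Finset.sum_mul, star_mul, hys, mul_assoc]
    have h2 : ∀ v, (X v : A⁺¹) ≤ σ • (1 : A⁺¹) := fun v => by
      rw [← Algebra.algebraMap_eq_smul_one]
      exact (CStarAlgebra.norm_le_iff_le_algebraMap _ hσ (inr_nonneg_iff.2 (hX v).2)).1
        (by rw [norm_inr]; exact hb v)
    have h3 : star (z : A⁺¹) * (y * (Z : A⁺¹) * y) * (z : A⁺¹)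
        ≤ (m * σ : ℝ) • (star (y * (z : A⁺¹)) * (y * (z : A⁺¹))) := by
      rw [h1]
      refine (Finset.sum_le_sum fun v _ => star_left_conjugate_le_conjugate (h2 v) _).trans ?_
      simp only [mul_smul_comm, smul_mul_assoc, mul_one, Finset.sum_const,
        ← Nat.cast_smul_eq_nsmul ℝ, smul_smul]
      exact smul_le_smul_of_nonneg_right
        (mul_le_mul_of_nonneg_right (Nat.cast_le.2 hS) hσ) (star_mul_self_nonneg _)
    rw [show star (z : A⁺¹) * (y * E * y) * (z : A⁺¹)
        = star (z : A⁺¹) * (y * (Z : A⁺¹) * y) * (z : A⁺¹)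
          - (m * σ : ℝ) • (star (y * (z : A⁺¹)) * (y * (z : A⁺¹))) by
      simp only [hE, mul_sub, sub_mul, mul_smul_comm, smul_mul_assoc, mul_one, star_mul, hys,
        mul_assoc]]
    exact sub_nonpos.2 h3
  set s := CFC.sqrt Z
  have hs : star s = s := (CFC.sqrt_nonneg Z).isSelfAdjoint.star_eq
  have hss : s * s = Z := CFC.sqrt_mul_sqrt_self Z
  have hk := hcore s
  simp only [hE, mul_sub, sub_mul, mul_smul_comm, smul_mul_assoc, mul_one, sub_nonpos,
    ← inr_star, hs, ← inr_mul, hss, ← inr_smul] at hk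
  rw [show s * Z * s = Z * Z by rw [← hss]; noncomm_ring,
    inr_le_iff _ _ (by rw [← hss]; simp [IsSelfAdjoint, star_mul, hs, mul_assoc])
      ((IsSelfAdjoint.all _).smul hZ0.isSelfAdjoint)] at hk
  have h4 : ‖Z‖ * ‖Z‖ ≤ m * σ * ‖Z‖ := by
    have h0 : 0 ≤ Z * Z := by simpa [hZ0.isSelfAdjoint.star_eq] using star_mul_self_nonneg Z
    have := CStarAlgebra.norm_le_norm_of_nonneg_of_le h0 hk
    have e := CStarRing.norm_star_mul_self (x := Z)
    rw [hZ0.isSelfAdjoint.star_eq] at e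
    rwa [norm_smul, Real.norm_of_nonneg (by positivity), e] at this
  rcases eq_or_lt_of_le (norm_nonneg Z) with h | h
  · rw [← h]; positivity
  · exact le_of_mul_le_mul_right h4 h

/-- `D` sends `J` to elements killed by `y`. -/
def Kills (y : A⁺¹) (J : Submodule ℂ A) (D : A⁺¹) : Prop :=
  ∀ z ∈ J, ∀ E : A⁺¹, y * (E * (D * (z : A⁺¹))) = 0

lemma Kills.zero (y : A⁺¹) (J : Submodule ℂ A) : Kills y J 0 := fun z _ E => by simp

lemma Kills.add {y : A⁺¹} {J : Submodule ℂ A} {D D' : A⁺¹} (h : Kills y J D)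
    (h' : Kills y J D') : Kills y J (D + D') := fun z hz E => by
  rw [add_mul, mul_add, mul_add, h z hz E, h' z hz E, add_zero]

lemma Kills.mul_left {y : A⁺¹} {J : Submodule ℂ A} {D : A⁺¹} (h : Kills y J D) (C : A⁺¹) :
    Kills y J (C * D) := fun z hz E => by
  rw [mul_assoc C, ← mul_assoc E, h z hz (E * C)]

lemma Kills.mul_right {y : A⁺¹} {J : Submodule ℂ A} (hJ : IsClosedIdeal A J) {D : A⁺¹}
    (h : Kills y J D) (C : A⁺¹) : Kills y J (D * C) := fun z hz E => by
  obtain ⟨w, hw, e⟩ := inr_mul_mem hJ C hz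
  rw [mul_assoc D, e]
  exact h w hw E

lemma Kills.mul_sub {y : A⁺¹} {J : Submodule ℂ A} (hJ : IsClosedIdeal A J) {a b a' b' : A⁺¹}
    (h : Kills y J (a - a')) (h' : Kills y J (b - b')) : Kills y J (a * b - a' * b') := by
  rw [show a * b - a' * b' = (a - a') * b + a' * (b - b') by noncomm_ring]
  exact (h.mul_right hJ b).add (h'.mul_left a')

lemma Kills.star_mul_sub {y : A⁺¹} {J : Submodule ℂ A} (hJ : IsClosedIdeal A J) {a a' : A⁺¹}
    (h : Kills y J (a - a')) (h' : Kills y J (star a - star a')) :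
    Kills y J (star a * a - star a' * a') :=
  h'.mul_sub hJ h

lemma Kills.pick {y : A⁺¹} {J : Submodule ℂ A} {a a' : A⁺¹} (h : Kills y J (a - a'))
    (h' : Kills y J (a' - a)) (b : Bool) : Kills y J (pick b a - pick b a') := by
  cases b
  · rw [show P133dim.pick false a - P133dim.pick false a' = a' - a by simp [P133dim.pick]]
    exact h'
  · simpa [P133dim.pick] using h

lemma Kills.Yw {y : A⁺¹} {J : Submodule ℂ A} (hJ : IsClosedIdeal A J) :
    ∀ {V : ℕ} {f g : Fin V → A⁺¹}, (∀ v, Kills y J (f v - g v) ∧ Kills y J (g v - f v)) →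
      (∀ v, IsSelfAdjoint (f v) ∧ IsSelfAdjoint (g v)) → ∀ σ,
      Kills y J (P133dim.Yw f σ - P133dim.Yw g σ) ∧
        Kills y J (star (P133dim.Yw f σ) - star (P133dim.Yw g σ)) := by
  intro V
  induction V with
  | zero =>
    intro f g _ _ σ
    simp only [P133dim.Yw, sub_self]
    exact ⟨Kills.zero y J, Kills.zero y J⟩
  | succ V ih =>
    intro f g h hs σ
    obtain ⟨h1, h2⟩ := ih (fun v => h v.succ) (fun v => hs v.succ) fun v => σ v.succ
    have hp := (h 0).1.pick (h 0).2 (σ 0)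
    have hpp := hp.mul_sub hJ hp
    refine ⟨h1.mul_sub hJ hpp, ?_⟩
    simp only [P133dim.Yw, star_mul, star_pick (hs 0).1, star_pick (hs 0).2]
    exact hpp.mul_sub hJ h2

/-- The squared weights keep a definite proportion of every element. -/
lemma sum_yw_lower {V m : ℕ} {I : Fin V → Submodule ℂ A} (hI : ∀ v, IsClosedIdeal A (I v))
    (hord : ∀ S : Finset (Fin V), m < S.card → (⨅ v ∈ S, I v) = ⊥) {f : Fin V → A}
    (hf : ∀ v, f v ∈ I v ∧ IsSelfAdjoint (f v)) (k : A) :
    ((1 / 8 : ℝ) ^ m) • (star (k : A⁺¹) * (k : A⁺¹)) ≤ star (k : A⁺¹) *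
      (∑ σ, star (Yw (fun v => (f v : A⁺¹)) σ) * Yw (fun v => (f v : A⁺¹)) σ) * (k : A⁺¹) := by
  classical
  set N := ∑ σ, star (Yw (fun v => (f v : A⁺¹)) σ) * Yw (fun v => (f v : A⁺¹)) σ with hN
  set c : ℝ := (1 / 8 : ℝ) ^ m with hc
  set E : A⁺¹ := c • (1 : A⁺¹) - N with hE
  have hNs : IsSelfAdjoint N := isSelfAdjoint_sum _ fun σ _ => IsSelfAdjoint.star_mul_self _
  have hEs : IsSelfAdjoint E := ((IsSelfAdjoint.all _).smul (IsSelfAdjoint.one _)).sub hNs
  have hcore := conj_nonpos_of_local hI hord hEs fun S hS hkill z hz => by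
    set y := cfc (fun t : ℝ => max t 0) E with hy
    have hys : star y = y := (cfc_predicate (p := IsSelfAdjoint) _ E).star_eq
    have hJ := isClosedIdeal_iInf hI S
    set g : Fin V → A⁺¹ := fun v => if v ∈ S then (f v : A⁺¹) else 0 with hg
    have hgs : ∀ v, IsSelfAdjoint ((f v : A⁺¹)) ∧ IsSelfAdjoint (g v) := fun v => by
      refine ⟨(hf v).2.inr ℂ, ?_⟩
      simp only [hg]; split
      · exact (hf v).2.inr ℂ
      · exact IsSelfAdjoint.zero _
    have hbase : ∀ v ∉ S, Kills y (⨅ w ∈ S, I w) (f v : A⁺¹) := by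
      intro v hv w hw E'
      rw [← inr_mul]
      have hm : f v * w ∈ (⨅ w ∈ insert v S, I w) := by
        rw [Finset.iInf_insert, Submodule.mem_inf]
        exact ⟨((hI v).2 w _ (hf v).1).2, (hJ.2 (f v) w hw).1⟩
      obtain ⟨u, hu, e⟩ := inr_mul_mem (isClosedIdeal_iInf hI (insert v S)) E' hm
      rw [e]
      exact hkill v hv u hu
    have hfg : ∀ v, Kills y (⨅ w ∈ S, I w) ((f v : A⁺¹) - g v) ∧
        Kills y (⨅ w ∈ S, I w) (g v - (f v : A⁺¹)) := by
      intro v
      by_cases hv : v ∈ S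
      · simp only [hg, hv, if_true, sub_self]
        exact ⟨Kills.zero _ _, Kills.zero _ _⟩
      · simp only [hg, hv, if_false, sub_zero, zero_sub]
        refine ⟨hbase v hv, fun w hw E' => ?_⟩
        rw [neg_mul, mul_neg, mul_neg, hbase v hv w hw E', neg_zero]
    set NS := ∑ σ, star (Yw g σ) * Yw g σ with hNS
    have hdiff : Kills y (⨅ w ∈ S, I w) (N - NS) := by
      rw [hN, hNS, ← Finset.sum_sub_distrib]
      exact Finset.sum_induction _ (Kills y _) (fun _ _ a b => a.add b) (Kills.zero y _)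
        fun σ _ => ((Kills.Yw hJ hfg hgs σ).1.star_mul_sub hJ (Kills.Yw hJ hfg hgs σ).2)
    have hlow : c • (1 : A⁺¹) ≤ NS := by
      refine le_trans ?_ (le_sum_yw (fun v => (hgs v).2)
        (fun v => if v ∈ S then (1 / 8 : ℝ) else 1) fun v => ?_)
      · refine smul_le_smul_of_nonneg_right ?_ zero_le_one
        rw [Finset.prod_ite, Finset.prod_const_one, mul_one, Finset.prod_const,
          Finset.filter_mem_eq_inter, Finset.univ_inter, hc]
        exact pow_le_pow_of_le_one (by norm_num) (by norm_num) hS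
      · by_cases hv : v ∈ S <;> simp [hg, hv]
    obtain ⟨u, hu, eu⟩ := inr_mul_mem hJ y hz
    have h1 : y * ((N - NS) * (y * (z : A⁺¹))) = 0 := by
      rw [eu]
      simpa using hdiff u hu 1
    rw [show star (z : A⁺¹) * (y * E * y) * (z : A⁺¹)
        = star (y * (z : A⁺¹)) * (c • 1 - NS) * (y * (z : A⁺¹))
          - star (z : A⁺¹) * (y * ((N - NS) * (y * (z : A⁺¹)))) by
      simp only [hE, star_mul, hys]; noncomm_ring]
    rw [h1, mul_zero, sub_zero]
    have := star_left_conjugate_le_conjugate (sub_nonpos.2 hlow) (y * (z : A⁺¹))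
    simpa using this
  have := hcore k
  simp only [hE, mul_sub, sub_mul, mul_smul_comm, smul_mul_assoc, mul_one, sub_nonpos] at this
  exact this

end Vale.Agent.P133dim
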