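import Vale.Agent.P133.Combine

/-!
Quasicentral approximate units of a closed ideal, by averaging.
-/

set_option linter.unusedSectionVars false

namespace Vale.Agent.P133dim

open Vale.Agent.P133

variable {A : Type*} [NonUnitalCStarAlgebra A] [PartialOrder A] [StarOrderedRing A]

/-- A positive contraction in a closed ideal fixing finitely many of its elements up to `ε`. -/
lemma exists_unit {I : Submodule ℂ A} (hI : IsClosedIdeal A I) (H : Finset A)
    (hH : ∀ i ∈ H, i ∈ I) {ε : ℝ} (hε : 0 < ε) :
    ∃ u ∈ I, 0 ≤ u ∧ ‖u‖ ≤ 1 ∧ ∀ i ∈ H, ‖i * u - i‖ ≤ ε ∧ ‖u * i - i‖ ≤ ε := by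
  classical
  set S := ∑ i ∈ H, (star i * i + i * star i)
  have hS : S ∈ I := Submodule.sum_mem I fun i hi =>
    add_mem (hI.2 _ i (hH i hi)).1 (hI.2 _ i (hH i hi)).2
  set u := cfcₙ (unitFun (ε ^ 2)) S with hu
  have hus : star u = u := (IsSelfAdjoint.cfcₙ).star_eq
  refine ⟨u, (rmem_cfcₙ _ _).mem hI hS, cfcₙ_nonneg fun t _ => ?_, norm_unit_le (by positivity) S,
    fun i hi => ?_⟩
  · unfold unitFun
    positivity
  · have hle : star i * i + i * star i ≤ S :=
      Finset.single_le_sum (f := fun i => star i * i + i * star i)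
        (fun j _ => add_nonneg (star_mul_self_nonneg j) (mul_star_self_nonneg j)) hi
    have key : ∀ a, star a * a ≤ S → ‖a - a * u‖ ≤ ε := fun a ha => by
      simpa [Real.sqrt_sq hε.le, ← hu] using norm_sub_mul_unit_le (by positivity : 0 < ε ^ 2) ha
    constructor
    · rw [norm_sub_rev]
      exact key i ((le_add_of_nonneg_right (mul_star_self_nonneg i)).trans hle)
    · rw [norm_sub_rev, ← norm_star, star_sub, star_mul, hus]
      exact key (star i)
        (by rw [star_star]; exact (le_add_of_nonneg_left (star_mul_self_nonneg i)).trans hle)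

/-- Finitely many positive contractions of `I` fixing `H`, whose commutators with `D` are pairwise
almost orthogonal. -/
lemma exists_chain {I : Submodule ℂ A} (hI : IsClosedIdeal A I) (D H : Finset A)
    (hH : ∀ i ∈ H, i ∈ I) {ε : ℝ} (hε : 0 < ε) (N : ℕ) :
    ∃ e : Fin N → A, (∀ j, e j ∈ I ∧ 0 ≤ e j ∧ ‖e j‖ ≤ 1) ∧
      (∀ j, ∀ i ∈ H, ‖i * e j - i‖ ≤ ε ∧ ‖e j * i - i‖ ≤ ε) ∧
      ∀ g ∈ D, ∀ j k, j ≠ k →
        ‖star (g * e j - e j * g) * (g * e k - e k * g)‖ ≤ ε := by
  classical
  induction N with
  | zero => exact ⟨Fin.elim0, fun j => j.elim0, fun j => j.elim0, fun g _ j => j.elim0⟩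
  | succ N ih =>
    obtain ⟨e, he, heH, hed⟩ := ih
    set L : Finset A := H ∪ (Finset.univ : Finset (Fin N)).biUnion fun j => D.biUnion fun g =>
      {star (g * e j - e j * g), star (g * e j - e j * g) * g}
    set G := ∑ g ∈ D, ‖g‖
    have hG : 0 ≤ G := by positivity
    set ε' := ε / (G + 2)
    have hε' : 0 < ε' := by positivity
    have hd : ∀ g j, star (g * e j - e j * g) ∈ I := fun g j =>
      hI.star_mem (sub_mem (hI.2 g _ (he j).1).1 (hI.2 g _ (he j).1).2)
    obtain ⟨u, huI, hu0, hu1, huf⟩ := exists_unit hI L (fun i hi => by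
      simp only [L, Finset.mem_union, Finset.mem_biUnion, Finset.mem_insert,
        Finset.mem_singleton] at hi
      rcases hi with h | ⟨j, -, g, -, rfl | rfl⟩
      · exact hH i h
      · exact hd g j
      · exact (hI.2 g _ (hd g j)).2) hε'
    have hεε : ε' ≤ ε := by
      simp only [ε']
      exact div_le_self hε.le (by linarith)
    have hnew : ∀ g ∈ D, ∀ j,
        ‖star (g * e j - e j * g) * (g * u - u * g)‖ ≤ ε := by
      intro g hg j
      set d := star (g * e j - e j * g)
      have h1 := (huf (d * g) (by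
        simp only [L, Finset.mem_union, Finset.mem_biUnion, Finset.mem_insert,
          Finset.mem_singleton]
        exact Or.inr ⟨j, Finset.mem_univ _, g, hg, Or.inr rfl⟩)).1
      have h2 := (huf d (by
        simp only [L, Finset.mem_union, Finset.mem_biUnion, Finset.mem_insert,
          Finset.mem_singleton]
        exact Or.inr ⟨j, Finset.mem_univ _, g, hg, Or.inl rfl⟩)).1
      have hgG : ‖g‖ ≤ G := Finset.single_le_sum (f := fun g => ‖g‖) (fun _ _ => norm_nonneg _) hg
      rw [show d * (g * u - u * g) = (d * g * u - d * g) - (d * u - d) * g by noncomm_ring]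
      refine (norm_sub_le _ _).trans ?_
      have h3 : ‖(d * u - d) * g‖ ≤ ε' * G :=
        (norm_mul_le _ _).trans (mul_le_mul h2 hgG (norm_nonneg _) hε'.le)
      have h4 : ε' * (G + 2) = ε := by simp only [ε']; field_simp
      nlinarith
    refine ⟨Fin.snoc e u, fun j => ?_, fun j i hi => ?_, fun g hg j k hjk => ?_⟩
    · cases j using Fin.lastCases with
      | last => simpa using ⟨huI, hu0, hu1⟩
      | cast j => simpa using he j
    · cases j using Fin.lastCases with
      | last =>
        have := huf i (Finset.mem_union_left _ hi)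
        simp only [Fin.snoc_last]
        exact ⟨this.1.trans hεε, this.2.trans hεε⟩
      | cast j => simpa using heH j i hi
    · cases j using Fin.lastCases with
      | last =>
        cases k using Fin.lastCases with
        | last => exact absurd rfl hjk
        | cast k =>
          simp only [Fin.snoc_last, Fin.snoc_castSucc]
          rw [← norm_star, star_mul, star_star]
          exact hnew g hg k
      | cast j =>
        cases k using Fin.lastCases with
        | last =>
          simp only [Fin.snoc_last, Fin.snoc_castSucc]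
          exact hnew g hg j
        | cast k =>
          simp only [Fin.snoc_castSucc]
          exact hed g hg j k fun h => hjk (h ▸ rfl)

/-- A closed ideal has positive contractions fixing given elements of it and almost commuting with
given elements of the algebra. -/
lemma exists_quasicentral {I : Submodule ℂ A} (hI : IsClosedIdeal A I) (D H : Finset A)
    (hH : ∀ i ∈ H, i ∈ I) {ε : ℝ} (hε : 0 < ε) :
    ∃ f ∈ I, 0 ≤ f ∧ ‖f‖ ≤ 1 ∧ (∀ i ∈ H, ‖i * f - i‖ ≤ ε ∧ ‖f * i - i‖ ≤ ε) ∧
      ∀ g ∈ D, ‖g * f - f * g‖ ≤ ε := by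
  classical
  set G := ∑ g ∈ D, ‖g‖
  have hG : 0 ≤ G := by positivity
  obtain ⟨M, hM⟩ := exists_nat_gt (8 * (G + 1) ^ 2 / ε ^ 2)
  have hMpos : (0 : ℝ) < M := lt_of_le_of_lt (by positivity) hM
  obtain ⟨e, he, heH, hed⟩ :=
    exists_chain hI D H hH (lt_min hε (show 0 < ε ^ 2 / 2 by positivity)) M
  set a : ℝ := (M : ℝ)⁻¹
  have ha : 0 ≤ a := by positivity
  have haM : a * M = 1 := inv_mul_cancel₀ hMpos.ne'
  refine ⟨a • ∑ j, e j, ?_, smul_nonneg ha (Finset.sum_nonneg fun j _ => (he j).2.1), ?_,
    fun i hi => ?_, fun g hg => ?_⟩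
  · rw [← Complex.coe_smul]
    exact I.smul_mem _ (Submodule.sum_mem I fun j _ => (he j).1)
  · rw [norm_smul, Real.norm_of_nonneg ha]
    calc a * ‖∑ j, e j‖ ≤ a * M := by
          gcongr
          refine (norm_sum_le _ _).trans ?_
          simpa using Finset.sum_le_sum fun j (_ : j ∈ Finset.univ) => (he j).2.2
      _ = 1 := haM
  · have conv : ∀ X : Fin M → A, (∀ j, ‖X j - i‖ ≤ ε) → ‖a • (∑ j, X j) - i‖ ≤ ε := by
      intro X hX
      have : a • (∑ j, X j) - i = a • ∑ j, (X j - i) := by
        rw [Finset.sum_sub_distrib, smul_sub, Finset.sum_const, Finset.card_univ, Fintype.card_fin,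
          ← Nat.cast_smul_eq_nsmul ℝ, smul_smul, haM, one_smul]
      rw [this, norm_smul, Real.norm_of_nonneg ha]
      calc a * ‖∑ j, (X j - i)‖ ≤ a * (M * ε) := by
            gcongr
            refine (norm_sum_le _ _).trans ?_
            simpa using Finset.sum_le_sum fun j (_ : j ∈ Finset.univ) => hX j
        _ = ε := by rw [← mul_assoc, haM, one_mul]
    constructor
    · rw [mul_smul_comm, Finset.mul_sum]
      exact conv _ fun j => ((heH j i hi).1).trans (min_le_left _ _)
    · rw [smul_mul_assoc, Finset.sum_mul]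
      exact conv _ fun j => ((heH j i hi).2).trans (min_le_left _ _)
  · set d := fun j => g * e j - e j * g
    have hsum : g * (a • ∑ j, e j) - (a • ∑ j, e j) * g = a • ∑ j, d j := by
      rw [mul_smul_comm, smul_mul_assoc, ← smul_sub, Finset.mul_sum, Finset.sum_mul,
        ← Finset.sum_sub_distrib]
    rw [hsum, norm_smul, Real.norm_of_nonneg ha]
    have hgG : ‖g‖ ≤ G := Finset.single_le_sum (f := fun g => ‖g‖) (fun _ _ => norm_nonneg _) hg
    have hdn : ∀ j, ‖d j‖ ≤ 2 * (G + 1) := fun j => by
      refine (norm_sub_le _ _).trans ?_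
      have h1 := norm_mul_le g (e j)
      have h2 := norm_mul_le (e j) g
      have := (he j).2.2
      nlinarith [norm_nonneg g, norm_nonneg (e j)]
    have hsq : ‖∑ j, d j‖ ^ 2 ≤ M * (4 * (G + 1) ^ 2) + M * M * (ε ^ 2 / 2) := by
      rw [sq, ← CStarRing.norm_star_mul_self, star_sum, Finset.sum_mul]
      refine (norm_sum_le _ _).trans ?_
      calc ∑ j, ‖star (d j) * ∑ k, d k‖
          ≤ ∑ j : Fin M, ∑ k : Fin M,
              ((if j = k then 4 * (G + 1) ^ 2 else 0) + ε ^ 2 / 2) := by
            refine Finset.sum_le_sum fun j _ => ?_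
            rw [Finset.mul_sum]
            refine (norm_sum_le _ _).trans (Finset.sum_le_sum fun k _ => ?_)
            by_cases hjk : j = k
            · subst hjk
              rw [if_pos rfl, CStarRing.norm_star_mul_self]
              nlinarith [hdn j, norm_nonneg (d j), sq_nonneg ε]
            · rw [if_neg hjk, zero_add]
              exact (hed g hg j k hjk).trans (min_le_right _ _)
        _ = M * (4 * (G + 1) ^ 2) + M * M * (ε ^ 2 / 2) := by
            simp [Finset.sum_add_distrib]
            ring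
    have h2 : (a * ‖∑ j, d j‖) ^ 2 ≤ ε ^ 2 := by
      rw [mul_pow]
      refine (mul_le_mul_of_nonneg_left hsq (sq_nonneg a)).trans ?_
      rw [div_lt_iff₀ (by positivity)] at hM
      have : a ^ 2 * (M * (4 * (G + 1) ^ 2) + M * M * (ε ^ 2 / 2))
          = (a * M) * (a * (4 * (G + 1) ^ 2)) + (a * M) ^ 2 * (ε ^ 2 / 2) := by ring
      rw [this, haM]
      have h3 : a * (4 * (G + 1) ^ 2) ≤ ε ^ 2 / 2 := by
        rw [show a * (4 * (G + 1) ^ 2) = 4 * (G + 1) ^ 2 / M from by simp [a, div_eq_inv_mul],
          div_le_iff₀ hMpos]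
        nlinarith
      nlinarith
    exact (pow_le_pow_iff_left₀ (by positivity) hε.le two_ne_zero).1 h2

end Vale.Agent.P133dim
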