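import Vale.Agent.P133dim.Tools
import Vale.Agent.P133dim.Glue

/-!
Separation and strong pure infiniteness from global systems and bounded cover order.
-/

set_option linter.unusedSectionVars false

namespace Vale.Agent.P133dim

open Vale.Agent.P133 Filter Topology

variable {A : Type*} [NonUnitalCStarAlgebra A] [PartialOrder A] [StarOrderedRing A]

/-- Any number of almost orthogonal almost equal columns below `y`, with a level independent of
their number and accuracy. -/
def SysHyp (A : Type*) [NonUnitalCStarAlgebra A] [PartialOrder A] [StarOrderedRing A] : Prop :=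
  ∀ y : A, 0 ≤ y → ∀ θ : ℝ, 0 < θ → ∃ κ : ℝ, 0 < κ ∧ ∀ (N : ℕ) (η : ℝ), 0 < η →
    ∃ (s : Fin N → A) (g : A), 0 ≤ g ∧ ‖g‖ ≤ 1 ∧ (∀ i, RMem y (s i)) ∧
      (∀ i j, ‖star (s i) * s j - (if i = j then g else 0)‖ ≤ η) ∧
      Metric.infDist y (gen {cut κ g} : Set A) ≤ θ

lemma exists_many (hP : PurelyInfinite A) {h : A} (hh : 0 ≤ h) (N : ℕ) {ε : ℝ} (hε : 0 < ε) :
    ∃ r : Fin N → A, ∀ i j, ‖star (r i) * h * r j - (if i = j then h else 0)‖ < ε := by
  induction N generalizing ε with
  | zero => exact ⟨Fin.elim0, fun i => i.elim0⟩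
  | succ N ih =>
    obtain ⟨x, hx⟩ := hP h hh (ε / 2) (half_pos hε)
    set M := ‖x 0‖ + ‖x 1‖ + 1
    have hM : 1 ≤ M := by simp only [M]; linarith [norm_nonneg (x 0), norm_nonneg (x 1)]
    obtain ⟨r, hr⟩ := ih (ε := ε / (2 * M ^ 2)) (by positivity)
    have hxM : ∀ a, ‖x a‖ ≤ M := Fin.forall_fin_two.2
      ⟨by simp only [M]; linarith [norm_nonneg (x 1)], by simp only [M]; linarith [norm_nonneg (x 0)]⟩
    cases N with
    | zero =>
      refine ⟨fun _ => x 0, fun i j => ?_⟩
      have h00 := hx 0 0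
      obtain rfl : i = j := Fin.ext (by omega)
      rw [if_pos rfl]
      simp only [if_true] at h00
      linarith
    | succ N =>
      let y : Fin (N + 1) × Fin 2 → A := fun p => r p.1 * x p.2
      have hy : ∀ p p', ‖star (y p) * h * y p' - (if p = p' then h else 0)‖ < ε := by
        intro p p'
        have e : star (y p) * h * y p' - (if p = p' then h else 0)
            = star (x p.2) * (star (r p.1) * h * r p'.1 - (if p.1 = p'.1 then h else 0)) * x p'.2
              + (if p.1 = p'.1 then star (x p.2) * h * x p'.2 - (if p.2 = p'.2 then h else 0)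
                  else 0) := by
          by_cases h1 : p.1 = p'.1
          · simp only [y, h1, if_true, star_mul, Prod.ext_iff, true_and]
            noncomm_ring
          · simp only [y, h1, if_false, star_mul, Prod.ext_iff, false_and]
            noncomm_ring
        rw [e]
        refine (norm_add_le _ _).trans_lt ?_
        have h2 : ‖if p.1 = p'.1 then star (x p.2) * h * x p'.2 - (if p.2 = p'.2 then h else 0)
            else 0‖ < ε / 2 := by
          split_ifs <;> first | simpa using hx p.2 p'.2 | simpa using half_pos hε | skip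
          all_goals simpa [*] using hx p.2 p'.2
        have h3 : ‖star (x p.2) *
            (star (r p.1) * h * r p'.1 - (if p.1 = p'.1 then h else 0)) * x p'.2‖ ≤ ε / 2 := by
          refine (norm_mul₃_le ..).trans ?_
          rw [norm_star]
          calc _ ≤ M * (ε / (2 * M ^ 2)) * M := by
                gcongr
                all_goals first
                  | exact hxM _
                  | exact (hr _ _).le
                  | positivity
            _ = ε / 2 := by field_simp
        linarith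
      obtain ⟨e⟩ : Nonempty (Fin (N + 1 + 1) ↪ Fin (N + 1) × Fin 2) := by
        refine Function.Embedding.nonempty_of_card_le ?_
        simp only [Fintype.card_fin, Fintype.card_prod]
        omega
      refine ⟨fun i => y (e i), fun i j => ?_⟩
      simpa [e.injective.eq_iff] using hy (e i) (e j)

lemma sys_of_pi (hP : PurelyInfinite A) : SysHyp A := by
  intro y hy θ hθ
  refine ⟨1 / 2, by norm_num, fun N η hη => ?_⟩
  set u := ramp (θ / 2) y
  have hus : star u = u := star_ramp _ _
  set h := u * u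
  have hh : 0 ≤ h := by simpa [h, hus] using star_mul_self_nonneg u
  obtain ⟨r, hr⟩ := exists_many hP hh N hη
  have hu1 : ‖u‖ ≤ 1 := norm_ramp_le (by positivity) y
  refine ⟨fun i => u * r i, h, hh, (norm_mul_le _ _).trans (mul_le_one₀ hu1 (norm_nonneg _) hu1),
    fun i => (rmem_cfcₙ _ _).mul _, fun i j => ?_, ?_⟩
  · have := (hr i j).le
    simpa [h, star_mul, hus, mul_assoc] using this
  · have hmem : cut θ y ∈ gen {cut (1 / 2) h} := by
      set G := gen {cut (1 / 2) h}
      have hG : IsClosedIdeal A G := isClosedIdeal_gen _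
      have hc := ramp_mul_cut (half_pos hθ) hy
      rw [show 2 * (θ / 2) = θ by ring] at hc
      have hh2 : h = cfcₙ (fun t => rampFun (θ / 2) t * rampFun (θ / 2) t) y := by
        simp only [h, u, ramp]
        rw [← cfcₙ_mul _ _ y (continuous_rampFun _).continuousOn (rampFun_zero _)
          (continuous_rampFun _).continuousOn (rampFun_zero _)]
      have e : cut (1 / 2) h * cut θ y = (1 / 2 : ℝ) • cut θ y := by
        rw [hh2, cut, cut, ← cfcₙ_comp' (cutFun (1 / 2))
          (fun t => rampFun (θ / 2) t * rampFun (θ / 2) t) y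
          (continuous_cutFun _).continuousOn (cutFun_zero _)
          ((continuous_rampFun _).mul (continuous_rampFun _)).continuousOn (by simp [rampFun_zero]),
          ← cfcₙ_mul (fun t => cutFun (1 / 2) (rampFun (θ / 2) t * rampFun (θ / 2) t)) _ y
            ((continuous_cutFun _).comp
              ((continuous_rampFun _).mul (continuous_rampFun _))).continuousOn
            (by simp [rampFun_zero, cutFun_zero]) (continuous_cutFun θ).continuousOn (cutFun_zero θ),
          ← cfcₙ_smul _ _ y (continuous_cutFun θ).continuousOn (cutFun_zero θ)]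
        refine cfcₙ_congr fun t _ => ?_
        rcases le_or_gt t θ with h | h
        · simp [cutFun, max_eq_left hθ.le, max_eq_right (sub_nonpos.2 h)]
        · have h1 : rampFun (θ / 2) t = 1 := by
            rw [rampFun, max_eq_left (half_pos hθ).le, max_eq_left (by linarith),
              min_eq_left ((one_le_div (half_pos hθ)).2 (by linarith))]
          simp only [h1, smul_eq_mul]
          norm_num [cutFun]
      have h3 : (1 / 2 : ℝ) • cut θ y ∈ G := e ▸ (hG.2 _ _ (subset_gen rfl)).2
      have h4 := G.smul_mem ((2 : ℝ) : ℂ) h3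
      rw [Complex.coe_smul, smul_smul] at h4
      norm_num at h4
      exact h4
    exact infDist_le_of_cut_mem hθ.le hy hmem

/-- The number `n` of columns suffices to absorb any number of copies. -/
def Mult (A : Type*) [NonUnitalCStarAlgebra A] [PartialOrder A] (n : ℕ) : Prop :=
  ∀ (N : ℕ) (h : A), 0 ≤ h → ∀ ε : ℝ, 0 < ε → ∃ y : Fin n → Fin N → A,
    ∀ i j, ‖(∑ k, star (y k i) * h * y k j) - (if i = j then h else 0)‖ < ε

lemma exists_column {n : ℕ} (hN : Mult A n) (hS : SysHyp A) {x a : A}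
    (hx : star x = x) {ρ : ℝ} (hρ : 0 < ρ)
    (ha : Metric.infDist x (gen {a} : Set A) ≤ ρ / (100 * (‖x‖ + 1))) (hρ1 : ρ ≤ 1) :
    ∃ p, RMem a p ∧ ‖star p * p - x * x‖ ≤ ρ := by
  set τ := ρ / (50 * (‖x‖ + 1)) with hτd
  have hτ : 0 < τ := by positivity
  obtain ⟨g0, hg0, hxg⟩ := exists_span_near (ha.trans_lt (show ρ / (100 * (‖x‖ + 1)) < τ by
    rw [hτd, div_lt_div_iff₀ (by positivity) (by positivity)]; nlinarith [norm_nonneg x]))
  obtain ⟨C, hC, hCg⟩ := infDist_span_le hg0 subset_rfl
  have hT : 0 ≤ a * star a := mul_star_self_nonneg a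
  set θ := (τ / (C + 1)) ^ 2 / 10 with hθd
  have hθ : 0 < θ := by positivity
  obtain ⟨κ, hκ, hsys⟩ := hS (a * star a) hT θ hθ
  set M := ‖x‖ * ‖x‖ + 1
  have hM : 0 < M := by positivity
  obtain ⟨s, g, hg, hg1, hsm, hso, hsd⟩ :=
    hsys n (ρ * κ / (4 * ((n : ℝ) * n + 1) * M)) (by positivity)
  obtain ⟨k, hks, hk1, -, -, hk2, -, -⟩ := exists_normalizer hg hκ
  set v := cut κ g
  have hv : 0 ≤ v := cut_nonneg κ g
  have h1 : Metric.infDist g0 (gen {v} : Set A) ≤ τ := by
    refine (hCg _ (isClosedIdeal_gen _)).trans ?_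
    have hG := isClosedIdeal_gen {v}
    have h2 : Metric.infDist a (gen {v} : Set A) ≤ τ / (C + 1) := by
      have h3 := hG.infDist_le_sqrt (a := star a) (T := a * star a) (by rw [star_star])
        (κ := 2 * θ) (hsd.trans_lt (by linarith))
      have h4 := infDist_star_le hG (star a)
      rw [star_star] at h4
      refine (h4.trans h3).trans (le_of_eq ?_)
      rw [show 5 * (2 * θ) = (τ / (C + 1)) ^ 2 by rw [hθd]; ring, Real.sqrt_sq (by positivity)]
    calc C * Metric.infDist a (gen {v} : Set A) ≤ (C + 1) * (τ / (C + 1)) := by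
          exact mul_le_mul (by linarith) h2 Metric.infDist_nonneg (by linarith)
      _ = τ := by field_simp
  obtain ⟨g', hg', hgg'⟩ := exists_span_near (h1.trans_lt (show τ < 2 * τ by linarith))
  obtain ⟨L, r, hr⟩ := exists_cone_bound hv hg'
  have hK : 0 ≤ ∑ i, star (r i) * v * r i :=
    Finset.sum_nonneg fun i _ => star_left_conjugate_nonneg hv _
  obtain ⟨R, hR⟩ := exists_compress hK (star_mul_self_nonneg g') hr
    (show 0 < ρ / 4 by positivity)
  set S := ∑ i, ‖r i * R‖
  have hS0 : 0 ≤ S := by positivity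
  obtain ⟨y, hy⟩ := hN L v hv (ρ / (8 * (S + 1) ^ 2)) (by positivity)
  set P := fun l => ∑ i, y l i * (r i * R)
  set Q := fun l => CFC.sqrt v * P l with hQ
  have hsv : star (CFC.sqrt v) = CFC.sqrt v := (CFC.sqrt_nonneg v).isSelfAdjoint.star_eq
  have e2 : (∑ l, star (P l) * v * P l) - star R * (∑ i, star (r i) * v * r i) * R
      = ∑ i, ∑ i', star (r i * R)
          * ((∑ l, star (y l i) * v * y l i') - (if i = i' then v else 0)) * (r i' * R) := by
    simp only [mul_sub, sub_mul, Finset.sum_sub_distrib, mul_ite, ite_mul, mul_zero, zero_mul,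
      Finset.sum_ite_eq, Finset.mem_univ, if_true]
    congr 1
    · simp only [P, star_sum, star_mul, Finset.sum_mul, Finset.mul_sum, mul_assoc]
      conv_lhs => rw [Finset.sum_comm]; arg 2; ext i'; rw [Finset.sum_comm]
      rw [Finset.sum_comm]
    · simp [Finset.sum_mul, Finset.mul_sum, star_mul, mul_assoc]
  have h2 : ‖(∑ l, star (P l) * v * P l) - star R * (∑ i, star (r i) * v * r i) * R‖ ≤ ρ / 8 := by
    rw [e2]
    calc _ ≤ ∑ i, ∑ i', ‖r i * R‖ * (ρ / (8 * (S + 1) ^ 2)) * ‖r i' * R‖ := by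
          refine (norm_sum_le _ _).trans (Finset.sum_le_sum fun i _ => (norm_sum_le _ _).trans
            (Finset.sum_le_sum fun i' _ => (norm_mul₃_le ..).trans ?_))
          rw [norm_star]
          gcongr
          exact (hy i i').le
      _ = (ρ / (8 * (S + 1) ^ 2)) * (S * S) := by
          rw [show S * S = ∑ i, ∑ i', ‖r i * R‖ * ‖r i' * R‖ from Finset.sum_mul_sum _ _ _ _,
            Finset.mul_sum]
          refine Finset.sum_congr rfl fun j _ => ?_
          rw [Finset.mul_sum]
          exact Finset.sum_congr rfl fun j' _ => by ring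
      _ ≤ (ρ / (8 * (S + 1) ^ 2)) * ((S + 1) * (S + 1)) := by gcongr <;> linarith
      _ = ρ / 8 := by field_simp
  have h3 : ‖x - g'‖ ≤ 3 * τ := by
    have := norm_sub_le_norm_sub_add_norm_sub x g0 g'
    linarith
  have hτ1 : τ * (50 * (‖x‖ + 1)) = ρ := by simp only [τ]; field_simp
  have h4 : ‖star g' * g' - x * x‖ ≤ ρ / 8 := by
    have e : star g' * g' - x * x = star (g' - x) * g' + x * (g' - x) := by
      rw [star_sub, hx]; noncomm_ring
    have hg1 : ‖g'‖ ≤ ‖x‖ + 3 * τ := by
      have := norm_sub_le x (x - g')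
      rw [sub_sub_cancel] at this
      linarith
    have hτs : 3 * τ ≤ 1 := by nlinarith [norm_nonneg x]
    rw [e]
    refine (norm_add_le _ _).trans ?_
    have a1 : ‖star (g' - x) * g'‖ ≤ 3 * τ * (‖x‖ + 1) := by
      refine (norm_mul_le _ _).trans (mul_le_mul ?_ (by linarith) (norm_nonneg _) (by positivity))
      rwa [norm_star, norm_sub_rev]
    have a2 : ‖x * (g' - x)‖ ≤ (‖x‖ + 1) * (3 * τ) := by
      refine (norm_mul_le _ _).trans (mul_le_mul (by linarith) ?_ (norm_nonneg _) (by positivity))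
      rwa [norm_sub_rev]
    nlinarith
  have hPQ : ∀ l, star (Q l) * Q l = star (P l) * v * P l := fun l => by
    calc star (Q l) * Q l = star (P l) * (CFC.sqrt v * CFC.sqrt v) * P l := by
          simp only [hQ, star_mul, hsv, mul_assoc]
      _ = _ := by rw [CFC.sqrt_mul_sqrt_self v hv]
  have h5 : ‖(∑ l, star (Q l) * Q l) - x * x‖ ≤ ρ / 2 := by
    simp only [hPQ]
    have t1 := norm_sub_le_norm_sub_add_norm_sub (∑ l, star (P l) * v * P l)
      (star R * (∑ i, star (r i) * v * r i) * R) (x * x)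
    have t2 := norm_sub_le_norm_sub_add_norm_sub
      (star R * (∑ i, star (r i) * v * r i) * R) (star g' * g') (x * x)
    have t3 := hR
    rw [norm_sub_rev] at t3
    linarith
  have hQn : ∀ l, ‖Q l‖ * ‖Q l‖ ≤ M := fun l => by
    rw [← CStarRing.norm_star_mul_self]
    refine (CStarAlgebra.norm_le_norm_of_nonneg_of_le (star_mul_self_nonneg _)
      (Finset.single_le_sum (f := fun l => star (Q l) * Q l) (fun j _ => star_mul_self_nonneg _)
        (Finset.mem_univ l))).trans ?_
    have := norm_le_insert' (∑ l, star (Q l) * Q l) (x * x)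
    have := norm_mul_le x x
    simp only [M]
    linarith
  refine ⟨∑ l, s l * (k * Q l), RMem.sum _ fun l _ =>
    ((rmem_mul a (star a)).trans (hsm l)).mul _, ?_⟩
  have e1 : star (∑ l, s l * (k * Q l)) * (∑ l, s l * (k * Q l)) - ∑ l, star (Q l) * Q l
      = ∑ l, ∑ l', star (Q l) * (k * (star (s l) * s l' - (if l = l' then g else 0)) * k) * Q l' := by
    have hfix : ∀ l, star (Q l) * (k * g * k) * Q l = star (Q l) * Q l := fun l => by
      have : k * g * k * Q l = Q l := by
        simp only [hQ]; rw [← mul_assoc, hk2]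
      rw [mul_assoc, this]
    conv_lhs => arg 2; arg 2; ext l; rw [← hfix l]
    simp only [mul_sub, sub_mul, Finset.sum_sub_distrib, star_sum, star_mul, hks, Finset.sum_mul,
      Finset.mul_sum, mul_ite, ite_mul, mul_zero, zero_mul, Finset.sum_ite_eq, Finset.mem_univ,
      if_true, mul_assoc]
    rw [Finset.sum_comm]
  have h6 : ‖star (∑ l, s l * (k * Q l)) * (∑ l, s l * (k * Q l)) - ∑ l, star (Q l) * Q l‖
      ≤ ρ / 4 := by
    rw [e1]
    set η := ρ * κ / (4 * ((n : ℝ) * n + 1) * M)
    have hη : 0 < η := by positivity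
    have hterm : ∀ l l',
        ‖star (Q l) * (k * (star (s l) * s l' - (if l = l' then g else 0)) * k) * Q l'‖
          ≤ M * η / κ := by
      intro l l'
      refine (norm_mul₃_le ..).trans ?_
      rw [norm_star]
      have hsq : ‖k * (star (s l) * s l' - (if l = l' then g else 0)) * k‖ ≤ η / κ := by
        refine (norm_mul₃_le ..).trans ?_
        calc _ ≤ 1 / √κ * η * (1 / √κ) := by
              gcongr
              exact hso l l'
          _ = η / κ := by
              field_simp
              rw [Real.sq_sqrt hκ.le]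
      have hab : ‖Q l‖ * ‖Q l'‖ ≤ M := by
        nlinarith [hQn l, hQn l', sq_nonneg (‖Q l‖ - ‖Q l'‖)]
      calc ‖Q l‖ * ‖k * (star (s l) * s l' - (if l = l' then g else 0)) * k‖ * ‖Q l'‖
          ≤ ‖Q l‖ * (η / κ) * ‖Q l'‖ := by gcongr
        _ = (‖Q l‖ * ‖Q l'‖) * (η / κ) := by ring
        _ ≤ M * (η / κ) := by gcongr
        _ = M * η / κ := by ring
    refine (norm_sum_le _ _).trans ((Finset.sum_le_sum fun l _ =>
      (norm_sum_le _ _).trans (Finset.sum_le_sum fun l' _ => hterm l l')).trans ?_)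
    simp only [Finset.sum_const, Finset.card_univ, Fintype.card_fin, nsmul_eq_mul]
    calc (n : ℝ) * (n * (M * η / κ)) = ρ / 4 * ((n * n) / ((n : ℝ) * n + 1)) := by
          simp only [η]; field_simp
      _ ≤ ρ / 4 * 1 := by gcongr; rw [div_le_one (by positivity)]; linarith
      _ = ρ / 4 := mul_one _
  have := norm_sub_le_norm_sub_add_norm_sub (star (∑ l, s l * (k * Q l)) * (∑ l, s l * (k * Q l)))
    (∑ l, star (Q l) * Q l) (x * x)
  linarith

set_option maxHeartbeats 1000000 in
lemma exists_sep (hO : FiniteOrder A) (hS : SysHyp A) {x y : A} (hx : 0 ≤ x) (hy : 0 ≤ y)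
    {δ θ : ℝ} (hδ : 0 < δ) (hθ : 0 < θ) :
    ∃ a b : A, RMem x a ∧ RMem y b ∧ Sep δ a b ∧
      Metric.infDist x (gen {a} : Set A) ≤ θ ∧ Metric.infDist y (gen {b} : Set A) ≤ θ := by
  classical
  set η := θ / 16 with hηd
  have hη : 0 < η := by positivity
  obtain ⟨m, hm⟩ := hO x hx η hη
  obtain ⟨κ, hκ, hsys⟩ := hS y hy θ hθ
  set c : ℝ := (1 / 8 : ℝ) ^ m with hc
  have hc0 : 0 < c := by positivity
  -- thresholds
  set t : ℝ := min (1 / 500) ((c * (κ / 2) ^ 2 / 20) ^ 2 / 40) with htd
  have ht : 0 < t := lt_min (by norm_num) (by positivity)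
  set σ : ℝ := δ * t ^ 2 / (160 * ((m : ℝ) + 1)) with hσd
  have hσ : 0 < σ := by positivity
  -- the number of slots
  obtain ⟨Rb, hRb⟩ := exists_nat_gt (4 / σ ^ 4)
  set N := m * Rb + 1 with hNd
  set ηs : ℝ := min (1 / (16 * ((N : ℝ) * N) + 16))
      (c * (κ / 2) ^ 2 / 20 / (16 * ((N : ℝ) * N) + 16)) with hηs
  have hηs0 : 0 < ηs := lt_min (by positivity) (by positivity)
  obtain ⟨s, g, hg, hg1, hsm, hso, hsd⟩ := hsys N ηs hηs0
  have hηs1 : ((N : ℝ) * N) * ηs * 16 ≤ 1 := by
    have h1 := mul_le_mul_of_nonneg_left (min_le_left (1 / (16 * ((N : ℝ) * N) + 16))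
      (c * (κ / 2) ^ 2 / 20 / (16 * ((N : ℝ) * N) + 16))) (show (0:ℝ) ≤ N * N * 16 by positivity)
    have h2 : (N : ℝ) * N * 16 * (1 / (16 * ((N : ℝ) * N) + 16)) ≤ 1 := by
      rw [mul_one_div, div_le_one (by positivity)]; linarith
    rw [← hηs] at h1
    linarith
  have hsn : ∀ i, ‖s i‖ * ‖s i‖ ≤ 2 := fun i => by
    rw [← CStarRing.norm_star_mul_self]
    have h1 := hso i i
    rw [if_pos rfl] at h1
    have h2 := norm_le_insert' (star (s i) * s i) g
    have h3 : ηs ≤ 1 := (min_le_left _ _).trans (by rw [div_le_one (by positivity)]; nlinarith)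
    linarith
  -- witnesses
  set F : Fin N → A := fun i => s i * star (s i) with hF
  have hFs : ∀ i, star (F i) = F i := fun i => by simp [hF]
  have hFb : ‖∑ i, F i * F i‖ ≤ 4 := by
    set Z := ∑ i, F i with hZ
    have hZ0 : 0 ≤ Z := Finset.sum_nonneg fun i _ => mul_star_self_nonneg _
    have hZn : ‖Z‖ ≤ 2 := by
      have e : Z * Z = (∑ i, s i * g * star (s i)) + ∑ i, ∑ j,
          s i * (star (s i) * s j - (if i = j then g else 0)) * star (s j) := by
        simp only [hZ, hF, mul_sub, sub_mul, Finset.sum_sub_distrib, Finset.sum_mul, Finset.mul_sum,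
          mul_ite, ite_mul, mul_zero, zero_mul, Finset.sum_ite_eq, Finset.mem_univ, if_true,
          mul_assoc, add_sub_cancel]
        rw [Finset.sum_comm]
      have h1 : ‖∑ i, s i * g * star (s i)‖ ≤ ‖Z‖ := by
        refine CStarAlgebra.norm_le_norm_of_nonneg_of_le
          (Finset.sum_nonneg fun i _ => star_right_conjugate_nonneg hg _)
          (Finset.sum_le_sum fun i _ => ?_)
        refine (CStarAlgebra.star_right_conjugate_le_norm_smul hg.isSelfAdjoint).trans ?_
        calc ‖g‖ • (s i * star (s i)) ≤ (1 : ℝ) • (s i * star (s i)) :=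
              smul_le_smul_of_nonneg_right hg1 (mul_star_self_nonneg _)
          _ = _ := one_smul _ _
      have h2 : ‖∑ i, ∑ j, s i * (star (s i) * s j - (if i = j then g else 0)) * star (s j)‖
          ≤ (N : ℝ) * N * (2 * ηs) := by
        refine (norm_sum_le _ _).trans ((Finset.sum_le_sum fun i _ => (norm_sum_le _ _).trans
          (Finset.sum_le_sum (g := fun _ => 2 * ηs) fun j _ => ?_)).trans ?_)
        · refine (norm_mul₃_le ..).trans ?_
          rw [norm_star]
          have h3 : ‖s i‖ * ‖s j‖ ≤ 2 := by nlinarith [hsn i, hsn j, sq_nonneg (‖s i‖ - ‖s j‖)]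
          calc _ ≤ ‖s i‖ * ηs * ‖s j‖ := by gcongr; exact hso i j
            _ = ‖s i‖ * ‖s j‖ * ηs := by ring
            _ ≤ 2 * ηs := by gcongr
        · simp [mul_assoc]
      have h3 : ‖Z‖ * ‖Z‖ ≤ ‖Z‖ + 1 := by
        have h4 := CStarRing.norm_star_mul_self (x := Z)
        rw [hZ0.isSelfAdjoint.star_eq, e] at h4
        rw [← h4]
        refine (norm_add_le _ _).trans ?_
        nlinarith
      nlinarith [norm_nonneg Z]
    have h1 : ∑ i, F i * F i ≤ (2 : ℝ) • Z := by
      rw [hZ, Finset.smul_sum]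
      refine Finset.sum_le_sum fun i _ => ?_
      have := CStarAlgebra.star_right_conjugate_le_norm_smul (a := s i)
        (IsSelfAdjoint.star_mul_self (s i))
      rw [CStarRing.norm_star_mul_self] at this
      calc F i * F i = s i * (star (s i) * s i) * star (s i) := by simp only [hF, mul_assoc]
        _ ≤ (‖s i‖ * ‖s i‖) • (s i * star (s i)) := this
        _ ≤ (2 : ℝ) • F i := smul_le_smul_of_nonneg_right (hsn i) (mul_star_self_nonneg _)
    refine (CStarAlgebra.norm_le_norm_of_nonneg_of_le (Finset.sum_nonneg fun i _ => by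
      simpa [hFs i] using star_mul_self_nonneg (F i)) h1).trans ?_
    rw [norm_smul, Real.norm_of_nonneg (by norm_num : (0:ℝ) ≤ 2)]
    linarith
  let Good : A × Finset (Fin N) → Prop := fun z => RMem x z.1 ∧ z.2.card ≤ Rb ∧
    ∀ i ∉ z.2, ∀ p, RMem z.1 p → ‖F i * p‖ ≤ √(σ ^ 4) * ‖p‖
  have hlocal : ∀ P, IsPrimeIdeal P → η < Metric.infDist x (P : Set A) →
      ∃ z, Good z ∧ ¬ gen {z.1} ≤ P := by
    intro P hP hd
    have hxP : x ∉ P := fun h => by
      rw [Metric.infDist_zero_of_mem (s := (P : Set A)) h] at hd; linarith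
    obtain ⟨a, B, h1, h2, h3, h4⟩ := exists_witness hP hx hxP F hFs hFb
      (c := σ ^ 4) (by positivity) (R := Rb)
      (by rw [div_lt_iff₀ (by positivity)] at hRb; nlinarith [pow_pos hσ 4])
    exact ⟨(a, B), ⟨h1, h3, h4⟩, fun h => h2 (h (subset_gen rfl))⟩
  obtain ⟨V, I, z, hI, hord, hcov⟩ := exists_refinement' hx hη
    (Φ := fun K I => ∀ S : Finset (Fin K), m < S.card → (⨅ k ∈ S, I k) = ⊥)
    (fun R J hJ hJcov θ' hθ' => hm _ (cut_nonneg _ _)
      (cut_mem_gen hη (by linarith) hx) R J hJ hJcov θ' hθ')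
    (fun z : A × Finset (Fin N) => gen {z.1}) Good (fun z _ => isClosedIdeal_gen _) hlocal
  have hcl : ∀ k, IsClosedIdeal A (I k) := fun k => (hI k).1
  obtain ⟨cc, hcc, hccd⟩ := exists_cutoff I hcl (fun k => star (z k).1 * (z k).1) hx
    (show 0 < 4 * η by linarith) (fun P hP hd => by
      by_contra hcon
      push Not at hcon
      refine absurd (hcov P hP.1 fun k => ?_) (not_le.2 hd)
      by_contra hk
      exact hk ((hI k).2.1.trans (gen_le hP.1 (by
        simpa using hP.1.mem_of_star_mul_le (hcon k hk) le_rfl))))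
  set R0 : Fin V → A := fun k => (z k).1 * cc k with hR0
  have hR0g : ∀ k, star (R0 k) * R0 k = cc k * (star (z k).1 * (z k).1) * cc k := fun k => by
    simp [hR0, star_mul, (hcc k).2, mul_assoc]
  obtain ⟨μ, hμ, hlevel⟩ := exists_level (fun k => star (R0 k) * R0 k)
    (fun k => star_mul_self_nonneg _) (T := x) (η := θ)
    (by simp only [hR0g]; exact hccd.trans_lt (by linarith))
  choose kk hkks hkk1 hkk0 hkkn hkk2 hkk3 hkk4 using fun k =>
    exists_normalizer (star_mul_self_nonneg (R0 k)) hμ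
  set R : Fin V → A := fun k => R0 k * kk k with hR
  have hRg : ∀ k, star (R k) * R k = kk k * (star (R0 k) * R0 k) * kk k := fun k => by
    simp [hR, star_mul, hkks k, mul_assoc]
  have hR1 : ∀ k, ‖R k‖ ≤ 1 := fun k => by
    have h1 := hkkn k
    rw [← hRg, CStarRing.norm_star_mul_self] at h1
    nlinarith [norm_nonneg (R k)]
  have hRI : ∀ k, R k ∈ I k := fun k => ((hcl k).2 _ _ ((hcl k).2 _ _ (hcc k).1).1).2
  have hRm : ∀ k, RMem (z k).1 (R k) := fun k => (rmem_mul _ _).mul _
  obtain ⟨w, g', E, hw, hg'0, hg'1, hE, hEs, hlow, hww, hcross⟩ := exists_glue I hcl hord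
    (L := 1) (fun k _ => R k) (fun k _ => hRI k) (K := 1) (fun i _ => s i) hg hg1 (η := ηs)
    (fun i i' j j' => by simpa [Subsingleton.elim j j'] using hso i i')
    (fun k => (z k).2) (fun k => (hI k).2.2.2.1) (by omega) (σ0 := σ) hσ.le
    (fun k i hi j l => by
      have h1 := (hI k).2.2.2.2 i hi (R k) (hRm k)
      rw [show √(σ ^ 4) = σ ^ 2 by rw [show σ ^ 4 = (σ ^ 2) ^ 2 by ring, Real.sqrt_sq (by positivity)]] at h1
      have h2 : ‖star (s i) * R k‖ ^ 2 ≤ σ ^ 2 := by
        rw [sq, ← CStarRing.norm_star_mul_self]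
        calc ‖star (star (s i) * R k) * (star (s i) * R k)‖ = ‖star (R k) * (F i * R k)‖ := by
              simp only [hF, star_mul, star_star, mul_assoc]
          _ ≤ ‖star (R k)‖ * ‖F i * R k‖ := norm_mul_le _ _
          _ ≤ 1 * (σ ^ 2 * 1) := by
              rw [norm_star]
              gcongr
              · exact hR1 k
              · exact h1.trans (by gcongr; exact hR1 k)
          _ = σ ^ 2 := by ring
      exact (pow_le_pow_iff_left₀ (norm_nonneg _) hσ.le two_ne_zero).1 h2)
    (ε := min σ (c * (κ / 2) ^ 2 / 20)) (lt_min hσ (by positivity))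
  set S := w 0 with hS'
  set W := ∑ k, R k * star (R k) with hW
  have hW0 : 0 ≤ W := Finset.sum_nonneg fun k _ => mul_star_self_nonneg _
  have hWn : ‖W‖ ≤ m * 1 := norm_sum_le_of_order hcl hord
    (fun k => ⟨((hcl k).2 _ _ (hRI k)).2, mul_star_self_nonneg _⟩) zero_le_one fun k => by
      rw [CStarRing.norm_self_mul_star]
      exact mul_le_one₀ (hR1 k) (norm_nonneg _) (hR1 k)
  have hSW : ‖star S * W * S‖ ≤ m * (5 * σ) ^ 2 := by
    have e : star S * W * S = ∑ k, (star S * R k) * star (star S * R k) := by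
      simp only [hW, Finset.mul_sum, Finset.sum_mul, star_mul, star_star, mul_assoc]
    rw [e]
    refine norm_sum_le_of_order hcl hord
      (fun k => ⟨((hcl k).2 _ _ ((hcl k).2 _ _ (hRI k)).1).2, mul_star_self_nonneg _⟩)
      (by positivity) fun k => ?_
    rw [CStarRing.norm_self_mul_star, sq]
    have h1 := (hcross k 0 0).trans (add_le_add le_rfl (min_le_left σ _))
    have : ‖star S * R k‖ ≤ 5 * σ := by linarith
    exact mul_le_mul this this (norm_nonneg _) (by positivity)
  have hwerr : ‖star S * S - g'‖ ≤ (N : ℝ) * N * ηs := by simpa [hS'] using hww 0 0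
  have hSn : ‖S‖ * ‖S‖ ≤ 2 := by
    rw [← CStarRing.norm_star_mul_self]
    have h2 := norm_le_insert' (star S * S) g'
    linarith
  have hSS : ‖S * star S‖ ≤ 2 := by rw [CStarRing.norm_self_mul_star]; exact hSn
  refine ⟨cut t W, cut t (S * star S), ?_, ?_, ?_, ?_, ?_⟩
  · exact (RMem.sum _ fun k _ => ((((hI k).2.2.1).mul _).mul _).mul _).trans (rmem_cut t W)
  · exact ((hw y (fun i _ => hsm i) 0).mul _).trans (rmem_cut t _)
  · -- separation
    intro p q hp hq
    obtain ⟨k1, hk1s, hk1n, hk1a, -⟩ := ramp_eq_mul (half_pos ht) hW0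
    obtain ⟨k2, hk2s, hk2n, hk2a, -⟩ := ramp_eq_mul (half_pos ht) (mul_star_self_nonneg S)
    have fix : ∀ T p : A, 0 ≤ T → RMem (cut t T) p → ramp (t / 2) T * p = p := fun T p hT hp =>
      hp.of_closed (S := {p | ramp (t / 2) T * p = p}) (isClosed_eq (by fun_prop) continuous_id)
        fun u => by
          have h1 := ramp_mul_cut (half_pos ht) hT
          rw [show 2 * (t / 2) = t by ring] at h1
          simp only [Set.mem_ofPred_eq]
          rw [← mul_assoc, h1]
    have ep : p = W * (k1 * p) := by rw [← mul_assoc, ← hk1a, fix W p hW0 hp]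
    have eq' : q = (S * star S) * (k2 * q) := by
      rw [← mul_assoc, ← hk2a, fix _ q (mul_star_self_nonneg S) hq]
    have hWS : ‖W * (S * star S)‖ ≤ √((m : ℝ) * (m * (5 * σ) ^ 2)) * √2 := by
      rw [← mul_assoc]
      refine (norm_mul_le _ _).trans (mul_le_mul ?_ ?_ (norm_nonneg _) (Real.sqrt_nonneg _))
      · refine Real.le_sqrt_of_sq_le ?_
        set rt := CFC.sqrt W
        have hrt : star rt = rt := (CFC.sqrt_nonneg W).isSelfAdjoint.star_eq
        have hrr : rt * rt = W := CFC.sqrt_mul_sqrt_self W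
        have h1 : ‖rt‖ * ‖rt‖ = ‖W‖ := by
          rw [← CStarRing.norm_star_mul_self, hrt, hrr]
        have h2 : ‖rt * S‖ * ‖rt * S‖ = ‖star S * W * S‖ := by
          rw [← CStarRing.norm_star_mul_self, star_mul, hrt, ← hrr]
          simp only [mul_assoc]
        calc ‖W * S‖ ^ 2 ≤ (‖rt‖ * ‖rt * S‖) ^ 2 := by
              gcongr; rw [← hrr, mul_assoc]; exact norm_mul_le _ _
          _ = (‖rt‖ * ‖rt‖) * (‖rt * S‖ * ‖rt * S‖) := by ring
          _ ≤ (m : ℝ) * (m * (5 * σ) ^ 2) := by
              rw [h1, h2]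
              exact mul_le_mul (hWn.trans_eq (mul_one _)) hSW (norm_nonneg _) (Nat.cast_nonneg m)
      · rw [norm_star]
        exact Real.le_sqrt_of_sq_le (by rw [sq]; exact hSn)
    have hbound : ‖W * (S * star S)‖ ≤ 10 * ((m : ℝ) + 1) * σ := by
      refine hWS.trans ?_
      rw [show (m : ℝ) * (m * (5 * σ) ^ 2) = ((m : ℝ) * (5 * σ)) ^ 2 by ring,
        Real.sqrt_sq (by positivity)]
      have h2 : √2 ≤ 2 := Real.sqrt_le_iff.2 ⟨by norm_num, by norm_num⟩
      calc (m : ℝ) * (5 * σ) * √2 ≤ ((m : ℝ) + 1) * (5 * σ) * 2 := by gcongr; linarith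
        _ = _ := by ring
    calc ‖star p * q‖ = ‖star (k1 * p) * (W * (S * star S)) * (k2 * q)‖ := by
          conv_lhs => rw [ep, eq']
          simp only [star_mul, hW0.isSelfAdjoint.star_eq, mul_assoc]
      _ ≤ ‖k1 * p‖ * ‖W * (S * star S)‖ * ‖k2 * q‖ := by
          refine (norm_mul₃_le ..).trans ?_
          rw [norm_star]
      _ ≤ (1 / (t / 2) * ‖p‖) * (10 * ((m : ℝ) + 1) * σ) * (1 / (t / 2) * ‖q‖) := by
          gcongr
          · exact (norm_mul_le _ _).trans (mul_le_mul_of_nonneg_right hk1n (norm_nonneg _))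
          · exact (norm_mul_le _ _).trans (mul_le_mul_of_nonneg_right hk2n (norm_nonneg _))
      _ = (40 * ((m : ℝ) + 1) * σ / t ^ 2) * (‖p‖ * ‖q‖) := by field_simp; ring
      _ ≤ δ * (‖p‖ * ‖q‖) := by
          gcongr
          rw [div_le_iff₀ (by positivity), hσd]
          rw [mul_div_assoc', div_le_iff₀ (by positivity)]
          nlinarith [mul_pos hδ (pow_pos ht 2), Nat.cast_nonneg (α := ℝ) m,
            mul_nonneg (mul_pos hδ (pow_pos ht 2)).le (Nat.cast_nonneg (α := ℝ) m)]
      _ = δ * ‖p‖ * ‖q‖ := by ring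
  · -- the first element covers `x`
    set G := gen {cut t W}
    have hG : IsClosedIdeal A G := isClosedIdeal_gen _
    have hdW : Metric.infDist W (G : Set A) ≤ t := infDist_le_of_cut_mem ht.le hW0 (subset_gen rfl)
    refine (hlevel G hG fun k => hkk4 k G hG ?_).le
    rw [← hRg]
    have h1 := infDist_star_mul_le hG (a := R k) (T := W)
      (Finset.single_le_sum (f := fun k => R k * star (R k))
        (fun j _ => mul_star_self_nonneg _) (Finset.mem_univ k))
      (κ := 2 * t) (hdW.trans_lt (by linarith))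
    have h2 : √(5 * (2 * t)) ≤ 1 / 4 := by
      refine Real.sqrt_le_iff.2 ⟨by norm_num, ?_⟩
      nlinarith [min_le_left (1 / 500 : ℝ) ((c * (κ / 2) ^ 2 / 20) ^ 2 / 40)]
    nlinarith [hR1 k, Real.sqrt_nonneg (5 * (2 * t)), norm_nonneg (R k)]
  · -- the second element covers `y`
    set G := gen {cut t (S * star S)}
    have hG : IsClosedIdeal A G := isClosedIdeal_gen _
    have hdS : Metric.infDist (S * star S) (G : Set A) ≤ t :=
      infDist_le_of_cut_mem ht.le (mul_star_self_nonneg S) (subset_gen rfl)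
    set b0 := c * (κ / 2) ^ 2 / 20 with hb0
    have hb0p : 0 < b0 := by positivity
    have h1 : Metric.infDist (star S * S) (G : Set A) ≤ b0 := by
      refine (infDist_star_mul_le hG (a := S) le_rfl (κ := 2 * t) (hdS.trans_lt (by linarith))).trans ?_
      have h3 : ‖S‖ ≤ 2 := by nlinarith [norm_nonneg S]
      have h4 : √(5 * (2 * t)) ≤ b0 / 2 := by
        refine Real.sqrt_le_iff.2 ⟨by positivity, ?_⟩
        have := min_le_right (1 / 500 : ℝ) (b0 ^ 2 / 40)
        rw [← htd] at this
        nlinarith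
      calc ‖S‖ * √(5 * (2 * t)) ≤ 2 * (b0 / 2) := mul_le_mul h3 h4 (Real.sqrt_nonneg _) (by norm_num)
        _ = b0 := by ring
    have hle : g ≤ c⁻¹ • (g' + E) := by
      have := smul_le_smul_of_nonneg_left hlow (inv_nonneg.2 hc0.le)
      rwa [smul_smul, inv_mul_cancel₀ hc0.ne', one_smul] at this
    have h2 : Metric.infDist (c⁻¹ • (g' + E)) (G : Set A) < c⁻¹ * (4 * b0) := by
      have h5 : Metric.infDist (g' + E) (G : Set A) ≤ 3 * b0 := by
        have h6 := Metric.infDist_le_infDist_add_dist (s := (G : Set A)) (x := g' + E) (y := star S * S)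
        rw [dist_eq_norm] at h6
        have h7 : ‖g' + E - star S * S‖ ≤ 2 * b0 := by
          have h8 : (N : ℝ) * N * ηs ≤ b0 := by
            have h1 := mul_le_mul_of_nonneg_left (min_le_right (1 / (16 * ((N : ℝ) * N) + 16))
              (b0 / (16 * ((N : ℝ) * N) + 16))) (show (0:ℝ) ≤ N * N by positivity)
            rw [← hηs] at h1
            refine h1.trans ?_
            rw [← mul_div_assoc, div_le_iff₀ (by positivity)]
            nlinarith [mul_self_nonneg (N : ℝ)]
          have h9 : ‖E‖ ≤ b0 := hE.trans (min_le_right _ _)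
          rw [show g' + E - star S * S = E - (star S * S - g') by abel]
          refine (norm_sub_le _ _).trans ?_
          linarith
        linarith
      have := infDist_smul_le (P := G) ((c⁻¹ : ℝ) : ℂ) (g' + E)
      rw [Complex.coe_smul, Complex.norm_real, Real.norm_of_nonneg (inv_nonneg.2 hc0.le)] at this
      refine this.trans_lt ?_
      exact mul_lt_mul_of_pos_left (by linarith) (inv_pos.2 hc0)
    have h3 := infDist_le_of_le hG hg hle h2
    have hgk : Metric.infDist g (G : Set A) < κ := by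
      refine h3.trans_lt ?_
      have e : 5 * (c⁻¹ * (4 * b0)) = (κ / 2) ^ 2 := by rw [hb0]; field_simp; ring
      rw [e, Real.sqrt_sq (by positivity)]
      have : ‖CFC.sqrt g‖ ≤ 1 := by
        have e2 : ‖CFC.sqrt g‖ * ‖CFC.sqrt g‖ = ‖g‖ := by
          rw [← CStarRing.norm_star_mul_self, (CFC.sqrt_nonneg g).isSelfAdjoint.star_eq,
            CFC.sqrt_mul_sqrt_self g hg]
        nlinarith [norm_nonneg (CFC.sqrt g)]
      nlinarith
    have hmem := hG.cut_mem hg hgk
    refine le_trans ?_ hsd
    exact Metric.infDist_le_infDist_of_subset (gen_le hG (by simpa using hmem)) ⟨0, Submodule.zero_mem _⟩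

lemma spi_of {n : ℕ} (hO : FiniteOrder A) (hS : SysHyp A) (hN : Mult A n) :
    StronglyPurelyInfinite A := by
  intro x y hx hy ε hε
  have hxs := hx.isSelfAdjoint.star_eq
  have hys := hy.isSelfAdjoint.star_eq
  set ρ := min 1 (ε / 8)
  have hρ : 0 < ρ := lt_min one_pos (by positivity)
  have hρ1 : ρ ≤ 1 := min_le_left _ _
  set δ := ε / (4 * (‖x‖ + 2) * (‖y‖ + 2))
  set θ := min (ρ / (100 * (‖x‖ + 1))) (ρ / (100 * (‖y‖ + 1)))
  obtain ⟨a, b, hxa, hyb, hsep, hda, hdb⟩ := exists_sep hO hS hx hy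
    (show 0 < δ by positivity) (show 0 < θ from lt_min (by positivity) (by positivity))
  obtain ⟨p, hp, hpx⟩ := exists_column hN hS hxs hρ (hda.trans (min_le_left _ _)) hρ1
  obtain ⟨q, hq, hqy⟩ := exists_column hN hS hys hρ (hdb.trans (min_le_right _ _)) hρ1
  have bound : ∀ u v : A, ‖star u * u - v * v‖ ≤ ρ → ‖u‖ ≤ ‖v‖ + 1 := by
    intro u v h
    have h1 : ‖u‖ * ‖u‖ ≤ (‖v‖ + 1) * (‖v‖ + 1) := by
      rw [← CStarRing.norm_star_mul_self]
      have := norm_le_insert' (star u * u) (v * v)
      nlinarith [norm_mul_le v v, norm_nonneg v]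
    exact (mul_self_le_mul_self_iff (norm_nonneg _) (by positivity)).2 h1
  have hpn := bound p x hpx
  have hqn := bound q y hqy
  set e := min 1 (min (ε / (8 * (‖x‖ + 2))) (ε / (8 * (‖y‖ + 2))))
  have he : 0 < e := lt_min one_pos (lt_min (by positivity) (by positivity))
  obtain ⟨s, hs⟩ := (hxa.trans hp).exists_near he
  obtain ⟨t, ht⟩ := (hyb.trans hq).exists_near he
  have e1 : e * (‖x‖ + 2) ≤ ε / 8 := by
    have := mul_le_mul_of_nonneg_right ((min_le_right _ _).trans (min_le_left _ _) :
      e ≤ ε / (8 * (‖x‖ + 2))) (show 0 ≤ ‖x‖ + 2 by positivity)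
    rwa [show ε / (8 * (‖x‖ + 2)) * (‖x‖ + 2) = ε / 8 by field_simp] at this
  have e2 : e * (‖y‖ + 2) ≤ ε / 8 := by
    have := mul_le_mul_of_nonneg_right ((min_le_right _ _).trans (min_le_right _ _) :
      e ≤ ε / (8 * (‖y‖ + 2))) (show 0 ≤ ‖y‖ + 2 by positivity)
    rwa [show ε / (8 * (‖y‖ + 2)) * (‖y‖ + 2) = ε / 8 by field_simp] at this
  have he1 : e ≤ 1 := min_le_left _ _
  have sa : ∀ (u p w : A), star u = u → ‖p - u * w‖ < e → ‖p‖ ≤ ‖u‖ + 1 →
      ‖u * w‖ ≤ ‖u‖ + 2 ∧ ‖star w * (u * u) * w - star p * p‖ ≤ 2 * (e * (‖u‖ + 2)) := by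
    intro u p w hu h hpn
    have h2 : ‖u * w‖ ≤ ‖u‖ + 2 := by
      have := norm_sub_le p (p - u * w)
      rw [sub_sub_cancel] at this
      linarith
    refine ⟨h2, ?_⟩
    have e3 : star w * (u * u) * w - star p * p
        = star (u * w - p) * (u * w) + star p * (u * w - p) := by
      simp only [star_sub, star_mul, hu]; noncomm_ring
    rw [e3]
    refine (norm_add_le _ _).trans ?_
    have b1 : ‖star (u * w - p) * (u * w)‖ ≤ e * (‖u‖ + 2) := by
      refine (norm_mul_le _ _).trans (mul_le_mul ?_ h2 (norm_nonneg _) he.le)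
      rw [norm_star, norm_sub_rev]; exact h.le
    have b2 : ‖star p * (u * w - p)‖ ≤ (‖u‖ + 2) * e := by
      refine (norm_mul_le _ _).trans (mul_le_mul ?_ ?_ (norm_nonneg _) (by positivity))
      · rw [norm_star]; linarith
      · rw [norm_sub_rev]; exact h.le
    linarith
  obtain ⟨hxs2, hsx⟩ := sa x p s hxs hs hpn
  obtain ⟨hyt2, hty⟩ := sa y q t hys ht hqn
  refine ⟨s, t, ?_, ?_, ?_⟩
  · have := norm_sub_le_norm_sub_add_norm_sub (star s * (x * x) * s) (star p * p) (x * x)
    linarith [min_le_right (1:ℝ) (ε / 8)]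
  · have := norm_sub_le_norm_sub_add_norm_sub (star t * (y * y) * t) (star q * q) (y * y)
    linarith [min_le_right (1:ℝ) (ε / 8)]
  · have e3 : star s * (x * y) * t
        = star (x * s - p) * (y * t) + star p * (y * t - q) + star p * q := by
      simp only [star_sub, star_mul, hxs]; noncomm_ring
    rw [e3]
    have b1 : ‖star (x * s - p) * (y * t)‖ ≤ e * (‖y‖ + 2) := by
      refine (norm_mul_le _ _).trans (mul_le_mul ?_ hyt2 (norm_nonneg _) he.le)
      rw [norm_star, norm_sub_rev]; exact hs.le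
    have b2 : ‖star p * (y * t - q)‖ ≤ (‖x‖ + 2) * e := by
      refine (norm_mul_le _ _).trans (mul_le_mul ?_ ?_ (norm_nonneg _) (by positivity))
      · rw [norm_star]; linarith
      · rw [norm_sub_rev]; exact ht.le
    have b3 : ‖star p * q‖ ≤ ε / 4 := by
      refine (hsep p q hp hq).trans ?_
      calc δ * ‖p‖ * ‖q‖ ≤ δ * (‖x‖ + 2) * (‖y‖ + 2) := by
            gcongr <;> linarith
        _ = ε / 4 := by simp only [δ]; field_simp
    have := norm_add₃_le (a := star (x * s - p) * (y * t)) (b := star p * (y * t - q))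
      (c := star p * q)
    linarith

/-- Purely infinite algebras with locally finite cover order are strongly purely infinite. -/
theorem spi_of_pi (hO : FiniteOrder A) (hP : PurelyInfinite A) : StronglyPurelyInfinite A := by
  refine spi_of (n := 1) hO (sys_of_pi hP) fun N h hh ε hε => ?_
  obtain ⟨r, hr⟩ := exists_many hP hh N hε
  exact ⟨fun _ => r, fun i j => by simpa using hr i j⟩

end Vale.Agent.P133dim
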