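import Vale.Agent.P133dim.Weights

/-!
Threshold functions and asymptotic commutation of their functional calculi.
-/

set_option linter.unusedSectionVars false

namespace Vale.Agent.P133dim

open Filter Topology Polynomial

/-- Half the width of the transition intervals. -/
noncomputable def thW (m : ℕ) : ℝ := 1 / (2 * ((m : ℝ) + 2))

/-- The `j`-th threshold. -/
noncomputable def thAt (m j : ℕ) : ℝ := (2 * (j : ℝ) + 1) * thW m

/-- Clamp to `[0,1]`. -/
noncomputable def clamp01 (t : ℝ) : ℝ := max 0 (min 1 t)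

/-- Above the threshold (`true`) or below it (`false`). -/
noncomputable def thFun (m j : ℕ) (b : Bool) (t : ℝ) : ℝ :=
  if b then clamp01 ((t - thAt m j) / thW m) else clamp01 ((thAt m j - t) / thW m)

/-- The defect of the two squares. -/
noncomputable def thDef (m j : ℕ) (t : ℝ) : ℝ :=
  Real.sqrt (max 0 (1 - (thFun m j true t * thFun m j true t
    + thFun m j false t * thFun m j false t)))

lemma thW_pos (m : ℕ) : 0 < thW m := by unfold thW; positivity

lemma thAt_bounds {m j : ℕ} (hj : j ≤ m) :
    thW m ≤ thAt m j ∧ thAt m j + thW m < 1 ∧ thAt m j + thW m ≤ 1 - thW m := by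
  have h := thW_pos m
  have hj' : (j : ℝ) ≤ m := Nat.cast_le.2 hj
  have e : thW m * (2 * ((m : ℝ) + 2)) = 1 := by unfold thW; field_simp
  have e2 := mul_le_mul_of_nonneg_left hj' h.le
  have e3 := mul_nonneg (Nat.cast_nonneg (α := ℝ) j) h.le
  unfold thAt
  refine ⟨?_, ?_, ?_⟩ <;> nlinarith

lemma clamp01_mem (t : ℝ) : 0 ≤ clamp01 t ∧ clamp01 t ≤ 1 :=
  ⟨le_max_left _ _, max_le zero_le_one (min_le_left _ _)⟩

lemma clamp01_of_nonpos {t : ℝ} (h : t ≤ 0) : clamp01 t = 0 := by
  unfold clamp01; rw [max_eq_left ((min_le_right _ _).trans h)]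

lemma clamp01_of_one_le {t : ℝ} (h : 1 ≤ t) : clamp01 t = 1 := by
  unfold clamp01; rw [min_eq_left h, max_eq_right zero_le_one]

lemma continuous_thFun (m j : ℕ) (b : Bool) : Continuous (thFun m j b) := by
  cases b <;> · unfold thFun clamp01; simp; fun_prop

lemma continuous_thDef (m j : ℕ) : Continuous (thDef m j) := by
  have := continuous_thFun m j true
  have := continuous_thFun m j false
  unfold thDef
  fun_prop

lemma thFun_mem (m j : ℕ) (b : Bool) (t : ℝ) : 0 ≤ thFun m j b t ∧ thFun m j b t ≤ 1 := by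
  cases b <;> simp only [thFun, Bool.false_eq_true, if_false, if_true] <;> exact clamp01_mem _

lemma thFun_mul_eq (m j : ℕ) (b : Bool) (t : ℝ) : thFun m j b t * thFun m j (!b) t = 0 := by
  have h := thW_pos m
  rcases le_total t (thAt m j) with ht | ht
  · have : thFun m j true t = 0 := by
      simp only [thFun, if_true]
      exact clamp01_of_nonpos (div_nonpos_of_nonpos_of_nonneg (by linarith) h.le)
    cases b <;> simp [this]
  · have : thFun m j false t = 0 := by
      simp only [thFun, Bool.false_eq_true, if_false]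
      exact clamp01_of_nonpos (div_nonpos_of_nonpos_of_nonneg (by linarith) h.le)
    cases b <;> simp [this]

lemma thFun_sq_le (m j : ℕ) (t : ℝ) :
    thFun m j true t * thFun m j true t + thFun m j false t * thFun m j false t ≤ 1 := by
  obtain ⟨a0, a1⟩ := thFun_mem m j true t
  obtain ⟨b0, b1⟩ := thFun_mem m j false t
  rcases mul_eq_zero.1 (thFun_mul_eq m j true t) with h | h
  · rw [h]; nlinarith
  · rw [show thFun m j false t = 0 from h]; nlinarith

lemma thFun_sq_add_def (m j : ℕ) (t : ℝ) :
    thFun m j true t * thFun m j true t + thFun m j false t * thFun m j false t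
      + thDef m j t * thDef m j t = 1 := by
  have h := thFun_sq_le m j t
  rw [thDef, Real.mul_self_sqrt (le_max_left _ _), max_eq_right (by linarith)]
  ring

lemma thFun_true_zero {m j : ℕ} (hj : j ≤ m) : thFun m j true 0 = 0 := by
  simp only [thFun, if_true]
  exact clamp01_of_nonpos (div_nonpos_of_nonpos_of_nonneg
    (by linarith [thW_pos m, (thAt_bounds hj).1]) (thW_pos m).le)

lemma thFun_false_zero {m j : ℕ} (hj : j ≤ m) : thFun m j false 0 = 1 := by
  simp only [thFun, Bool.false_eq_true, if_false]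
  exact clamp01_of_one_le ((one_le_div (thW_pos m)).2 (by linarith [(thAt_bounds hj).1]))

lemma thDef_zero {m j : ℕ} (hj : j ≤ m) : thDef m j 0 = 0 := by
  simp [thDef, thFun_true_zero hj, thFun_false_zero hj]

lemma thFun_false_le {m j : ℕ} (hj : j ≤ m) {t : ℝ} (ht : t ≤ 1) :
    thFun m j false t ≤ 1 / thW m * (1 - t) := by
  have h := thW_pos m
  simp only [thFun, Bool.false_eq_true, if_false]
  rw [div_mul_eq_mul_div, one_mul]
  rcases le_total (thAt m j) t with h' | h'
  · rw [clamp01_of_nonpos (div_nonpos_of_nonpos_of_nonneg (by linarith) h.le)]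
    exact div_nonneg (by linarith) h.le
  · exact (clamp01_mem _).2.trans ((one_le_div h).2 (by linarith [(thAt_bounds hj).2.1]))

lemma thDef_ne_zero {m j : ℕ} {t : ℝ} (h : thDef m j t ≠ 0) :
    thAt m j - thW m < t ∧ t < thAt m j + thW m := by
  have hw := thW_pos m
  by_contra hcon
  apply h
  rw [not_and_or, not_lt, not_lt] at hcon
  rcases hcon with h' | h'
  · have e : thFun m j false t = 1 := by
      simp only [thFun, Bool.false_eq_true, if_false]
      exact clamp01_of_one_le ((one_le_div hw).2 (by linarith))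
    have := thFun_sq_add_def m j t
    rw [e] at this
    nlinarith [mul_self_nonneg (thFun m j true t), mul_self_nonneg (thDef m j t)]
  · have e : thFun m j true t = 1 := by
      simp only [thFun, if_true]
      exact clamp01_of_one_le ((one_le_div hw).2 (by linarith))
    have := thFun_sq_add_def m j t
    rw [e] at this
    nlinarith [mul_self_nonneg (thFun m j false t), mul_self_nonneg (thDef m j t)]

lemma sum_thDef_le (m : ℕ) (t : ℝ) :
    ∑ j : Fin (m + 1), thDef m j t * thDef m j t ≤ 1 := by
  classical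
  have hle : ∀ j : Fin (m + 1), thDef m j t * thDef m j t ≤ 1 := fun j => by
    have := thFun_sq_add_def m j t
    nlinarith [mul_self_nonneg (thFun m j false t), mul_self_nonneg (thFun m j true t)]
  by_cases h : ∃ j : Fin (m + 1), thDef m j t ≠ 0
  · obtain ⟨j, hj⟩ := h
    rw [Finset.sum_eq_single j (fun i _ hij => ?_) (by simp)]
    · exact hle j
    · by_contra hcon
      have h1 := thDef_ne_zero hj
      have h2 := thDef_ne_zero (left_ne_zero_of_mul hcon)
      have hw := thW_pos m
      unfold thAt at h1 h2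
      rcases lt_trichotomy (i : ℕ) (j : ℕ) with hlt | heq | hlt
      · have : ((i : ℕ) : ℝ) + 1 ≤ ((j : ℕ) : ℝ) := by exact_mod_cast hlt
        nlinarith
      · exact hij (Fin.ext heq)
      · have : ((j : ℕ) : ℝ) + 1 ≤ ((i : ℕ) : ℝ) := by exact_mod_cast hlt
        nlinarith
  · push Not at h
    simp [h]

section CFC

variable {U : Type*} [CStarAlgebra U] [PartialOrder U] [StarOrderedRing U]

lemma spectrum_Icc {x : U} (h0 : 0 ≤ x) (h1 : x ≤ 1) {t : ℝ} (ht : t ∈ spectrum ℝ x) :
    t ∈ Set.Icc (0 : ℝ) 1 := by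
  refine ⟨spectrum_nonneg_of_nonneg h0 ht, ?_⟩
  exact (le_algebraMap_iff_spectrum_le (r := (1 : ℝ)) (a := x) h0.isSelfAdjoint).1
    (by simpa using h1) t ht

lemma ac_aeval {F v : ℕ → U} (hF : ∀ n, 0 ≤ F n ∧ F n ≤ 1) (hFb : Bd F) (h : AC F v)
    (p : ℝ[X]) : AC (fun n => aeval (F n) p) v := by
  induction p using Polynomial.induction_on with
  | C r => exact AZ.zero.congr fun n => by simp [Algebra.algebraMap_eq_smul_one]
  | add p q hp hq => exact (hp.add hq).congr fun n => by simp [add_mul, mul_add]; abel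
  | monomial k r ih =>
    have hb : Bd fun n => aeval (F n) (C r * X ^ k) := by
      obtain ⟨C0, hC0⟩ := hFb
      refine ⟨|r| * (max C0 1) ^ k, fun n => ?_⟩
      simp only [map_mul, aeval_C, map_pow, aeval_X]
      rw [Algebra.algebraMap_eq_smul_one, smul_mul_assoc, one_mul, norm_smul, Real.norm_eq_abs]
      refine mul_le_mul_of_nonneg_left ?_ (abs_nonneg r)
      rcases Nat.eq_zero_or_pos k with rfl | hk
      · simpa using (CStarAlgebra.norm_le_iff_le_algebraMap (1 : U) zero_le_one zero_le_one).2 (by simp)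
      · exact (norm_pow_le' _ hk).trans
          (pow_le_pow_left₀ (norm_nonneg _) ((hC0 n).trans (le_max_left _ _)) k)
    exact (AC.mul_left hb hFb ih h).congr fun n => by
      simp [pow_succ, mul_assoc]

/-- Functional calculi of asymptotically commuting elements commute asymptotically. -/
lemma ac_cfc {F v : ℕ → U} (hF : ∀ n, 0 ≤ F n ∧ F n ≤ 1) (hv : Bd v) (h : AC F v) {φ : ℝ → ℝ}
    (hφ : Continuous φ) : AC (fun n => cfc φ (F n)) v := by
  have hFb : Bd F := ⟨1, fun n =>
    (CStarAlgebra.norm_le_iff_le_algebraMap _ zero_le_one (hF n).1).2 (by simpa using (hF n).2)⟩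
  obtain ⟨C0, hC0⟩ := hv
  have hC : 0 ≤ C0 := (norm_nonneg _).trans (hC0 0)
  refine NormedAddCommGroup.tendsto_nhds_zero.2 fun ε hε => ?_
  set e := ε / (4 * (C0 + 1)) with he
  have he0 : 0 < e := by positivity
  obtain ⟨p, hp⟩ := exists_polynomial_near_of_continuousOn 0 1 φ hφ.continuousOn e he0
  filter_upwards [(ac_aeval hF hFb h p).eventually_lt (half_pos hε)] with n hn
  set D := cfc φ (F n) - aeval (F n) p with hD
  have hDn : ‖D‖ ≤ e := by
    rw [hD, ← cfc_polynomial p (F n) (hF n).1.isSelfAdjoint, ← cfc_sub ..]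
    refine norm_cfc_le he0.le fun t ht => ?_
    rw [Real.norm_eq_abs, abs_sub_comm]
    exact (hp t (spectrum_Icc (hF n).1 (hF n).2 ht)).le
  have e1 : cfc φ (F n) * v n - v n * cfc φ (F n)
      = (aeval (F n) p * v n - v n * aeval (F n) p) + (D * v n - v n * D) := by
    simp only [hD, sub_mul, mul_sub]; abel
  rw [e1]
  have h2 : ‖D * v n - v n * D‖ ≤ e * C0 + C0 * e :=
    (norm_sub_le _ _).trans (add_le_add
      ((norm_mul_le _ _).trans (mul_le_mul hDn (hC0 n) (norm_nonneg _) he0.le))
      ((norm_mul_le _ _).trans (mul_le_mul (hC0 n) hDn (norm_nonneg _) hC)))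
  have h3 : e * (4 * (C0 + 1)) = ε := by rw [he]; field_simp
  linarith [norm_add_le (aeval (F n) p * v n - v n * aeval (F n) p) (D * v n - v n * D)]

end CFC

end Vale.Agent.P133dim
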