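import Vale.Agent.P133dim.Glue
import Vale.Agent.P133dim.Thresh

/-!
Spreading pieces of bounded order over orthogonal blocks, using threshold weights.
-/

set_option linter.unusedSectionVars false

namespace Vale.Agent.P133dim

open Vale.Agent.P133 Unitization Filter Topology
open scoped CStarAlgebra

section Alg

variable {U : Type*} [Ring U]

/-- The ordered product of chosen entries. -/
def Pw : {V : ℕ} → (Fin V → Bool → U) → (Fin V → Bool) → U
  | 0, _, _ => 1
  | _ + 1, g, σ => Pw (fun v => g v.succ) (fun v => σ v.succ) * g 0 (σ 0)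

end Alg

section Asymp

variable {U : Type*} [CStarAlgebra U]

lemma bd_Pw : ∀ {V : ℕ} {g : Fin V → Bool → ℕ → U}, (∀ v b, Bd (g v b)) → ∀ σ,
    Bd fun n => Pw (fun v b => g v b n) σ := by
  intro V
  induction V with
  | zero => exact fun _ σ => Bd.const 1
  | succ V ih => exact fun hb σ =>
      (ih (fun v b => hb v.succ b) fun v => σ v.succ).mul (hb 0 (σ 0))

lemma ac_Pw : ∀ {V : ℕ} {g : Fin V → Bool → ℕ → U}, (∀ v b, Bd (g v b)) → ∀ {w : ℕ → U},
    (∀ v b, AC (g v b) w) → ∀ σ, AC (fun n => Pw (fun v b => g v b n) σ) w := by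
  intro V
  induction V with
  | zero => exact fun _ w _ σ => AC.one_left w
  | succ V ih =>
    intro g hb w hw σ
    exact AC.mul_left (bd_Pw (fun v b => hb v.succ b) _) (hb 0 (σ 0))
      (ih (fun v b => hb v.succ b) (fun v b => hw v.succ b) _) (hw 0 (σ 0))

/-- A product with one entry killing `c` kills `c`. -/
lemma az_Pw_mul : ∀ {V : ℕ} {g : Fin V → Bool → ℕ → U}, (∀ v b, Bd (g v b)) → ∀ {c : U},
    (∀ v b, AC (g v b) fun _ => c) → ∀ (σ : Fin V → Bool) (v : Fin V),
    AZ (fun n => g v (σ v) n * c) → AZ fun n => Pw (fun v b => g v b n) σ * c := by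
  intro V
  induction V with
  | zero => intro g _ c _ σ v; exact v.elim0
  | succ V ih =>
    intro g hb c hc σ v hz
    cases v using Fin.cases with
    | zero =>
      exact (AZ.bd_mul (bd_Pw (fun v b => hb v.succ b) fun v => σ v.succ) hz).congr fun n => by
        simp only [Pw, mul_assoc]
    | succ v =>
      have h1 := ih (fun v b => hb v.succ b) (fun v b => hc v.succ b) (fun v => σ v.succ) v hz
      refine ((AZ.mul_bd h1 (hb 0 (σ 0))).add
        (AZ.bd_mul (bd_Pw (fun v b => hb v.succ b) fun v => σ v.succ) (hc 0 (σ 0)))).congr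
          fun n => ?_
      simp only [Pw]
      noncomm_ring

/-- Products along different choices are asymptotically orthogonal. -/
lemma az_Pw_orth : ∀ {V : ℕ} {g : Fin V → Bool → ℕ → U}, (∀ v b, Bd (g v b)) →
    (∀ v b n, IsSelfAdjoint (g v b n)) → (∀ v b w b', AC (g v b) (g w b')) →
    (∀ v b n, g v b n * g v (!b) n = 0) → ∀ σ τ : Fin V → Bool, σ ≠ τ →
    AZ fun n => star (Pw (fun v b => g v b n) σ) * Pw (fun v b => g v b n) τ := by
  intro V
  induction V with
  | zero => exact fun _ _ _ _ σ τ h => absurd (funext fun v => v.elim0) h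
  | succ V ih =>
    intro g hb hs hc ho σ τ hne
    have hP := bd_Pw (fun v b => hb v.succ b) fun v => σ v.succ
    have hQ := bd_Pw (fun v b => hb v.succ b) fun v => τ v.succ
    by_cases h0 : σ 0 = τ 0
    · have h1 : (fun v : Fin V => σ v.succ) ≠ fun v => τ v.succ := fun h => hne (funext fun v => by
        cases v using Fin.cases with
        | zero => exact h0
        | succ v => exact congrFun h v)
      refine (AZ.mul_bd (AZ.bd_mul (hb 0 (σ 0)) (ih (fun v b => hb v.succ b)
        (fun v b n => hs v.succ b n) (fun v b w b' => hc v.succ b w.succ b')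
        (fun v b n => ho v.succ b n) _ _ h1)) (hb 0 (τ 0))).congr fun n => ?_
      simp only [Pw, star_mul, (hs 0 (σ 0) n).star_eq, mul_assoc]
    · have e : τ 0 = !(σ 0) := by cases hσ : σ 0 <;> cases hτ : τ 0 <;> simp_all
      have hac : AC (g 0 (σ 0))
          fun n => star (Pw (fun v b => g v.succ b n) fun v => σ v.succ) *
            Pw (fun v b => g v.succ b n) fun v => τ v.succ := by
        refine (AC.mul_left hP.star hQ ?_
          (ac_Pw (fun v b => hb v.succ b) (fun v b => hc v.succ b 0 (σ 0)) _)).symm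
        have h2 := (ac_Pw (fun v b => hb v.succ b) (fun v b => hc v.succ b 0 (σ 0))
          fun v => σ v.succ).star
        simpa only [(hs 0 (σ 0) _).star_eq] using h2
      refine (AZ.mul_bd hac (hb 0 (τ 0))).congr fun n => ?_
      have h3 := ho 0 (σ 0) n
      rw [← e] at h3
      simp only [Pw, star_mul, (hs 0 (σ 0) n).star_eq, sub_mul, mul_assoc, h3, mul_zero, sub_zero]

end Asymp

section Order

variable {U : Type*} [CStarAlgebra U] [PartialOrder U] [StarOrderedRing U]

lemma sum_Pw_le_one : ∀ {V : ℕ} {g : Fin V → Bool → U}, (∀ v b, IsSelfAdjoint (g v b)) →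
    (∀ v, g v true * g v true + g v false * g v false ≤ 1) →
    ∑ σ, star (Pw g σ) * Pw g σ ≤ 1 := by
  intro V
  induction V with
  | zero => intro g _ _; simp [Pw]
  | succ V ih =>
    intro g hs hg
    rw [sum_bool_fun]
    simp only [Pw, Fin.cons_zero, Fin.cons_succ]
    rw [sum_star_cons]
    refine le_trans (Finset.sum_le_sum fun b _ => star_left_conjugate_le_conjugate
      (ih (fun v b => hs v.succ b) fun v => hg v.succ) _) ?_
    simpa [Fintype.sum_bool, (hs 0 true).star_eq, (hs 0 false).star_eq] using hg 0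

/-- The squares of the products and of the defects add up to at least one, asymptotically. -/
lemma sum_Pw_ge : ∀ {V : ℕ} {g : Fin V → Bool → ℕ → U} {h : Fin V → ℕ → U},
    (∀ v b, Bd (g v b)) → (∀ v, Bd (h v)) → (∀ v b n, IsSelfAdjoint (g v b n)) →
    (∀ v n, IsSelfAdjoint (h v n)) → (∀ v b w, AC (g v b) (h w)) →
    (∀ v n, g v true n * g v true n + g v false n * g v false n + h v n * h v n = 1) →
    ∃ E : ℕ → U, AZ E ∧ ∀ n,
      1 ≤ (∑ σ, star (Pw (fun v b => g v b n) σ) * Pw (fun v b => g v b n) σ)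
        + (∑ v, h v n * h v n) + E n := by
  intro V
  induction V with
  | zero => exact fun {g h} _ _ _ _ _ _ => ⟨fun _ => 0, AZ.zero, fun n => by simp [Pw]⟩
  | succ V ih =>
    intro g h hb hhb hs hhs hc hone
    obtain ⟨E, hE, hle⟩ := ih (g := fun v => g v.succ) (h := fun v => h v.succ)
      (fun v b => hb v.succ b) (fun v => hhb v.succ) (fun v b n => hs v.succ b n)
      (fun v n => hhs v.succ n) (fun v b w => hc v.succ b w.succ) (fun v n => hone v.succ n)
    set D : ℕ → U := fun n => ∑ b : Bool, ∑ w : Fin V,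
      (g 0 b n * (h w.succ n * h w.succ n) * g 0 b n
        - h w.succ n * (g 0 b n * g 0 b n) * h w.succ n) with hD
    have hDz : AZ D := by
      refine AZ.sum _ fun b _ => AZ.sum _ fun w _ => ?_
      refine ((AZ.mul_bd (hc 0 b w.succ) ((hhb w.succ).mul (hb 0 b))).add
        (AZ.bd_mul ((hhb w.succ).mul (hb 0 b)) (hc 0 b w.succ).neg)).congr fun n => ?_
      noncomm_ring
    refine ⟨fun n => (∑ b : Bool, g 0 b n * E n * g 0 b n) + D n,
      (AZ.sum _ fun b _ => AZ.mul_bd (AZ.bd_mul (hb 0 b) hE) (hb 0 b)).add hDz, fun n => ?_⟩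
    have hxs : ∀ b, star (g 0 b n) = g 0 b n := fun b => (hs 0 b n).star_eq
    set S := ∑ τ : Fin V → Bool, star (Pw (fun v b => g v.succ b n) τ) *
      Pw (fun v b => g v.succ b n) τ with hS
    set H := ∑ w : Fin V, h w.succ n * h w.succ n with hH
    have e1 : ∑ σ, star (Pw (fun v b => g v b n) σ) * Pw (fun v b => g v b n) σ
        = ∑ b : Bool, g 0 b n * S * g 0 b n := by
      rw [sum_bool_fun]
      simp only [Pw, Fin.cons_zero, Fin.cons_succ]
      rw [sum_star_cons]
      simp only [hxs, hS]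
    have e2 : ∑ b : Bool, g 0 b n * H * g 0 b n
        = (∑ w : Fin V, ∑ b : Bool, h w.succ n * (g 0 b n * g 0 b n) * h w.succ n) + D n := by
      simp only [hD, hH, Finset.mul_sum, Finset.sum_mul, Finset.sum_sub_distrib]
      rw [Finset.sum_comm (γ := Fin V)]
      abel
    have hx2 : ∑ b : Bool, g 0 b n * g 0 b n ≤ 1 := by
      have h1 : 0 ≤ h 0 n * h 0 n := by
        simpa [(hhs 0 n).star_eq] using star_mul_self_nonneg (h 0 n)
      rw [Fintype.sum_bool, ← hone 0 n]
      exact le_add_of_nonneg_right h1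
    have h3 : ∑ b : Bool, g 0 b n * H * g 0 b n ≤ H + D n := by
      rw [e2]
      refine add_le_add ?_ le_rfl
      refine Finset.sum_le_sum fun w _ => ?_
      rw [← Finset.sum_mul, ← Finset.mul_sum]
      have := star_left_conjugate_le_conjugate hx2 (h w.succ n)
      rwa [(hhs w.succ n).star_eq, mul_one] at this
    have h4 : ∀ b : Bool, g 0 b n * g 0 b n
        ≤ g 0 b n * S * g 0 b n + g 0 b n * H * g 0 b n + g 0 b n * E n * g 0 b n := fun b => by
      have := star_left_conjugate_le_conjugate (hle n) (g 0 b n)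
      simpa [hxs b, mul_add, add_mul] using this
    calc (1 : U) = (∑ b : Bool, g 0 b n * g 0 b n) + h 0 n * h 0 n := by
          rw [Fintype.sum_bool, hone 0 n]
      _ ≤ (∑ b : Bool, (g 0 b n * S * g 0 b n + g 0 b n * H * g 0 b n
            + g 0 b n * E n * g 0 b n)) + h 0 n * h 0 n :=
          add_le_add (Finset.sum_le_sum fun b _ => h4 b) le_rfl
      _ ≤ (∑ b : Bool, g 0 b n * S * g 0 b n) + (H + D n)
            + (∑ b : Bool, g 0 b n * E n * g 0 b n) + h 0 n * h 0 n := by
          rw [Finset.sum_add_distrib, Finset.sum_add_distrib]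
          exact add_le_add (add_le_add (add_le_add le_rfl h3) le_rfl) le_rfl
      _ = _ := by
          rw [e1, Fin.sum_univ_succ (fun v => h v n * h v n), hH]
          simp only [add_assoc, add_comm, add_left_comm]

end Order

variable {A : Type*} [NonUnitalCStarAlgebra A] [PartialOrder A] [StarOrderedRing A]

lemma Pw_mem : ∀ {V : ℕ} {I : Fin V → Submodule ℂ A}, (∀ v, IsClosedIdeal A (I v)) →
    ∀ (g : Fin V → Bool → A⁺¹) (σ : Fin V → Bool) (v : Fin V),
    (∃ w ∈ I v, g v (σ v) = (w : A⁺¹)) → ∃ w ∈ I v, Pw g σ = (w : A⁺¹) := by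
  intro V
  induction V with
  | zero => intro I hI g σ v; exact v.elim0
  | succ V ih =>
    intro I hI g σ v hv
    simp only [Pw]
    cases v using Fin.cases with
    | zero =>
      obtain ⟨w, hw, e⟩ := hv
      rw [e]
      exact inr_mul_mem (hI 0) _ hw
    | succ v =>
      obtain ⟨w, hw, e⟩ := ih (fun v => hI v.succ) (fun v => g v.succ) (fun v => σ v.succ) v hv
      rw [e]
      exact inr_mul_mem_right (hI v.succ) _ hw

lemma Pw_eq_zero {V m : ℕ} {I : Fin V → Submodule ℂ A} (hI : ∀ v, IsClosedIdeal A (I v))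
    (hord : ∀ S : Finset (Fin V), m < S.card → (⨅ v ∈ S, I v) = ⊥) (g : Fin V → Bool → A⁺¹)
    (σ : Fin V → Bool) {S : Finset (Fin V)}
    (hS : ∀ v ∈ S, ∃ w ∈ I v, g v (σ v) = (w : A⁺¹)) (hm : m < S.card) : Pw g σ = 0 := by
  obtain ⟨v0, hv0⟩ : S.Nonempty := Finset.card_pos.1 (lt_of_le_of_lt (Nat.zero_le m) hm)
  obtain ⟨w, -, e⟩ := Pw_mem hI g σ v0 (hS v0 hv0)
  have hw : w ∈ (⨅ v ∈ S, I v) := by
    simp only [Submodule.mem_iInf]
    intro v hv
    obtain ⟨w', hw', e'⟩ := Pw_mem hI g σ v (hS v hv)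
    have : w = w' := inr_injective (R := ℂ) (e.symm.trans e')
    rwa [this]
  rw [hord S hm, Submodule.mem_bot] at hw
  rw [e, hw, inr_zero]

set_option maxHeartbeats 1000000 in
/-- Pieces of order `m`, each with exact copies in `(m + 1) * m` orthogonal blocks, combine into
almost orthogonal columns whose common square dominates all pieces. -/
lemma exists_spread {V m K : ℕ} (I : Fin V → Submodule ℂ A) (hI : ∀ v, IsClosedIdeal A (I v))
    (hord : ∀ S : Finset (Fin V), m < S.card → (⨅ v ∈ S, I v) = ⊥) (p : Fin V → A)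
    (hp : ∀ v, p v ∈ I v ∧ 0 ≤ p v) (hp1 : ∀ v, ‖p v‖ ≤ 1)
    (X : Fin V → Fin (m + 1) × Fin m → Fin K → A)
    (hX : ∀ v v' b b' l l', b ≠ b' → star (X v b l) * X v' b' l' = 0)
    (hXX : ∀ v b l l', star (X v b l) * X v b l' = if l = l' then p v else 0)
    (W : Fin K → A) {σ : ℝ} (hσ : 0 ≤ σ) (hW : ∀ j v b l, ‖star (W j) * X v b l‖ ≤ σ)
    {ε : ℝ} (hε : 0 < ε) :
    ∃ (S : Fin K → A) (G E : A),
      (∀ z, (∀ v b l, RMem z (X v b l)) → ∀ l, RMem z (S l)) ∧ 0 ≤ G ∧
      ‖G‖ ≤ ((m : ℝ) + 1) * m ∧ ‖E‖ ≤ ε ∧ IsSelfAdjoint E ∧ (∑ v, p v) ≤ G + E ∧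
      (∀ l l', ‖star (S l) * S l' - (if l = l' then G else 0)‖ ≤ ε) ∧
      ∀ j l, ‖star (W j) * S l‖ ≤ ((m : ℝ) + 1) * (m * σ) + ε := by
  classical
  -- blocks used by a choice
  set T : (Fin V → Bool) → Finset (Fin V) := fun τ => Finset.univ.filter fun v => τ v = true
    with hT
  set Y : Fin (m + 1) → (Fin V → Bool) → Fin K → A := fun j τ l =>
    if h : (T τ).card ≤ m then ∑ v : {v // v ∈ T τ}, X v.1 (j, ((T τ).equivFin v).castLE h) l
    else 0 with hY
  set Pt : (Fin V → Bool) → A := fun τ => if (T τ).card ≤ m then ∑ v ∈ T τ, p v else 0 with hPt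
  set P : A := ∑ v, p v with hP
  have hP0 : 0 ≤ P := Finset.sum_nonneg fun v _ => (hp v).2
  have hPn : ‖P‖ ≤ m * 1 := norm_sum_le_of_order hI hord (fun v => hp v) zero_le_one hp1
  have hPt0 : ∀ τ, 0 ≤ Pt τ := fun τ => by
    simp only [hPt]
    split_ifs
    exacts [Finset.sum_nonneg fun v _ => (hp v).2, le_rfl]
  have hPtle : ∀ τ, Pt τ ≤ P := fun τ => by
    simp only [hPt]
    split_ifs
    exacts [Finset.sum_le_sum_of_subset_of_nonneg (Finset.subset_univ _) fun v _ _ => (hp v).2, hP0]
  have hYY : ∀ j τ l l', star (Y j τ l) * Y j τ l' = if l = l' then Pt τ else 0 := by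
    intro j τ l l'
    simp only [hY, hPt]
    by_cases h : (T τ).card ≤ m
    · rw [dif_pos h, dif_pos h, if_pos h, star_sum, Finset.sum_mul]
      have : ∀ v : {v // v ∈ T τ}, (star (X v.1 (j, ((T τ).equivFin v).castLE h) l) *
          ∑ w : {v // v ∈ T τ}, X w.1 (j, ((T τ).equivFin w).castLE h) l')
          = if l = l' then p v.1 else 0 := fun v => by
        rw [Finset.mul_sum, Finset.sum_eq_single v (fun w _ hw => hX _ _ _ _ _ _ fun h' => hw ?_)
          (by simp), hXX]
        exact ((T τ).equivFin.injective (Fin.castLE_injective h (Prod.ext_iff.1 h').2)).symm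
      rw [Finset.sum_congr rfl fun v _ => this v]
      split_ifs with hl
      · exact Finset.sum_coe_sort (T τ) p
      · simp
    · simp [dif_neg h, if_neg h]
  have hYj : ∀ j j' τ τ' l l', j ≠ j' → star (Y j τ l) * Y j' τ' l' = 0 := by
    intro j j' τ τ' l l' hj
    simp only [hY]
    split_ifs
    · rw [star_sum, Finset.sum_mul]
      refine Finset.sum_eq_zero fun v _ => ?_
      rw [Finset.mul_sum]
      exact Finset.sum_eq_zero fun w _ => hX _ _ _ _ _ _ fun h' => hj (Prod.ext_iff.1 h').1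
    all_goals simp
  set C : Fin (m + 1) → (Fin V → Bool) → Fin K → Fin K → A := fun j τ i l => star (W i) * Y j τ l
    with hC
  have hCn : ∀ j τ i l, ‖C j τ i l‖ ≤ m * σ := by
    intro j τ i l
    simp only [hC, hY]
    split_ifs with h
    · rw [Finset.mul_sum]
      refine (norm_sum_le _ _).trans ((Finset.sum_le_sum fun v _ => hW i _ _ l).trans ?_)
      simp only [Finset.sum_const, Finset.card_univ, Fintype.card_coe, nsmul_eq_mul]
      exact mul_le_mul_of_nonneg_right (Nat.cast_le.2 h) hσ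
    · simpa using by positivity
  -- constants that the weights commute with
  set D : Finset A :=
    (Finset.univ.image fun q : (Fin (m + 1) × (Fin V → Bool) × (Fin V → Bool)) × Fin K × Fin K =>
      star (Y q.1.1 q.1.2.1 q.2.1) * Y q.1.1 q.1.2.2 q.2.2) ∪
    (Finset.univ.image fun q : (Fin (m + 1) × (Fin V → Bool) × (Fin V → Bool)) × Fin K × Fin K =>
      star (C q.1.1 q.1.2.1 q.2.1 q.2.2) * C q.1.1 q.1.2.2 q.2.1 q.2.2) ∪
    (Finset.univ.image p) ∪ {CFC.sqrt P} with hD
  obtain ⟨f, hf, hff, hfD, hfR⟩ := exists_weights I hI (fun v => {p v})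
    (fun v i hi => by rw [Finset.mem_singleton] at hi; exact hi ▸ (hp v).1) D
  set F : Fin V → ℕ → A⁺¹ := fun v n => (f v n : A⁺¹) with hF
  have hF01 : ∀ v n, 0 ≤ F v n ∧ F v n ≤ 1 := fun v n =>
    CStarAlgebra.inr_mem_Icc_iff_norm_le.2 ⟨(hf v n).2.1, (hf v n).2.2⟩
  have hFb : ∀ v, Bd (F v) := fun v => ⟨1, fun n => norm_le_one_of_le (hF01 v n).1 (hF01 v n).2⟩
  set g : Fin (m + 1) → Fin V → Bool → ℕ → A⁺¹ := fun j v b n => cfc (thFun m j b) (F v n) with hg
  set hh : Fin (m + 1) → Fin V → ℕ → A⁺¹ := fun j v n => cfc (thDef m j) (F v n) with hhd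
  have hjm : ∀ j : Fin (m + 1), (j : ℕ) ≤ m := fun j => Nat.le_of_lt_succ j.2
  have hcont := fun (j : Fin (m + 1)) b => continuous_thFun m j b
  have hcd := fun j : Fin (m + 1) => continuous_thDef m j
  have hgs : ∀ j v b n, IsSelfAdjoint (g j v b n) := fun j v b n => cfc_predicate _ _
  have hhs : ∀ j v n, IsSelfAdjoint (hh j v n) := fun j v n => cfc_predicate _ _
  have hone : ∀ j v n, g j v true n * g j v true n + g j v false n * g j v false n
      + hh j v n * hh j v n = 1 := fun j v n => by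
    have := hcont j true; have := hcont j false; have := hcd j
    simp only [hg, hhd]
    rw [← cfc_mul .., ← cfc_mul .., ← cfc_mul .., ← cfc_add .., ← cfc_add ..]
    exact (cfc_congr fun t _ => thFun_sq_add_def m j t).trans
      (cfc_const_one ℝ (F v n) (hF01 v n).1.isSelfAdjoint)
  have hg1 : ∀ j v n, g j v true n * g j v true n + g j v false n * g j v false n ≤ 1 :=
    fun j v n => by
      refine le_of_le_of_eq ?_ (hone j v n)
      exact le_add_of_nonneg_right (by simpa [(hhs j v n).star_eq] using star_mul_self_nonneg (hh j v n))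
  have hgb : ∀ j v b, Bd (g j v b) := fun j v b => ⟨1, fun n => norm_cfc_le zero_le_one fun t _ => by
    rw [Real.norm_eq_abs, abs_of_nonneg (thFun_mem m j b t).1]; exact (thFun_mem m j b t).2⟩
  have hhb : ∀ j v, Bd (hh j v) := fun j v => ⟨1, fun n => norm_cfc_le zero_le_one fun t _ => by
    rw [Real.norm_eq_abs, thDef, abs_of_nonneg (Real.sqrt_nonneg _)]
    refine Real.sqrt_le_one.2 (max_le zero_le_one ?_)
    linarith [mul_self_nonneg (thFun m j true t), mul_self_nonneg (thFun m j false t)]⟩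
  have hgF : ∀ j v b w, AC (g j v b) (F w) := fun j v b w =>
    ac_cfc (hF01 v) (hFb w) (hff v w) (hcont j b)
  have hgg : ∀ j v b j' w b', AC (g j v b) (g j' w b') := fun j v b j' w b' =>
    (ac_cfc (hF01 w) (hgb j v b) (hgF j v b w).symm (hcont j' b')).symm
  have hgh : ∀ j v b w, AC (g j v b) (hh j w) := fun j v b w =>
    (ac_cfc (hF01 w) (hgb j v b) (hgF j v b w).symm (hcd j)).symm
  have hgD : ∀ d ∈ D, ∀ j v b, AC (g j v b) fun _ => (d : A⁺¹) := fun d hd j v b =>
    ac_cfc (hF01 v) (Bd.const _) (hfD v d hd) (hcont j b)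
  set q : Fin (m + 1) → (Fin V → Bool) → ℕ → A⁺¹ := fun j τ n => Pw (fun v b => g j v b n) τ
    with hq
  have hqb : ∀ j τ, Bd (q j τ) := fun j τ => bd_Pw (hgb j) τ
  have hqD : ∀ d ∈ D, ∀ j τ, AC (q j τ) fun _ => (d : A⁺¹) := fun d hd j τ =>
    ac_Pw (hgb j) (fun v b => hgD d hd j v b) τ
  have hqo : ∀ j τ τ', τ ≠ τ' → AZ fun n => star (q j τ n) * q j τ' n := fun j τ τ' h =>
    az_Pw_orth (hgb j) (hgs j) (fun v b w b' => hgg j v b j w b') (fun v b n => by
      have := hcont j b; have := hcont j (!b)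
      simp only [hg]
      rw [← cfc_mul ..]
      exact (cfc_congr fun t _ => thFun_mul_eq m j b t).trans (cfc_const_zero ℝ _)) τ τ' h
  have hq1 : ∀ j n, ∑ τ, star (q j τ n) * q j τ n ≤ 1 := fun j n =>
    sum_Pw_le_one (fun v b => hgs j v b n) fun v => hg1 j v n
  -- pieces outside a choice are not seen
  have hkill : ∀ j τ v, τ v = false → AZ fun n => q j τ n * (p v : A⁺¹) := by
    intro j τ v hv
    have hpD : p v ∈ D := by
      simp only [hD, Finset.mem_union, Finset.mem_image, Finset.mem_univ, true_and]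
      exact Or.inl (Or.inr ⟨v, rfl⟩)
    refine az_Pw_mul (hgb j) (fun w b => hgD _ hpD j w b) τ v ?_
    rw [hv]
    have hs : (0 : ℝ) ≤ 1 / thW m := by have := thW_pos m; positivity
    have hle : ∀ n, ‖g j v false n * (p v : A⁺¹)‖ ≤ 1 / thW m * ‖(1 - F v n) * (p v : A⁺¹)‖ := by
      intro n
      set c := 1 / thW m
      have hFs : IsSelfAdjoint (F v n) := (hF01 v n).1.isSelfAdjoint
      have h1 : g j v false n * g j v false n ≤ (c * c) • ((1 - F v n) * (1 - F v n)) := by
        have := hcont j false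
        simp only [hg]
        rw [← cfc_mul ..]
        have e : (c * c) • ((1 - F v n) * (1 - F v n))
            = cfc (fun t : ℝ => (c * c) * ((1 - t) * (1 - t))) (F v n) := by
          rw [cfc_const_mul .., cfc_mul .., cfc_sub .., cfc_const_one .., cfc_id' ..]
        rw [e]
        refine cfc_mono fun t ht => ?_
        have h2 := thFun_false_le (hjm j) (spectrum_Icc (hF01 v n).1 (hF01 v n).2 ht).2
        calc thFun m j false t * thFun m j false t ≤ (c * (1 - t)) * (c * (1 - t)) :=
              mul_le_mul h2 h2 (thFun_mem m j false t).1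
                ((thFun_mem m j false t).1.trans h2)
          _ = _ := by ring
      have h3 : star (g j v false n * (p v : A⁺¹)) * (g j v false n * (p v : A⁺¹))
          ≤ (c * c) • (star ((1 - F v n) * (p v : A⁺¹)) * ((1 - F v n) * (p v : A⁺¹))) := by
        have := star_left_conjugate_le_conjugate h1 (p v : A⁺¹)
        simp only [star_mul, (hgs j v false n).star_eq, star_sub, star_one, hFs.star_eq]
        simpa only [mul_smul_comm, smul_mul_assoc, mul_assoc] using this
      have h4 := CStarAlgebra.norm_le_norm_of_nonneg_of_le (star_mul_self_nonneg _) h3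
      rw [CStarRing.norm_star_mul_self, norm_smul, CStarRing.norm_star_mul_self,
        Real.norm_of_nonneg (by positivity),
        show c * c * (‖(1 - F v n) * (p v : A⁺¹)‖ * ‖(1 - F v n) * (p v : A⁺¹)‖)
          = (c * ‖(1 - F v n) * (p v : A⁺¹)‖) * (c * ‖(1 - F v n) * (p v : A⁺¹)‖) by ring] at h4
      exact (mul_self_le_mul_self_iff (norm_nonneg _) (by positivity)).2 h4
    refine squeeze_zero_norm hle ?_
    simpa using (tendsto_norm_zero.comp (hfR v (p v) (Finset.mem_singleton_self _))).const_mul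
      (1 / thW m)
  have hzero : ∀ j τ n, m < (T τ).card → q j τ n = 0 := fun j τ n h => by
    refine Pw_eq_zero hI hord _ τ (S := T τ) (fun v hv => ?_) h
    rw [hT, Finset.mem_filter] at hv
    rw [hv.2]
    exact ⟨cfcₙ (thFun m j true) (f v n), (rmem_cfcₙ _ _).mem (hI v) (hf v n).1,
      (Unitization.real_cfcₙ_eq_cfc_inr (f v n) (thFun m j true) (thFun_true_zero (hjm j))).symm⟩
  -- the columns
  set r : A⁺¹ := ((CFC.sqrt P : A) : A⁺¹) with hr
  have hrs : star r = r := ((CFC.sqrt_nonneg P).isSelfAdjoint.inr ℂ).star_eq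
  have hrr : r * r = (P : A⁺¹) := by rw [hr, ← inr_mul, CFC.sqrt_mul_sqrt_self P]
  have hrD : CFC.sqrt P ∈ D := by
    simp only [hD, Finset.mem_union, Finset.mem_singleton]
    exact Or.inr trivial
  set Gs : ℕ → A⁺¹ := fun n => ∑ j, ∑ τ, star (q j τ n) * (Pt τ : A⁺¹) * q j τ n with hGs
  set Q : ℕ → A⁺¹ := fun n => ∑ j, ∑ τ, star (q j τ n) * q j τ n with hQ
  have hGQ : AZ fun n => Gs n - r * Q n * r := by
    have h1 : ∀ j τ, AZ fun n => star (q j τ n) * (Pt τ : A⁺¹) * q j τ n
        - r * (star (q j τ n) * q j τ n) * r := by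
      intro j τ
      have hr1 : AC (fun n => star (q j τ n)) fun _ => r := by
        have h0 := (hqD _ hrD j τ).star
        rw [← hr, hrs] at h0
        exact h0
      have h2 : AZ fun n => star (q j τ n) * (P : A⁺¹) * q j τ n
          - r * (star (q j τ n) * q j τ n) * r := by
        refine ((AZ.mul_bd hr1 ((Bd.const r).mul (hqb j τ))).sub
          (AZ.bd_mul ((Bd.const r).mul (hqb j τ).star) (hqD _ hrD j τ))).congr fun n => ?_
        rw [← hrr]
        noncomm_ring
      by_cases hcard : (T τ).card ≤ m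
      · have h3 : AZ fun n => ∑ v ∈ Finset.univ \ T τ,
            star (q j τ n) * (p v : A⁺¹) * q j τ n := by
          refine AZ.sum _ fun v hv => ?_
          have hvf : τ v = false := by
            simpa [hT] using hv
          have hpD : p v ∈ D := by
            simp only [hD, Finset.mem_union, Finset.mem_image, Finset.mem_univ, true_and]
            exact Or.inl (Or.inr ⟨v, rfl⟩)
          refine (AZ.bd_mul (hqb j τ).star ((hkill j τ v hvf).sub (hqD _ hpD j τ))).congr
            fun n => ?_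
          noncomm_ring
        refine (h2.sub h3).congr fun n => ?_
        have e : (P : A⁺¹) = (Pt τ : A⁺¹) + ∑ v ∈ Finset.univ \ T τ, (p v : A⁺¹) := by
          simp only [hP, hPt, if_pos hcard, inr_sum_eq]
          rw [add_comm, Finset.sum_sdiff (Finset.subset_univ _)]
        rw [e]
        simp only [Finset.mul_sum, Finset.sum_mul, mul_add, add_mul]
        abel
      · exact AZ.zero.congr fun n => by simp [hzero j τ n (not_le.1 hcard)]
    refine (AZ.sum Finset.univ fun j _ => AZ.sum Finset.univ fun τ _ => h1 j τ).congr fun n => ?_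
    simp only [hGs, hQ, Finset.sum_sub_distrib, Finset.mul_sum, Finset.sum_mul]
  choose E1 hE1 hlow using fun j => sum_Pw_ge (g := g j) (h := hh j) (hgb j) (hhb j) (hgs j)
    (hhs j) (fun v b w => hgh j v b w) (fun v n => hone j v n)
  set Es : ℕ → A⁺¹ := fun n => ∑ j, E1 j n with hEs
  have hlowQ : ∀ n, (1 : A⁺¹) ≤ Q n + Es n := by
    intro n
    have h1 : ((m : ℝ) + 1) • (1 : A⁺¹)
        ≤ Q n + (∑ j, ∑ v, hh j v n * hh j v n) + Es n := by
      simp only [hQ, hEs, ← Finset.sum_add_distrib]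
      refine le_trans (le_of_eq ?_) (Finset.sum_le_sum fun j _ => hlow j n)
      rw [Finset.sum_const, Finset.card_univ, Fintype.card_fin, ← Nat.cast_smul_eq_nsmul ℝ]
      push_cast
      rfl
    set φ : ℝ → ℝ := fun t => ∑ j : Fin (m + 1), thDef m j t * thDef m j t with hφ
    have hφc : Continuous φ := continuous_finset_sum _ fun j _ => (hcd j).mul (hcd j)
    have hφ0 : φ 0 = 0 := Finset.sum_eq_zero fun j _ => by simp [thDef_zero (hjm j)]
    set Z : Fin V → A := fun v => cfcₙ φ (f v n) with hZ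
    have hφnn : ∀ t, 0 ≤ φ t := fun t => Finset.sum_nonneg fun j _ => mul_self_nonneg _
    have hZn : ‖∑ v, Z v‖ ≤ m * 1 := norm_sum_le_of_order hI hord
      (fun v => ⟨(rmem_cfcₙ _ _).mem (hI v) (hf v n).1, cfcₙ_nonneg fun t _ => hφnn t⟩)
      zero_le_one fun v => norm_cfcₙ_le fun t _ => by
        rw [Real.norm_of_nonneg (hφnn t)]; exact sum_thDef_le m t
    have hZe : ∀ v, (Z v : A⁺¹) = ∑ j, hh j v n * hh j v n := fun v => by
      simp only [hZ, hhd, hF]
      have eφ : φ = ∑ j : Fin (m + 1), fun t => thDef m j t * thDef m j t := by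
        funext t; simp [hφ, Finset.sum_apply]
      rw [Unitization.real_cfcₙ_eq_cfc_inr (f v n) φ hφ0, eφ,
        cfc_sum (fun (j : Fin (m + 1)) t => thDef m j t * thDef m j t) _ _
          fun j _ => ((hcd j).mul (hcd j)).continuousOn]
      refine Finset.sum_congr rfl fun j _ => ?_
      exact cfc_mul _ _ _ (hcd j).continuousOn (hcd j).continuousOn
    have h2 : (∑ j, ∑ v, hh j v n * hh j v n) ≤ (m : ℝ) • (1 : A⁺¹) := by
      rw [Finset.sum_comm]
      simp only [← hZe, ← inr_sum_eq]
      rw [← Algebra.algebraMap_eq_smul_one]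
      refine (CStarAlgebra.norm_le_iff_le_algebraMap _ (Nat.cast_nonneg m) ?_).1 ?_
      · exact inr_nonneg_iff.2 (Finset.sum_nonneg fun v _ => cfcₙ_nonneg fun t _ => hφnn t)
      · rw [norm_inr]; linarith
    have h3 := h1.trans (add_le_add (add_le_add le_rfl h2) le_rfl)
    rw [add_smul, one_smul, add_right_comm, add_comm ((m : ℝ) • (1 : A⁺¹))] at h3
    exact le_of_add_le_add_right h3
  have hEz : AZ fun n => r * Q n * r - Gs n + r * Es n * r :=
    (hGQ.neg.add (AZ.mul_bd (AZ.bd_mul (Bd.const r) (AZ.sum _ fun j _ => hE1 j))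
      (Bd.const r))).congr fun n => by simp only [hEs]; abel
  -- almost orthogonality
  have hSS : ∀ l l', AZ fun n => (∑ j, ∑ τ, ∑ j', ∑ τ',
      star (q j τ n) * ((star (Y j τ l) * Y j' τ' l' : A) : A⁺¹) * q j' τ' n)
        - (if l = l' then Gs n else 0) := by
    intro l l'
    have h1 : ∀ j τ, AZ fun n => (∑ j', ∑ τ',
        star (q j τ n) * ((star (Y j τ l) * Y j' τ' l' : A) : A⁺¹) * q j' τ' n)
          - (if l = l' then star (q j τ n) * (Pt τ : A⁺¹) * q j τ n else 0) := by
      intro j τ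
      refine (AZ.sum ((Finset.univ : Finset (Fin V → Bool)).erase τ) fun τ' hτ' =>
        (AZ.mul_bd (hqo j τ τ' (Finset.ne_of_mem_erase hτ').symm) (Bd.const
          ((star (Y j τ l) * Y j τ' l' : A) : A⁺¹))).sub
        (AZ.bd_mul (hqb j τ).star (hqD (star (Y j τ l) * Y j τ' l') ?_ j τ'))).congr fun n => ?_
      · simp only [hD, Finset.mem_union, Finset.mem_image, Finset.mem_univ, true_and]
        exact Or.inl (Or.inl (Or.inl ⟨((j, τ, τ'), l, l'), rfl⟩))
      · rw [Finset.sum_eq_single j (fun j' _ hj' => ?_) (by simp),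
          ← Finset.add_sum_erase _ _ (Finset.mem_univ τ), hYY]
        · have e : star (q j τ n) * ((if l = l' then Pt τ else 0 : A) : A⁺¹) * q j τ n
              = if l = l' then star (q j τ n) * (Pt τ : A⁺¹) * q j τ n else 0 := by
            split_ifs <;> simp
          rw [e, add_sub_cancel_left]
          exact Finset.sum_congr rfl fun τ' _ => by noncomm_ring
        · exact Finset.sum_eq_zero fun τ' _ => by rw [hYj j j' τ τ' l l' (Ne.symm hj')]; simp
    refine (AZ.sum Finset.univ fun j _ => AZ.sum Finset.univ fun τ _ => h1 j τ).congr fun n => ?_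
    simp only [Finset.sum_sub_distrib, hGs]
    split_ifs <;> simp
  -- cross terms
  have hCC : ∀ j i l, AZ fun n =>
      star (∑ τ, (C j τ i l : A⁺¹) * q j τ n) * (∑ τ, (C j τ i l : A⁺¹) * q j τ n)
        - ∑ τ, star (q j τ n) * ((star (C j τ i l) * C j τ i l : A) : A⁺¹) * q j τ n := by
    intro j i l
    refine (AZ.sum Finset.univ fun τ _ => AZ.sum ((Finset.univ : Finset (Fin V → Bool)).erase τ)
      fun τ' hτ' => (AZ.mul_bd (hqo j τ τ' (Finset.ne_of_mem_erase hτ').symm)
          (Bd.const ((star (C j τ i l) * C j τ' i l : A) : A⁺¹))).sub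
        (AZ.bd_mul (hqb j τ).star (hqD (star (C j τ i l) * C j τ' i l) ?_ j τ'))).congr fun n => ?_
    · simp only [hD, Finset.mem_union, Finset.mem_image, Finset.mem_univ, true_and]
      exact Or.inl (Or.inl (Or.inr ⟨((j, τ, τ'), i, l), rfl⟩))
    · rw [star_sum, Finset.sum_mul, ← Finset.sum_sub_distrib]
      refine Finset.sum_congr rfl fun τ _ => ?_
      rw [Finset.mul_sum, ← Finset.add_sum_erase _ _ (Finset.mem_univ τ),
        show star ((C j τ i l : A⁺¹) * q j τ n) * ((C j τ i l : A⁺¹) * q j τ n)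
          = star (q j τ n) * ((star (C j τ i l) * C j τ i l : A) : A⁺¹) * q j τ n by
          simp only [star_mul, inr_mul, inr_star, mul_assoc],
        add_sub_cancel_left]
      exact Finset.sum_congr rfl fun τ' _ => by
        simp only [star_mul, inr_mul, inr_star, mul_sub, mul_assoc]; noncomm_ring
  -- pick a late index
  set e' : ℝ := ε / ((m : ℝ) + 1) with he'
  have he'0 : 0 < e' := by positivity
  have ev : ∀ᶠ n in atTop, ‖r * Q n * r - Gs n + r * Es n * r‖ < ε ∧
      (∀ l l', ‖(∑ j, ∑ τ, ∑ j', ∑ τ',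
        star (q j τ n) * ((star (Y j τ l) * Y j' τ' l' : A) : A⁺¹) * q j' τ' n)
          - (if l = l' then Gs n else 0)‖ < ε) ∧
      ∀ j i l, ‖star (∑ τ, (C j τ i l : A⁺¹) * q j τ n) * (∑ τ, (C j τ i l : A⁺¹) * q j τ n)
        - ∑ τ, star (q j τ n) * ((star (C j τ i l) * C j τ i l : A) : A⁺¹) * q j τ n‖
          < e' * e' :=
    (hEz.eventually_lt hε).and ((eventually_all.2 fun l => eventually_all.2 fun l' =>
      (hSS l l').eventually_lt hε).and (eventually_all.2 fun j => eventually_all.2 fun i =>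
        eventually_all.2 fun l => (hCC j i l).eventually_lt (by positivity)))
  obtain ⟨n, hn1, hn2, hn3⟩ := ev.exists
  set S : Fin K → A := fun l => ∑ j, ∑ τ, ((q j τ n).fst • Y j τ l + Y j τ l * (q j τ n).snd)
    with hS
  have hSU : ∀ l, (S l : A⁺¹) = ∑ j, ∑ τ, (Y j τ l : A⁺¹) * q j τ n := fun l => by
    simp only [hS, inr_sum_eq, ← inr_mul_eq]
  have htop : IsClosedIdeal A (⊤ : Submodule ℂ A) :=
    ⟨isClosed_univ, fun _ _ _ => ⟨trivial, trivial⟩⟩
  choose gi _ hgi using fun (j : Fin (m + 1)) τ => inr_mul_mem_right htop (q j τ n)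
    (z := (star (q j τ n)).fst • Pt τ + (star (q j τ n)).snd * Pt τ) trivial
  have hgiU : ∀ j τ, (gi j τ : A⁺¹) = star (q j τ n) * (Pt τ : A⁺¹) * q j τ n := fun j τ => by
    rw [← hgi j τ]
    congr 1
    conv_rhs => rw [← inl_fst_add_inr_snd_eq (star (q j τ n)), add_mul, inl_mul_inr, ← inr_mul]
    rw [inr_add]
  set G : A := ∑ j, ∑ τ, gi j τ with hG
  have hGU : (G : A⁺¹) = Gs n := by simp only [hG, inr_sum_eq, hgiU, hGs]
  have hG0' : 0 ≤ Gs n := Finset.sum_nonneg fun j _ => Finset.sum_nonneg fun τ _ =>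
    star_left_conjugate_nonneg (inr_nonneg_iff.2 (hPt0 τ)) _
  have hG0 : 0 ≤ G := inr_nonneg_iff.1 (hGU ▸ hG0')
  obtain ⟨e0, -, he0⟩ := inr_mul_mem htop (r * (Q n + Es n)) (z := CFC.sqrt P) trivial
  set E : A := e0 - G with hE
  have hEU : (E : A⁺¹) = r * Q n * r - Gs n + r * Es n * r := by
    rw [hE, inr_sub, hGU, ← he0, ← hr, mul_add, add_mul]; abel
  have hQs : IsSelfAdjoint (Q n + Es n) := by
    have h0 := sub_nonneg.2 (hlowQ n)
    have h1 := h0.isSelfAdjoint.add (IsSelfAdjoint.one (A⁺¹))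
    simpa using h1
  have hEs' : IsSelfAdjoint E := by
    refine (Unitization.isSelfAdjoint_inr (R := ℂ)).1 ?_
    rw [show ((E : A) : A⁺¹) = r * (Q n + Es n) * r - Gs n by rw [hEU]; noncomm_ring]
    refine IsSelfAdjoint.sub ?_ hG0'.isSelfAdjoint
    simp [IsSelfAdjoint, star_mul, hrs, hQs.star_eq, mul_assoc]
  refine ⟨S, G, E, fun z hz l => RMem.sum _ fun j _ => RMem.sum _ fun τ _ => ?_, hG0, ?_, ?_, hEs',
    ?_, fun l l' => ?_, fun i l => ?_⟩
  · have : RMem z (Y j τ l) := by
      simp only [hY]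
      split_ifs
      exacts [RMem.sum _ fun v _ => hz _ _ _, rmem_zero z]
    exact (this.smul _).add (this.mul _)
  · rw [← norm_inr (𝕜 := ℂ), hGU]
    refine (CStarAlgebra.norm_le_iff_le_algebraMap _ (by positivity) hG0').2 ?_
    rw [Algebra.algebraMap_eq_smul_one]
    have hPle : (P : A⁺¹) ≤ (m : ℝ) • (1 : A⁺¹) := by
      rw [← Algebra.algebraMap_eq_smul_one]
      exact (CStarAlgebra.norm_le_iff_le_algebraMap _ (Nat.cast_nonneg m)
        (inr_nonneg_iff.2 hP0)).1 (by rw [norm_inr]; linarith)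
    calc Gs n ≤ ∑ j : Fin (m + 1), (m : ℝ) • (1 : A⁺¹) := Finset.sum_le_sum fun j _ => by
          calc ∑ τ, star (q j τ n) * (Pt τ : A⁺¹) * q j τ n
              ≤ ∑ τ, (m : ℝ) • (star (q j τ n) * q j τ n) := Finset.sum_le_sum fun τ _ => by
                have h1 : (Pt τ : A⁺¹) ≤ (m : ℝ) • (1 : A⁺¹) :=
                  ((inr_le_iff _ _ (hPt0 τ).isSelfAdjoint hP0.isSelfAdjoint).2 (hPtle τ)).trans hPle
                simpa [mul_smul_comm, smul_mul_assoc] using
                  star_left_conjugate_le_conjugate h1 (q j τ n)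
            _ = (m : ℝ) • ∑ τ, star (q j τ n) * q j τ n := (Finset.smul_sum).symm
            _ ≤ (m : ℝ) • (1 : A⁺¹) :=
                smul_le_smul_of_nonneg_left (hq1 j n) (Nat.cast_nonneg m)
      _ = (((m : ℝ) + 1) * m) • (1 : A⁺¹) := by
          rw [Finset.sum_const, Finset.card_univ, Fintype.card_fin, ← Nat.cast_smul_eq_nsmul ℝ,
            smul_smul]
          push_cast
          rfl
  · rw [← norm_inr (𝕜 := ℂ), hEU]; exact hn1.le
  · rw [← inr_le_iff _ _ hP0.isSelfAdjoint (hG0.isSelfAdjoint.add hEs'), inr_add, hGU, hEU, ← hrr]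
    have := (IsSelfAdjoint.conjugate_le_conjugate (hlowQ n) hrs)
    rw [mul_one] at this
    refine this.trans (le_of_eq ?_)
    noncomm_ring
  · rw [← norm_inr (𝕜 := ℂ)]
    refine le_of_eq_of_le ?_ (hn2 l l').le
    congr 1
    rw [inr_sub, inr_mul, inr_star, hSU, hSU]
    congr 1
    · simp only [star_sum, star_mul, Finset.sum_mul, inr_mul, inr_star, mul_assoc]
      refine Finset.sum_congr rfl fun j _ => Finset.sum_congr rfl fun τ _ => ?_
      simp only [Finset.mul_sum]
    · split_ifs <;> simp [hGU]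
  · rw [← norm_inr (𝕜 := ℂ), inr_mul, inr_star, hSU]
    have e : star (W i : A⁺¹) * ∑ j, ∑ τ, (Y j τ l : A⁺¹) * q j τ n
        = ∑ j, ∑ τ, (C j τ i l : A⁺¹) * q j τ n := by
      simp only [Finset.mul_sum, hC, inr_mul, inr_star, mul_assoc]
    rw [e]
    refine (norm_sum_le _ _).trans ((Finset.sum_le_sum (g := fun _ => (m : ℝ) * σ + e')
      fun j _ => ?_).trans (le_of_eq ?_))
    · set Z := ∑ τ, (C j τ i l : A⁺¹) * q j τ n with hZ
      set c : ℝ := m * σ
      have hc : 0 ≤ c := by positivity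
      set M := ∑ τ, star (q j τ n) * ((star (C j τ i l) * C j τ i l : A) : A⁺¹) * q j τ n with hM
      have hM0 : 0 ≤ M := Finset.sum_nonneg fun τ _ =>
        star_left_conjugate_nonneg (inr_nonneg_iff.2 (star_mul_self_nonneg _)) _
      have hMn : ‖M‖ ≤ c * c := by
        refine (CStarAlgebra.norm_le_iff_le_algebraMap _ (by positivity) hM0).2 ?_
        rw [Algebra.algebraMap_eq_smul_one]
        refine le_trans (Finset.sum_le_sum (g := fun τ => (c * c) • (star (q j τ n) * q j τ n))
          fun τ _ => ?_) ?_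
        · have h1 : ((star (C j τ i l) * C j τ i l : A) : A⁺¹) ≤ (c * c) • (1 : A⁺¹) := by
            rw [← Algebra.algebraMap_eq_smul_one]
            refine (CStarAlgebra.norm_le_iff_le_algebraMap _ (by positivity)
              (inr_nonneg_iff.2 (star_mul_self_nonneg _))).1 ?_
            rw [norm_inr, CStarRing.norm_star_mul_self]
            exact mul_le_mul (hCn j τ i l) (hCn j τ i l) (norm_nonneg _) hc
          simpa [mul_smul_comm, smul_mul_assoc] using
            star_left_conjugate_le_conjugate h1 (q j τ n)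
        · rw [← Finset.smul_sum]
          exact smul_le_smul_of_nonneg_left (hq1 j n) (by positivity)
      have h5 : ‖Z‖ * ‖Z‖ ≤ c * c + e' * e' := by
        rw [← CStarRing.norm_star_mul_self]
        have := norm_le_insert' (star Z * Z) M
        have := hn3 j i l
        simp only [← hZ, ← hM] at this
        linarith
      nlinarith [norm_nonneg Z, mul_nonneg hc he'0.le]
    · rw [Finset.sum_const, Finset.card_univ, Fintype.card_fin, nsmul_eq_mul, he']
      push_cast
      field_simp

end Vale.Agent.P133dim
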