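import Vale.Agent.P133dim.Sep
import Vale.Agent.P133dim.Spread

/-!
Global systems of almost orthogonal equal columns in weakly purely infinite algebras whose ideal
covers have refinements of bounded order.
-/

set_option linter.unusedSectionVars false

namespace Vale.Agent.P133dim

open Vale.Agent.P133 Filter Topology

variable {A : Type*} [NonUnitalCStarAlgebra A] [PartialOrder A] [StarOrderedRing A]

/-- `N` almost orthogonal almost equal slots below `y`. -/
def IsSys (y : A) {N : ℕ} (s : Fin N → A) (g : A) (η : ℝ) : Prop :=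
  0 ≤ g ∧ ‖g‖ ≤ 1 ∧ (∀ i, RMem y (s i)) ∧
    ∀ i j, ‖star (s i) * s j - (if i = j then g else 0)‖ ≤ η

/-- The refinement property at level `η0` of `y` with order `m`. -/
def OrdRef (y : A) (η0 : ℝ) (m : ℕ) : Prop :=
  ∀ T : A, 0 ≤ T → T ∈ gen {cut η0 y} →
    ∀ (R : ℕ) (J : Fin R → Submodule ℂ A), (∀ r, IsClosedIdeal A (J r)) →
      (∀ P, IsClosedIdeal A P → (∀ r, J r ≤ P) → T ∈ P) →
      ∀ θ : ℝ, 0 < θ → ∃ (K : ℕ) (I : Fin K → Submodule ℂ A) (r : Fin K → Fin R),
        (∀ k, IsClosedIdeal A (I k) ∧ I k ≤ J (r k)) ∧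
        (∀ S : Finset (Fin K), m < S.card → (⨅ k ∈ S, I k) = ⊥) ∧
        ∀ P, IsClosedIdeal A P → (∀ k, I k ≤ P) → Metric.infDist T (P : Set A) ≤ θ

lemma infDist_le_sqrt_of_le {G : Submodule ℂ A} (hG : IsClosedIdeal A G) {a b : A} (ha : 0 ≤ a)
    (ha1 : ‖a‖ ≤ 1) (hab : a ≤ b) {κ : ℝ} (h : Metric.infDist b (G : Set A) < κ) :
    Metric.infDist a (G : Set A) ≤ √(5 * κ) := by
  refine (infDist_le_of_le hG ha hab h).trans ?_
  have h1 : ‖CFC.sqrt a‖ * ‖CFC.sqrt a‖ ≤ 1 := by
    rw [← CStarRing.norm_star_mul_self, (CFC.sqrt_nonneg a).isSelfAdjoint.star_eq,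
      CFC.sqrt_mul_sqrt_self a ha]
    exact ha1
  exact mul_le_of_le_one_left (Real.sqrt_nonneg _) (by nlinarith [norm_nonneg (CFC.sqrt a)])

lemma norm_sum_sq_le {N : ℕ} {s : Fin N → A} {g : A} (hg : 0 ≤ g) (hg1 : ‖g‖ ≤ 1) {ηs : ℝ}
    (hη1 : ηs ≤ 1) (hηs : (N : ℝ) * N * ηs * 16 ≤ 1)
    (hso : ∀ i j, ‖star (s i) * s j - (if i = j then g else 0)‖ ≤ ηs) :
    ‖∑ i, (s i * star (s i)) * (s i * star (s i))‖ ≤ 4 := by
  have hsn : ∀ i, ‖s i‖ * ‖s i‖ ≤ 2 := fun i => by
    rw [← CStarRing.norm_star_mul_self]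
    have h1 := hso i i
    rw [if_pos rfl] at h1
    have h2 := norm_le_insert' (star (s i) * s i) g
    linarith
  set F : Fin N → A := fun i => s i * star (s i) with hF
  have hFs : ∀ i, star (F i) = F i := fun i => by simp [hF]
  set Z := ∑ i, F i with hZ
  have hZ0 : 0 ≤ Z := Finset.sum_nonneg fun i _ => mul_star_self_nonneg _
  have hZn : ‖Z‖ ≤ 2 := by
    have e : Z * Z = (∑ i, s i * g * star (s i)) + ∑ i, ∑ j,
        s i * (star (s i) * s j - (if i = j then g else 0)) * star (s j) := by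
      simp only [hZ, hF, mul_sub, sub_mul, Finset.sum_sub_distrib, Finset.sum_mul, Finset.mul_sum,
        mul_ite, ite_mul, mul_zero, zero_mul, Finset.sum_ite_eq, Finset.mem_univ, if_true,
        mul_assoc, add_sub_cancel]
      rw [Finset.sum_comm]
    have h1 : ‖∑ i, s i * g * star (s i)‖ ≤ ‖Z‖ := by
      refine CStarAlgebra.norm_le_norm_of_nonneg_of_le
        (Finset.sum_nonneg fun i _ => star_right_conjugate_nonneg hg _)
        (Finset.sum_le_sum fun i _ => ?_)
      refine (CStarAlgebra.star_right_conjugate_le_norm_smul hg.isSelfAdjoint).trans ?_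
      calc ‖g‖ • (s i * star (s i)) ≤ (1 : ℝ) • (s i * star (s i)) :=
            smul_le_smul_of_nonneg_right hg1 (mul_star_self_nonneg _)
        _ = _ := one_smul _ _
    have h2 : ‖∑ i, ∑ j, s i * (star (s i) * s j - (if i = j then g else 0)) * star (s j)‖
        ≤ (N : ℝ) * N * (2 * ηs) := by
      refine (norm_sum_le _ _).trans ((Finset.sum_le_sum fun i _ => (norm_sum_le _ _).trans
        (Finset.sum_le_sum (g := fun _ => 2 * ηs) fun j _ => ?_)).trans ?_)
      · refine (norm_mul₃_le ..).trans ?_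
        rw [norm_star]
        have h3 : ‖s i‖ * ‖s j‖ ≤ 2 := by nlinarith [hsn i, hsn j, sq_nonneg (‖s i‖ - ‖s j‖)]
        have h5 : 0 ≤ ηs := (norm_nonneg _).trans (hso i j)
        calc _ ≤ ‖s i‖ * ηs * ‖s j‖ := by gcongr; exact hso i j
          _ = ‖s i‖ * ‖s j‖ * ηs := by ring
          _ ≤ 2 * ηs := by gcongr
      · simp [mul_assoc]
    have h3 : ‖Z‖ * ‖Z‖ ≤ ‖Z‖ + 1 := by
      have h4 := CStarRing.norm_star_mul_self (x := Z)
      rw [hZ0.isSelfAdjoint.star_eq, e] at h4
      rw [← h4]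
      refine (norm_add_le _ _).trans ?_
      nlinarith
    nlinarith [norm_nonneg Z]
  have h1 : ∑ i, F i * F i ≤ (2 : ℝ) • Z := by
    rw [hZ, Finset.smul_sum]
    refine Finset.sum_le_sum fun i _ => ?_
    have := CStarAlgebra.star_right_conjugate_le_norm_smul (a := s i)
      (IsSelfAdjoint.star_mul_self (s i))
    rw [CStarRing.norm_star_mul_self] at this
    calc F i * F i = s i * (star (s i) * s i) * star (s i) := by simp only [hF, mul_assoc]
      _ ≤ (‖s i‖ * ‖s i‖) • (s i * star (s i)) := this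
      _ ≤ (2 : ℝ) • F i := smul_le_smul_of_nonneg_right (hsn i) (mul_star_self_nonneg _)
  refine (CStarAlgebra.norm_le_norm_of_nonneg_of_le (Finset.sum_nonneg fun i _ => by
    simpa [hFs i] using star_mul_self_nonneg (F i)) h1).trans ?_
  rw [norm_smul, Real.norm_of_nonneg (by norm_num : (0:ℝ) ≤ 2)]
  linarith

/-- Elements below given ones outside a prime ideal, with equal squares outside it. -/
lemma equalise {P : Submodule ℂ A} (hP : IsPrimeIdeal P) {h : A} (hh0 : 0 ≤ h) (hhP : h ∉ P)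
    {ι : Type*} (s : Finset ι) (d : ι → A) (hd : ∀ i ∈ s, IsSelfAdjoint (d i) ∧ d i ∉ P) :
    ∃ (z : ι → A) (v : A), 0 ≤ v ∧ v ∉ P ∧ v ∈ gen {h} ∧
      (∀ i ∈ s, RMem (d i) (z i)) ∧ ∀ i ∈ s, star (z i) * z i = v := by
  classical
  induction s using Finset.induction with
  | empty => exact ⟨fun _ => 0, h, hh0, hhP, subset_gen rfl, by simp, by simp⟩
  | insert l s hl ih =>
    obtain ⟨z, v, hv0, hvP, hvh, hz, hzv⟩ := ih fun i hi => hd i (by simp [hi])
    obtain ⟨hls, hlP⟩ := hd l (by simp)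
    obtain ⟨e, he⟩ := exists_prime_witness hP hvP hlP
    obtain ⟨e', he'⟩ := exists_prime_witness hP hlP he
    set m := e * d l with hm
    set v' := star m * v * m with hv'
    have hv'0 : 0 ≤ v' := star_left_conjugate_nonneg hv0 m
    have hv'P : v' ∉ P := by
      intro h'
      have hs : star (CFC.sqrt v * m) * (CFC.sqrt v * m) = v' := by
        rw [star_mul, (CFC.sqrt_nonneg v).isSelfAdjoint.star_eq, hv',
          show star m * CFC.sqrt v * (CFC.sqrt v * m) = star m * (CFC.sqrt v * CFC.sqrt v) * m by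
            simp only [mul_assoc], CFC.sqrt_mul_sqrt_self v hv0]
      have h1 := (hP.1.2 (CFC.sqrt v) _ (hP.1.mem_of_star_mul_le (hs ▸ h') le_rfl)).1
      rw [← mul_assoc, CFC.sqrt_mul_sqrt_self v hv0, hm, ← mul_assoc] at h1
      exact he h1
    clear_value v'
    set w := cfcₙ Real.sqrt v' with hw
    have hwd : RMem (d l) w := by
      refine RMem.trans (p := v') ?_ (rmem_cfcₙ _ _)
      have : v' = d l * (star e * (v * m)) := by
        simp [hv', hm, star_mul, hls.star_eq, mul_assoc]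
      rw [this]
      exact rmem_mul _ _
    have hww : star w * w = v' := by
      have hvs : IsSelfAdjoint v' := hv'0.isSelfAdjoint
      have hws : star w = w := hw ▸ (IsSelfAdjoint.cfcₙ).star_eq
      rw [hws, hw, ← cfcₙ_mul Real.sqrt Real.sqrt v' Real.continuous_sqrt.continuousOn Real.sqrt_zero
        Real.continuous_sqrt.continuousOn Real.sqrt_zero]
      nth_rw 2 [← cfcₙ_id' ℝ v' hvs]
      refine cfcₙ_congr fun t ht => ?_
      exact Real.mul_self_sqrt (quasispectrum_nonneg_of_nonneg v' hv'0 t ht)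
    refine ⟨fun i => if i = l then w else z i * m, v', hv'0, hv'P, ?_, fun i hi => ?_,
      fun i hi => ?_⟩
    · rw [hv']
      exact ((isClosedIdeal_gen _).2 m _ ((isClosedIdeal_gen _).2 (star m) v hvh).1).2
    · by_cases h' : i = l
      · subst h'; simpa using hwd
      · simpa [h'] using (hz i ((Finset.mem_insert.1 hi).resolve_left h')).mul m
    · by_cases h' : i = l
      · subst h'; simpa using hww
      · simp only [if_neg h', hv', ← hzv i ((Finset.mem_insert.1 hi).resolve_left h')]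
        simp [star_mul, mul_assoc]

set_option maxHeartbeats 1000000 in
/-- Adjoining one exact system to an almost orthogonal one. -/
lemma merge (hW : WeaklyPurelyInfinite A) {m : ℕ} {y : A} {η0 : ℝ} (href : OrdRef y η0 m)
    (K : ℕ) {η : ℝ} (hη : 0 < η) :
    ∃ (M : ℕ) (η1 : ℝ), 0 < η1 ∧ ∀ (s : Fin M → A) (g : A), IsSys y s g η1 →
      ∀ (t : Fin (m + 1) × Fin m → A) (h : A), 0 ≤ h → h ∈ gen {cut η0 y} →
        (∀ b, RMem y (t b)) → (∀ a b, star (t a) * t b = if a = b then h else 0) →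
        ∃ (s' : Fin K → A) (g' : A), IsSys y s' g' η ∧
          ∀ G, IsClosedIdeal A G → cut (1 / 40) g' ∈ G →
            cut (1 / 40) g ∈ G ∧ cut (1 / 40) h ∈ G := by
  classical
  set c : ℝ := (1 / 8 : ℝ) ^ m with hc
  have hc0 : 0 < c := by positivity
  have hc1 : c ≤ 1 := pow_le_one₀ (by norm_num) (by norm_num)
  set u : ℝ := (1 / 40 * c) ^ 2 / 10 with hu
  have hu0 : 0 < u := by positivity
  have hu1 : u ≤ 1 / 16000 := by
    rw [hu, mul_pow]
    nlinarith [pow_le_one₀ (n := 2) hc0.le hc1]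
  set B : ℝ := ((m : ℝ) + 1) * m + 1 with hB
  have hBp : 1 ≤ B := by rw [hB]; nlinarith [Nat.cast_nonneg (α := ℝ) m]
  set κ1 : ℝ := (u / 4) ^ 2 / (5 * (B * B)) with hκ1
  have hκ1p : 0 < κ1 := by positivity
  have hκ1s : B * √(5 * κ1) = u / 4 := by
    rw [show 5 * κ1 = (u / 4 / B) ^ 2 by rw [hκ1]; field_simp,
      Real.sqrt_sq (by positivity)]
    field_simp
  set κ0 : ℝ := κ1 / 2 with hκ0
  have hκ0p : 0 < κ0 := by positivity
  set σ : ℝ := η * κ0 / (200 * B) with hσd
  have hσ : 0 < σ := by positivity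
  set εs : ℝ := min (u / 4) (η * κ0 / 20) with hεs
  have hεs0 : 0 < εs := lt_min (by positivity) (by positivity)
  obtain ⟨Rb, hRb⟩ := exists_nat_gt (4 / σ ^ 4)
  set β := (m + 1) * m with hβ
  set N := m * (β * Rb) + 1 with hNd
  set M := N * K with hMd
  set η1 : ℝ := min (1 / (16 * ((M : ℝ) * M) + 16)) (η * κ0 / (2 * ((N : ℝ) * N + 1))) with hη1
  have hη10 : 0 < η1 := lt_min (by positivity) (by positivity)
  refine ⟨M, η1, hη10, fun s g hs t h hh0 hhy htm hto => ?_⟩
  obtain ⟨hg, hg1, hsm, hso⟩ := hs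
  have hη1a : η1 ≤ 1 := (min_le_left _ _).trans (by
    rw [div_le_one (by positivity)]; nlinarith [Nat.cast_nonneg (α := ℝ) M])
  have hη1b : (M : ℝ) * M * η1 * 16 ≤ 1 := by
    have h1 := mul_le_mul_of_nonneg_left (min_le_left (1 / (16 * ((M : ℝ) * M) + 16))
      (η * κ0 / (2 * ((N : ℝ) * N + 1)))) (show (0:ℝ) ≤ M * M * 16 by positivity)
    have h2 : (M : ℝ) * M * 16 * (1 / (16 * ((M : ℝ) * M) + 16)) ≤ 1 := by
      rw [mul_one_div, div_le_one (by positivity)]; linarith
    rw [← hη1] at h1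
    linarith
  set F : Fin M → A := fun i => s i * star (s i) with hF
  have hFs : ∀ i, star (F i) = F i := fun i => by simp [hF]
  have hFb : ‖∑ i, F i * F i‖ ≤ 4 := norm_sum_sq_le hg hg1 hη1a hη1b hso
  -- local data
  let Good : ((Fin (m + 1) × Fin m) × Fin (K + 1) → A) × A × Finset (Fin M) → Prop := fun z =>
    0 ≤ z.2.1 ∧ z.2.2.card ≤ β * Rb ∧ (∀ b l, RMem (t b) (z.1 (b, l))) ∧
      (∀ b l l', l ≠ l' → star (z.1 (b, l)) * z.1 (b, l') = 0) ∧
      (∀ b l, star (z.1 (b, l)) * z.1 (b, l) = z.2.1) ∧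
      ∀ i ∉ z.2.2, ∀ b l w, ‖F i * (z.1 (b, l) * w)‖ ≤ √(σ ^ 4) * ‖z.1 (b, l) * w‖
  have hlocal : ∀ P, IsPrimeIdeal P → (1 / 1000 : ℝ) < Metric.infDist h (P : Set A) →
      ∃ z, Good z ∧ ¬ gen {z.2.1} ≤ P := by
    intro P hP hd
    have hhP : h ∉ P := fun h' => by
      rw [Metric.infDist_zero_of_mem (s := (P : Set A)) h'] at hd; linarith
    have hdb : ∀ b, t b * star (t b) ∉ P := fun b h' => hhP (by
      have h1 := hP.1.star_mem (hP.1.mem_of_star_mul_le (a := star (t b)) h' (by rw [star_star]))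
      rw [star_star] at h1
      have h2 := (hP.1.2 (star (t b)) _ h1).1
      rwa [hto, if_pos rfl] at h2)
    choose a Bd' ha1 ha2 ha3 ha4 using fun b =>
      exists_witness hP (mul_star_self_nonneg (t b)) (hdb b) F hFs hFb
        (c := σ ^ 4) (by positivity) (R := Rb)
        (by rw [div_lt_iff₀ (by positivity)] at hRb; nlinarith [pow_pos hσ 4])
    have haa : ∀ b, a b * star (a b) ∉ P := fun b h' => ha2 b (by
      have := hP.1.star_mem (hP.1.mem_of_star_mul_le (a := star (a b)) h' (by rw [star_star]))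
      rwa [star_star] at this)
    choose d hd' hdo using fun b =>
      exists_orth_family hW hP (mul_star_self_nonneg (a b)) (haa b) K
    obtain ⟨z, v, hv0, hvP, -, hz, hzv⟩ := equalise hP hh0 hhP Finset.univ
      (fun p : (Fin (m + 1) × Fin m) × Fin (K + 1) => d p.1 p.2)
      (fun p _ => ⟨(hd' p.1 p.2).1.isSelfAdjoint, (hd' p.1 p.2).2.2⟩)
    have hza : ∀ b l, RMem (a b) (z (b, l)) := fun b l =>
      (((rmem_mul _ _).trans (hd' b l).2.1)).trans (hz (b, l) (Finset.mem_univ _))
    refine ⟨(z, v, Finset.univ.biUnion Bd'), ⟨hv0, ?_, fun b l =>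
      (((rmem_mul _ _).trans (ha1 b))).trans (hza b l), fun b l l' hll =>
        RMem.star_mul_eq_zero_self (hd' b l).1.isSelfAdjoint.star_eq (hdo b l l' hll)
          (hz (b, l) (Finset.mem_univ _)) (hz (b, l') (Finset.mem_univ _)),
      fun b l => hzv (b, l) (Finset.mem_univ _), fun i hi b l w => ha4 b i
        (fun h' => hi (Finset.mem_biUnion.2 ⟨b, Finset.mem_univ _, h'⟩)) _ ((hza b l).mul w)⟩,
      fun h' => hvP (h' (subset_gen rfl))⟩
    refine Finset.card_biUnion_le.trans ((Finset.sum_le_card_nsmul _ _ Rb fun b _ => ha3 b).trans ?_)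
    simp [hβ]
  obtain ⟨V, I, z, hI, hord, hcover⟩ := exists_refinement' hh0 (η := 1 / 1000) (by norm_num)
    (Φ := fun K I => ∀ S : Finset (Fin K), m < S.card → (⨅ k ∈ S, I k) = ⊥)
    (fun R J hJ hJc θ hθ => href _ (cut_nonneg _ _)
      ((rmem_cut _ h).mem (isClosedIdeal_gen _) hhy) R J hJ hJc θ hθ)
    (fun z : ((Fin (m + 1) × Fin m) × Fin (K + 1) → A) × A × Finset (Fin M) => gen {z.2.1}) Good
    (fun z _ => isClosedIdeal_gen _) hlocal
  have hcl : ∀ v, IsClosedIdeal A (I v) := fun v => (hI v).1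
  obtain ⟨cc, hcc, hcd⟩ := exists_cutoff I hcl (fun v => (z v).2.1) hh0
    (show (0:ℝ) < 4 * (1 / 1000) by norm_num) (fun P hP hd => by
      by_contra hcon
      push Not at hcon
      refine absurd (hcover P hP.1 fun k => ?_) (not_le.2 hd)
      by_contra hk
      exact hk ((hI k).2.1.trans (gen_le hP.1 (by simpa using hcon k hk))))
  have hnn : ∀ v, 0 ≤ cc v * (z v).2.1 * cc v := fun v => by
    have := star_left_conjugate_nonneg (hI v).2.2.1 (cc v)
    rwa [(hcc v).2] at this
  obtain ⟨μ, hμ, hlevel⟩ := exists_level (fun v => cc v * (z v).2.1 * cc v) hnn (T := h)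
    (η := 1 / 40) (hcd.trans_lt (by norm_num))
  choose kk hkks hkk1 hkk0 hkkn hkk2 hkk3 hkk4 using fun v => exists_normalizer (hnn v) hμ
  set p : Fin V → A := fun v => kk v * (cc v * (z v).2.1 * cc v) * kk v with hp
  have hpI : ∀ v, p v ∈ I v := fun v =>
    ((hcl v).2 _ _ ((hcl v).2 _ _ ((hcl v).2 _ _ (hcc v).1).1).1).2
  set X : Fin V → Fin (m + 1) × Fin m → Fin K → A :=
    fun v b l => (z v).1 (b, l.castSucc) * (cc v * kk v) with hX
  have hXI : ∀ v b l, X v b l ∈ I v := fun v b l =>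
    ((hcl v).2 _ _ ((hcl v).2 _ _ (hcc v).1).2).1
  have hXo : ∀ v v' b b' l l', b ≠ b' → star (X v b l) * X v' b' l' = 0 :=
    fun v v' b b' l l' hb => RMem.star_mul_eq_zero (by rw [hto, if_neg hb])
      (((hI v).2.2.2.2.1 b _).mul _) (((hI v').2.2.2.2.1 b' _).mul _)
  have hXX : ∀ v b l l', star (X v b l) * X v b l' = if l = l' then p v else 0 := by
    intro v b l l'
    obtain ⟨-, -, -, ho, he, -⟩ := (hI v).2.2
    have e : star (X v b l) * X v b l' = kk v * (cc v *
        (star ((z v).1 (b, l.castSucc)) * (z v).1 (b, l'.castSucc)) * cc v) * kk v := by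
      simp [hX, star_mul, hkks v, (hcc v).2, mul_assoc]
    rw [e]
    by_cases hll : l = l'
    · subst hll
      rw [if_pos rfl, he b l.castSucc]
    · rw [if_neg hll, ho b _ _ (fun h' => hll (Fin.castSucc_injective _ h'))]
      simp
  have hX1 : ∀ v b l, ‖X v b l‖ ≤ 1 := fun v b l => by
    have h1 := hkkn v
    rw [show kk v * (cc v * (z v).2.1 * cc v) * kk v = star (X v b l) * X v b l by
      rw [hXX, if_pos rfl], CStarRing.norm_star_mul_self] at h1
    nlinarith [norm_nonneg (X v b l)]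
  set e : Fin N × Fin K ≃ Fin M := finProdFinEquiv with he
  set Bad : Fin V → Finset (Fin N) := fun v => (z v).2.2.image fun i => (e.symm i).1 with hBad
  set eβ : (Fin (m + 1) × Fin m) × Fin K ≃ Fin (β * K) :=
    (finProdFinEquiv.prodCongr (Equiv.refl _)).trans finProdFinEquiv with heβ
  obtain ⟨w, g1, E, hw, hg10, hg11, hE, hEs, hlow, hww, hcross⟩ := exists_glue I hcl hord
    (fun v L => X v (eβ.symm L).1 (eβ.symm L).2) (fun v L => hXI v _ _)
    (fun i j => s (e (i, j))) hg hg1 (η := η1)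
    (fun i i' j j' => by simpa [e.injective.eq_iff] using hso (e (i, j)) (e (i', j')))
    Bad (fun v => Finset.card_image_le.trans (hI v).2.2.2.1) (Rb := β * Rb) (by omega)
    (σ0 := σ) hσ.le
    (fun v i hi j L => by
      have hnot : e (i, j) ∉ (z v).2.2 := fun h' => hi (by
        simp only [hBad, Finset.mem_image]
        exact ⟨e (i, j), h', by simp⟩)
      obtain ⟨⟨b, l⟩, rfl⟩ := eβ.surjective L
      simp only [Equiv.symm_apply_apply]
      have h1 := (hI v).2.2.2.2.2.2.2 _ hnot b l.castSucc (cc v * kk v)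
      rw [show √(σ ^ 4) = σ ^ 2 by
        rw [show σ ^ 4 = (σ ^ 2) ^ 2 by ring, Real.sqrt_sq (by positivity)]] at h1
      have h2 : ‖star (s (e (i, j))) * X v b l‖ ^ 2 ≤ σ ^ 2 := by
        rw [sq, ← CStarRing.norm_star_mul_self]
        calc ‖star (star (s (e (i, j))) * X v b l) * (star (s (e (i, j))) * X v b l)‖
            = ‖star (X v b l) * (F (e (i, j)) * X v b l)‖ := by
              simp only [hF, star_mul, star_star, mul_assoc]
          _ ≤ ‖star (X v b l)‖ * ‖F (e (i, j)) * X v b l‖ := norm_mul_le _ _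
          _ ≤ 1 * (σ ^ 2 * 1) := by
              rw [norm_star]
              gcongr
              · exact hX1 v b l
              · exact h1.trans (by gcongr; exact hX1 v b l)
          _ = σ ^ 2 := by ring
      exact (pow_le_pow_iff_left₀ (norm_nonneg _) hσ.le two_ne_zero).1 h2)
    (ε := min σ (u / 4)) (lt_min hσ (by positivity))
  have hW5 : ∀ j v b l, ‖star (w j) * X v b l‖ ≤ 5 * σ := fun j v b l => by
    have h1 := (hcross v j (eβ (b, l))).trans (add_le_add le_rfl (min_le_left σ _))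
    simp only [Equiv.symm_apply_apply] at h1
    linarith
  obtain ⟨S, Gs, Es, hSm, hGs0, hGsn, hEsn, hEss, hPle, hSS, hWS⟩ := exists_spread I hcl hord p
    (fun v => ⟨hpI v, hkk0 v⟩) hkkn X hXo hXX w (show 0 ≤ 5 * σ by positivity) hW5 hεs0
  set Gt : A := g1 + Gs with hGt
  have hGt0 : 0 ≤ Gt := add_nonneg hg10 hGs0
  obtain ⟨k, hks, hk1, hk0, hkn, -, -, hk4⟩ := exists_normalizer hGt0 hκ0p
  have hwy : ∀ j, RMem y (w j) := hw y fun i j => hsm _
  have hSy : ∀ l, RMem y (S l) := hSm y fun v b l =>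
    ((htm b).trans ((hI v).2.2.2.2.1 b _)).mul _
  have hb2 : ((m : ℝ) + 1) * (m * (5 * σ)) + εs ≤ η * κ0 / 10 := by
    have h1 : ((m : ℝ) + 1) * m * (5 * σ) ≤ B * (5 * σ) := by gcongr; rw [hB]; linarith
    have h2 : B * (5 * σ) = η * κ0 / 40 := by rw [hσd]; field_simp; ring
    have h3 : εs ≤ η * κ0 / 20 := min_le_right _ _
    nlinarith [mul_pos hη hκ0p]
  have herr : ∀ j l, ‖star (w j + S j) * (w l + S l) - (if j = l then Gt else 0)‖ ≤ η * κ0 := by
    intro j l
    have e1 : star (w j + S j) * (w l + S l) - (if j = l then Gt else 0)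
        = (star (w j) * w l - (if j = l then g1 else 0))
          + (star (S j) * S l - (if j = l then Gs else 0))
          + (star (w j) * S l + star (star (w l) * S j)) := by
      simp only [star_add, add_mul, mul_add, star_mul, star_star, hGt]
      split_ifs <;> abel
    rw [e1]
    refine (norm_add₃_le).trans ?_
    have h5 : ‖star (w j) * S l + star (star (w l) * S j)‖ ≤ η * κ0 / 10 + η * κ0 / 10 :=
      (norm_add_le _ _).trans (add_le_add ((hWS j l).trans hb2)
        (by rw [norm_star]; exact (hWS l j).trans hb2))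
    have b1 : (N : ℝ) * N * η1 ≤ η * κ0 / 2 := by
      have h1 := mul_le_mul_of_nonneg_left (min_le_right (1 / (16 * ((M : ℝ) * M) + 16))
        (η * κ0 / (2 * ((N : ℝ) * N + 1)))) (show (0:ℝ) ≤ N * N by positivity)
      rw [← hη1] at h1
      refine h1.trans ?_
      rw [mul_div_assoc', div_le_div_iff₀ (by positivity) two_pos]
      nlinarith [mul_pos hη hκ0p]
    have h6 : εs ≤ η * κ0 / 20 := min_le_right _ _
    linarith [hww j l, hSS j l, mul_pos hη hκ0p]
  refine ⟨fun j => (w j + S j) * k, k * Gt * k,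
    ⟨hk0, hkn, fun j => ((hwy j).add (hSy j)).mul k, fun j l => ?_⟩, fun G hG hmem => ?_⟩
  · have e2 : star ((w j + S j) * k) * ((w l + S l) * k) - (if j = l then k * Gt * k else 0)
        = k * (star (w j + S j) * (w l + S l) - (if j = l then Gt else 0)) * k := by
      by_cases hjl : j = l <;> simp [hjl, star_mul, hks, mul_sub, sub_mul, mul_assoc]
    rw [e2]
    refine (norm_mul₃_le ..).trans ?_
    calc _ ≤ 1 / √κ0 * (η * κ0) * (1 / √κ0) := by
          gcongr
          exact herr j l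
      _ = η := by field_simp; rw [Real.sq_sqrt hκ0p.le]
  · have h3 : cut κ0 Gt ∈ G := hk4 G hG
      ((infDist_le_of_cut_mem (by norm_num) hk0 hmem).trans_lt (by norm_num))
    have h4 : Metric.infDist Gt (G : Set A) < κ1 :=
      (infDist_le_of_cut_mem hκ0p.le hGt0 h3).trans_lt (by rw [hκ0]; linarith)
    have hsub : ∀ a : A, 0 ≤ a → a ≤ Gt → ‖a‖ ≤ B → Metric.infDist a (G : Set A) ≤ u / 4 := by
      intro a ha hle hn
      refine (infDist_le_of_le hG ha hle h4).trans ?_
      rw [← hκ1s]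
      refine mul_le_mul_of_nonneg_right ?_ (Real.sqrt_nonneg _)
      have h1 : ‖CFC.sqrt a‖ * ‖CFC.sqrt a‖ = ‖a‖ := by
        rw [← CStarRing.norm_star_mul_self, (CFC.sqrt_nonneg a).isSelfAdjoint.star_eq,
          CFC.sqrt_mul_sqrt_self a ha]
      nlinarith [norm_nonneg (CFC.sqrt a)]
    have hplus : ∀ a b : A, ‖b‖ ≤ u / 4 → Metric.infDist a (G : Set A) ≤ u / 4 →
        Metric.infDist (a + b) (G : Set A) < u := fun a b hb ha => by
      have h7 := Metric.infDist_le_infDist_add_dist (s := (G : Set A)) (x := a + b) (y := a)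
      rw [dist_eq_norm, add_sub_cancel_left] at h7
      linarith
    constructor
    · have h6 : Metric.infDist (g1 + E) (G : Set A) < u :=
        hplus g1 E (hE.trans (min_le_right σ (u / 4)))
          (hsub g1 hg10 (le_add_of_nonneg_right hGs0) (hg11.trans hBp))
      have h9 : Metric.infDist (((c : ℝ) : ℂ) • g) (G : Set A) ≤ √(5 * u) := by
        rw [Complex.coe_smul]
        refine infDist_le_sqrt_of_le hG (smul_nonneg hc0.le hg) ?_ hlow h6
        rw [norm_smul, Real.norm_of_nonneg hc0.le]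
        exact mul_le_one₀ hc1 (norm_nonneg _) hg1
      have hne : ((c : ℝ) : ℂ) ≠ 0 := by exact_mod_cast hc0.ne'
      refine hG.cut_mem hg ?_
      have h10 := infDist_smul_le (P := G) (((c : ℝ) : ℂ))⁻¹ (((c : ℝ) : ℂ) • g)
      rw [inv_smul_smul₀ hne, norm_inv, Complex.norm_real, Real.norm_of_nonneg hc0.le] at h10
      refine h10.trans_lt ?_
      rw [← div_eq_inv_mul, div_lt_iff₀ hc0]
      refine h9.trans_lt ?_
      rw [Real.sqrt_lt' (by positivity), hu]
      nlinarith [mul_pos hc0 hc0]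
    · have h6 : Metric.infDist (Gs + Es) (G : Set A) < u :=
        hplus Gs Es (hEsn.trans (min_le_left _ _))
          (hsub Gs hGs0 (le_add_of_nonneg_left hg10) (hGsn.trans (by rw [hB]; linarith)))
      refine hG.cut_mem hh0 (hlevel G hG fun v => hkk4 v G hG ?_)
      refine lt_of_le_of_lt (infDist_le_sqrt_of_le hG (hkk0 v) (hkkn v)
        ((Finset.single_le_sum (f := p) (fun v _ => hkk0 v) (Finset.mem_univ v)).trans hPle) h6) ?_
      rw [Real.sqrt_lt' (by norm_num)]
      linarith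

/-- Weakly purely infinite algebras with covers of finite order have global systems. -/
theorem sys_of_order (hO : FiniteOrder A) (hW : WeaklyPurelyInfinite A) : SysHyp A := by
  classical
  intro y hy θ hθ
  obtain ⟨m, hm⟩ := hO y hy (θ / 2) (half_pos hθ)
  have href : OrdRef y (θ / 2) m := hm
  set y' := cut (θ / 2) y with hy'
  have hy'0 : 0 ≤ y' := cut_nonneg _ _
  set n := (m + 1) * m with hn
  let Good : (Fin (n + 1) → A) → Prop := fun z =>
    (∀ i, RMem y' (z i)) ∧ (∀ i j, i ≠ j → star (z i) * z j = 0) ∧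
      (∀ i, star (z i) * z i = star (z 0) * z 0)
  obtain ⟨V, I, z, hI, -, hcov⟩ := exists_refinement' hy'0 (η := θ / 64) (by positivity)
    (Φ := fun _ _ => True)
    (fun R J hJ hJc θ' hθ' => ⟨R, J, id, fun r => ⟨hJ r, le_rfl⟩, trivial, fun P hP hle => by
      rw [Metric.infDist_zero_of_mem (hJc P hP hle)]; exact hθ'.le⟩)
    (fun z : Fin (n + 1) → A => gen {star (z 0) * z 0}) Good (fun z _ => isClosedIdeal_gen _)
    (fun P hP hd => by
      have hyP : y' ∉ P := fun h => by
        rw [Metric.infDist_zero_of_mem (s := (P : Set A)) h] at hd; linarith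
      obtain ⟨z, h1, h2, h3, h4⟩ := local_family hW n hP hyP
      exact ⟨z, ⟨h1, h2, h3⟩, fun h => h4 (hP.1.mem_of_star_mul_le (h (subset_gen rfl)) le_rfl)⟩)
  set q : Fin V → A := fun v => star (z v 0) * z v 0 with hq
  have hcq : Metric.infDist y' (gen (Set.range q) : Set A) ≤ 4 * (θ / 64) :=
    hcov _ (isClosedIdeal_gen _) fun v => (hI v).2.1.trans (gen_le (isClosedIdeal_gen _) (by
      simpa [hq] using subset_gen (S := Set.range q) ⟨v, rfl⟩))
  obtain ⟨μ, hμ, hlevel⟩ := exists_level q (fun v => star_mul_self_nonneg _) (T := y')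
    (η := θ / 2) (hcq.trans_lt (by linarith))
  choose kk hkks hkk1 hkk0 hkkn hkk2 hkk3 hkk4 using fun v =>
    exists_normalizer (star_mul_self_nonneg (z v 0)) hμ
  obtain ⟨eb⟩ : Nonempty (Fin (m + 1) × Fin m ↪ Fin (n + 1)) :=
    Function.Embedding.nonempty_of_card_le (by simp [hn])
  set H : Fin V → A := fun v => kk v * q v * kk v with hH
  set T : Fin V → Fin (m + 1) × Fin m → A := fun v b => z v (eb b) * kk v with hT
  have hTT : ∀ v a b, star (T v a) * T v b = if a = b then H v else 0 := by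
    intro v a b
    have e : star (T v a) * T v b = kk v * (star (z v (eb a)) * z v (eb b)) * kk v := by
      simp [hT, star_mul, hkks v, mul_assoc]
    rw [e]
    by_cases hab : a = b
    · subst hab
      rw [if_pos rfl, (hI v).2.2.2.2 (eb a)]
    · rw [if_neg hab, (hI v).2.2.2.1 _ _ (fun h => hab (eb.injective h))]
      simp
  have hTy : ∀ v b, RMem y (T v b) := fun v b =>
    ((rmem_cut _ y).trans ((hI v).2.2.1 _)).mul _
  have hHy : ∀ v, H v ∈ gen {y'} := fun v => by
    have hz : z v 0 ∈ gen {y'} := ((hI v).2.2.1 0).mem (isClosedIdeal_gen _) (subset_gen rfl)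
    exact ((isClosedIdeal_gen _).2 _ _ ((isClosedIdeal_gen _).2 _ _
      ((isClosedIdeal_gen _).2 _ _ hz).1).1).2
  have step : ∀ c : ℕ, ∀ (K : ℕ) (η : ℝ), 0 < η → ∃ (s : Fin K → A) (g : A), IsSys y s g η ∧
      ∀ G, IsClosedIdeal A G → cut (1 / 40) g ∈ G →
        ∀ v : Fin V, (v : ℕ) < c → cut (1 / 40) (H v) ∈ G := by
    intro c
    induction c with
    | zero =>
      intro K η hη
      refine ⟨fun _ => 0, 0, ⟨le_rfl, by simp, fun _ => rmem_zero y, fun i j => ?_⟩,
        fun G _ _ b hb => absurd hb (Nat.not_lt_zero _)⟩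
      simp [hη.le]
    | succ c ih =>
      intro K η hη
      by_cases hc : c < V
      · obtain ⟨M, η1, hη1, hmerge⟩ := merge hW href K hη
        obtain ⟨s, g, hs, hcg⟩ := ih M η1 hη1
        obtain ⟨s', g', hs', hG'⟩ := hmerge s g hs (T ⟨c, hc⟩) (H ⟨c, hc⟩) (hkk0 _) (hHy _)
          (hTy _) (hTT _)
        refine ⟨s', g', hs', fun G hG hmem b hb => ?_⟩
        obtain ⟨h1, h2⟩ := hG' G hG hmem
        rcases Nat.lt_succ_iff_lt_or_eq.1 hb with hb' | hb'
        · exact hcg G hG h1 b hb'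
        · obtain rfl : b = ⟨c, hc⟩ := Fin.ext hb'
          exact h2
      · obtain ⟨s, g, hs, hcg⟩ := ih K η hη
        exact ⟨s, g, hs, fun G hG hmem b _ => hcg G hG hmem b (by omega)⟩
  refine ⟨1 / 40, by norm_num, fun N η hη => ?_⟩
  obtain ⟨s, g, hs, hcg⟩ := step V N η hη
  refine ⟨s, g, hs.1, hs.2.1, hs.2.2.1, hs.2.2.2, ?_⟩
  set G := gen {cut (1 / 40) g}
  have hG : IsClosedIdeal A G := isClosedIdeal_gen _
  have h1 : Metric.infDist y' (G : Set A) < θ / 2 := hlevel G hG fun v => hkk4 v G hG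
    ((infDist_le_of_cut_mem (by norm_num) (hkk0 v) (hcg G hG (subset_gen rfl) v v.2)).trans_lt
      (by norm_num))
  have h3 := Metric.infDist_le_infDist_add_dist (s := (G : Set A)) (x := y) (y := y')
  have h4 : dist y y' ≤ θ / 2 := by
    rw [dist_eq_norm]; exact norm_sub_cut_le (by positivity) hy
  linarith

/-- Weakly purely infinite algebras with covers of finite order are strongly purely infinite. -/
theorem spi_of_wpi_order (hO : FiniteOrder A) (hW : WeaklyPurelyInfinite A) :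
    StronglyPurelyInfinite A := by
  obtain ⟨n, -, hn⟩ := exists_multiplicity hW
  exact spi_of hO (sys_of_order hO hW) (n := n) hn

end Vale.Agent.P133dim
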