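import Vale.Agent.P133.Combine
import Vale.Agent.P133dim.Dim

/-!
Small tools: distances to ideals, normalisation, witnesses, refinements.
-/

set_option linter.unusedSectionVars false

namespace Vale.Agent.P133dim

open Vale.Agent.P133

variable {A : Type*} [NonUnitalCStarAlgebra A] [PartialOrder A] [StarOrderedRing A]

lemma infDist_star_le {G : Submodule ℂ A} (hG : IsClosedIdeal A G) (a : A) :
    Metric.infDist (star a) (G : Set A) ≤ Metric.infDist a (G : Set A) := by
  refine le_of_forall_pos_le_add fun ε hε => ?_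
  obtain ⟨p, hp, hd⟩ := (Metric.infDist_lt_iff ⟨0, G.zero_mem⟩).1
    (lt_add_of_pos_right (Metric.infDist a (G : Set A)) hε)
  refine (Metric.infDist_le_dist_of_mem (hG.star_mem hp)).trans ?_
  rw [dist_eq_norm, ← star_sub, norm_star, ← dist_eq_norm]
  exact hd.le

lemma infDist_star_mul_le {G : Submodule ℂ A} (hG : IsClosedIdeal A G) {a T : A}
    (ha : a * star a ≤ T) {κ : ℝ} (h : Metric.infDist T (G : Set A) < κ) :
    Metric.infDist (star a * a) (G : Set A) ≤ ‖a‖ * √(5 * κ) := by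
  have h1 := hG.infDist_le_sqrt (a := star a) (by rw [star_star]; exact ha) h
  have h2 := (infDist_star_le hG (star a * a)).trans' (le_of_eq (by rw [star_mul, star_star]))
  calc Metric.infDist (star a * a) (G : Set A) ≤ ‖star a‖ * Metric.infDist a (G : Set A) :=
        infDist_mul_left_le hG _ _
    _ ≤ ‖a‖ * √(5 * κ) := by
        rw [norm_star]
        refine mul_le_mul_of_nonneg_left ?_ (norm_nonneg a)
        have := infDist_star_le hG (star a)
        rw [star_star] at this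
        exact this.trans h1

lemma infDist_le_of_le {G : Submodule ℂ A} (hG : IsClosedIdeal A G) {a b : A} (ha : 0 ≤ a)
    (hab : a ≤ b) {κ : ℝ} (h : Metric.infDist b (G : Set A) < κ) :
    Metric.infDist a (G : Set A) ≤ ‖CFC.sqrt a‖ * √(5 * κ) := by
  have hs : star (CFC.sqrt a) = CFC.sqrt a := (CFC.sqrt_nonneg a).isSelfAdjoint.star_eq
  have := infDist_star_mul_le hG (a := CFC.sqrt a) (T := b)
    (by rw [hs, CFC.sqrt_mul_sqrt_self a ha]; exact hab) h
  rwa [hs, CFC.sqrt_mul_sqrt_self a ha] at this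

lemma exists_span_bound {S : Set A} {g : A}
    (hg : g ∈ Submodule.span ℂ {z : A | ∃ x, ∃ s ∈ S, ∃ y, z = x * s * y}) :
    ∃ C : ℝ, 0 ≤ C ∧ ∀ G : Submodule ℂ A, IsClosedIdeal A G → ∀ t : ℝ, 0 ≤ t →
      (∀ s ∈ S, Metric.infDist s (G : Set A) ≤ t) → Metric.infDist g (G : Set A) ≤ C * t := by
  induction hg using Submodule.span_induction with
  | mem z hz =>
    obtain ⟨x, s, hs, y, rfl⟩ := hz
    refine ⟨‖x‖ * ‖y‖, by positivity, fun G hG t ht hbd => ?_⟩
    obtain ⟨C, hC, hb⟩ := infDist_span_le (S := {s}) (a := s) (g := x * s * y)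
      (Submodule.subset_span ⟨x, s, rfl, y, rfl⟩) subset_rfl
    refine le_of_forall_pos_le_add fun ε hε => ?_
    have hε' : 0 < ε / (‖x‖ * ‖y‖ + 1) := by positivity
    obtain ⟨p, hp, hd⟩ := (Metric.infDist_lt_iff ⟨0, G.zero_mem⟩).1
      (lt_of_le_of_lt (hbd s hs) (lt_add_of_pos_right t hε'))
    refine (Metric.infDist_le_dist_of_mem (hG.2 y _ (hG.2 x p hp).1).2).trans ?_
    rw [dist_eq_norm] at hd ⊢
    rw [← sub_mul, ← mul_sub]
    refine (norm_mul₃_le ..).trans ?_
    have h2 : ‖x‖ * ‖y‖ * (ε / (‖x‖ * ‖y‖ + 1)) ≤ ε := by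
      rw [← mul_div_assoc, div_le_iff₀ (by positivity)]; nlinarith
    nlinarith [mul_le_mul_of_nonneg_left hd.le (show 0 ≤ ‖x‖ * ‖y‖ by positivity)]
  | zero => exact ⟨0, le_rfl, fun G _ t _ _ => by simp [Metric.infDist_zero_of_mem G.zero_mem]⟩
  | add u v _ _ hu hv =>
    obtain ⟨C, hC, hu⟩ := hu
    obtain ⟨D, hD, hv⟩ := hv
    exact ⟨C + D, add_nonneg hC hD, fun G hG t ht hb =>
      (infDist_add_le u v).trans (by rw [add_mul]; exact add_le_add (hu G hG t ht hb) (hv G hG t ht hb))⟩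
  | smul r u _ hu =>
    obtain ⟨C, hC, hu⟩ := hu
    exact ⟨‖r‖ * C, mul_nonneg (norm_nonneg r) hC, fun G hG t ht hb =>
      (infDist_smul_le r u).trans (by
        rw [mul_assoc]; exact mul_le_mul_of_nonneg_left (hu G hG t ht hb) (norm_nonneg r))⟩

/-- A common level at which the cuts of finitely many positive elements still generate. -/
lemma exists_level {ι : Type*} (g : ι → A) (hg : ∀ i, 0 ≤ g i) {T : A} {η : ℝ}
    (h : Metric.infDist T (gen (Set.range g) : Set A) < η) :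
    ∃ κ : ℝ, 0 < κ ∧ ∀ G : Submodule ℂ A, IsClosedIdeal A G → (∀ i, cut κ (g i) ∈ G) →
      Metric.infDist T (G : Set A) < η := by
  obtain ⟨u, hu, hTu⟩ := exists_span_near h
  obtain ⟨C, hC, hCu⟩ := exists_span_bound hu
  refine ⟨(η - ‖T - u‖) / (2 * (C + 1)), by have := sub_pos.2 hTu; positivity,
    fun G hG hmem => ?_⟩
  set κ := (η - ‖T - u‖) / (2 * (C + 1))
  have hκ : 0 < κ := by have := sub_pos.2 hTu; positivity
  have h1 := hCu G hG κ hκ.le (by
    rintro _ ⟨i, rfl⟩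
    exact infDist_le_of_cut_mem hκ.le (hg i) (hmem i))
  have h2 := Metric.infDist_le_infDist_add_dist (s := (G : Set A)) (x := T) (y := u)
  rw [dist_eq_norm] at h2
  have h3 : C * κ < η - ‖T - u‖ := by
    simp only [κ]
    rw [← mul_div_assoc, div_lt_iff₀ (by positivity)]
    nlinarith [sub_pos.2 hTu]
  linarith

/-- The function `√t / max t κ`. -/
noncomputable def nrmFun (κ t : ℝ) : ℝ := Real.sqrt (max t 0) / max t κ

lemma nrmFun_cont {κ : ℝ} (hκ : 0 < κ) : Continuous (nrmFun κ) :=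
  Continuous.div (by fun_prop) (by fun_prop) fun _ => (lt_max_of_lt_right hκ).ne'

lemma nrmFun_zero (κ : ℝ) : nrmFun κ 0 = 0 := by simp [nrmFun]

lemma nrmFun_bound {κ : ℝ} (hκ : 0 < κ) (t : ℝ) :
    0 ≤ nrmFun κ t ∧ nrmFun κ t ≤ 1 / √κ ∧ nrmFun κ t * t * nrmFun κ t ≤ 1 ∧
      (κ ≤ t → nrmFun κ t * t * nrmFun κ t = 1) := by
  have hm : 0 < max t κ := lt_max_of_lt_right hκ
  have hs := Real.mul_self_sqrt (le_max_right t 0)
  have hs0 := Real.sqrt_nonneg (max t 0)
  have hmm : max t 0 ≤ max t κ := max_le (le_max_left _ _) hm.le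
  refine ⟨by unfold nrmFun; positivity, ?_, ?_, fun h => ?_⟩
  · unfold nrmFun
    rw [div_le_div_iff₀ hm (Real.sqrt_pos.2 hκ), one_mul, ← Real.sqrt_mul (le_max_right t 0),
      Real.sqrt_le_left hm.le, sq]
    exact mul_le_mul hmm (le_max_right t κ) hκ.le hm.le
  · unfold nrmFun
    rw [show √(max t 0) / max t κ * t * (√(max t 0) / max t κ)
      = (√(max t 0) * √(max t 0)) * t / (max t κ * max t κ) by ring, hs,
      div_le_one (mul_pos hm hm)]
    rcases le_total t 0 with h | h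
    · rw [max_eq_right h, zero_mul]; positivity
    · exact mul_le_mul hmm (le_max_left _ _) h hm.le
  · have ht : 0 < t := hκ.trans_le h
    unfold nrmFun
    rw [max_eq_left ht.le, max_eq_left h]
    rw [show √t / t * t * (√t / t) = √t * √t / t by field_simp, Real.mul_self_sqrt ht.le,
      div_self ht.ne']

/-- Normalisation of `g ≥ 0` above level `κ`. -/
lemma exists_normalizer {g : A} (hg : 0 ≤ g) {κ : ℝ} (hκ : 0 < κ) :
    ∃ k : A, star k = k ∧ ‖k‖ ≤ 1 / √κ ∧ 0 ≤ k * g * k ∧ ‖k * g * k‖ ≤ 1 ∧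
      k * g * k * CFC.sqrt (cut κ g) = CFC.sqrt (cut κ g) ∧
      k * g * k * cut κ g = cut κ g ∧
      ∀ G : Submodule ℂ A, IsClosedIdeal A G →
        Metric.infDist (k * g * k) (G : Set A) < 1 / 2 → cut κ g ∈ G := by
  have hid : cfcₙ (fun t : ℝ => t) g = g := cfcₙ_id' ℝ g
  have hc := nrmFun_cont hκ
  have h0 := nrmFun_zero κ
  set F := fun t => nrmFun κ t * t * nrmFun κ t with hF
  have hFc : Continuous F := (hc.mul continuous_id).mul hc
  have hF0 : F 0 = 0 := by simp [hF]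
  have e : cfcₙ (nrmFun κ) g * g * cfcₙ (nrmFun κ) g = cfcₙ F g := by
    conv_lhs => arg 1; arg 2; rw [← hid]
    rw [← cfcₙ_mul _ _ g hc.continuousOn h0 (by fun_prop) rfl,
      ← cfcₙ_mul _ _ g (by fun_prop) (by simp) hc.continuousOn h0]
  have hFnn : ∀ t, 0 ≤ t → 0 ≤ F t := fun t ht => by
    have := (nrmFun_bound hκ t).1
    simp only [hF]; positivity
  have hfix : ∀ φ : ℝ → ℝ, Continuous φ → φ 0 = 0 → (∀ t, t ≤ κ → φ t = 0) →
      cfcₙ F g * cfcₙ φ g = cfcₙ φ g := by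
    intro φ hφ hφ0 hsupp
    rw [← cfcₙ_mul _ _ g hFc.continuousOn hF0 hφ.continuousOn hφ0]
    refine cfcₙ_congr fun t _ => ?_
    rcases le_or_gt t κ with h | h
    · simp [hsupp t h]
    · simp only [hF, (nrmFun_bound hκ t).2.2.2 h.le, one_mul]
  have hcs : ∀ t, t ≤ κ → cutFun κ t = 0 := fun t ht => by
    rw [cutFun, max_eq_left hκ.le, max_eq_right (sub_nonpos.2 ht)]
  have hsqrt : CFC.sqrt (cut κ g) = cfcₙ (fun t => √(cutFun κ t)) g := by
    rw [cut, CFC.sqrt_eq_real_sqrt _ (cfcₙ_nonneg fun t _ => cutFun_nonneg κ t),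
      ← cfcₙ_comp' _ _ g (by fun_prop) (by simp) (continuous_cutFun κ).continuousOn (cutFun_zero κ)]
  refine ⟨cfcₙ (nrmFun κ) g, (IsSelfAdjoint.cfcₙ).star_eq, norm_cfcₙ_le fun t _ => ?_, ?_, ?_,
    ?_, ?_, fun G hG hd => ?_⟩
  · rw [Real.norm_of_nonneg (nrmFun_bound hκ t).1]; exact (nrmFun_bound hκ t).2.1
  · rw [e]; exact cfcₙ_nonneg fun t ht => hFnn t (quasispectrum_nonneg_of_nonneg g hg t ht)
  · rw [e]
    refine norm_cfcₙ_le fun t ht => ?_
    rw [Real.norm_of_nonneg (hFnn t (quasispectrum_nonneg_of_nonneg g hg t ht))]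
    exact (nrmFun_bound hκ t).2.2.1
  · rw [e, hsqrt]
    exact hfix _ (Real.continuous_sqrt.comp (continuous_cutFun κ)) (by simp [cutFun_zero])
      fun t ht => by simp [hcs t ht]
  · rw [e]
    exact hfix _ (continuous_cutFun κ) (cutFun_zero κ) hcs
  · rw [e] at hd
    have hFg : 0 ≤ cfcₙ F g := cfcₙ_nonneg fun t ht => hFnn t (quasispectrum_nonneg_of_nonneg g hg t ht)
    have hm := hG.cut_mem hFg hd
    have h2 : cut (1 / 2) (cfcₙ F g) * cut κ g = (1 / 2 : ℝ) • cut κ g := by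
      rw [cut, cut, ← cfcₙ_comp' _ _ g (continuous_cutFun _).continuousOn (cutFun_zero _)
        hFc.continuousOn hF0,
        ← cfcₙ_mul (fun t => cutFun (1 / 2) (F t)) _ g
          ((continuous_cutFun _).comp hFc).continuousOn (by simp [hF0, cutFun_zero])
          (continuous_cutFun κ).continuousOn (cutFun_zero κ),
        ← cfcₙ_smul _ _ g (continuous_cutFun κ).continuousOn (cutFun_zero κ)]
      refine cfcₙ_congr fun t _ => ?_
      rcases le_or_gt t κ with h | h
      · simp [hcs t h]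
      · simp only [hF, (nrmFun_bound hκ t).2.2.2 h.le, smul_eq_mul]
        norm_num [cutFun]
    have h3 : (1 / 2 : ℝ) • cut κ g ∈ G := h2 ▸ (hG.2 _ _ hm).2
    have h4 := G.smul_mem ((2 : ℝ) : ℂ) h3
    rw [Complex.coe_smul, smul_smul] at h4
    norm_num at h4
    exact h4

lemma ramp_eq_mul {κ : ℝ} (hκ : 0 < κ) {T : A} (hT : 0 ≤ T) :
    ∃ k : A, star k = k ∧ ‖k‖ ≤ 1 / κ ∧ ramp κ T = T * k ∧ ramp κ T = k * T := by
  have hid : cfcₙ (fun t : ℝ => t) T = T := cfcₙ_id' ℝ T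
  have hc : Continuous fun t => rampFun κ t / max t κ :=
    (continuous_rampFun κ).div (by fun_prop) fun t => (lt_max_of_lt_right hκ).ne'
  have key : ∀ t, t * (rampFun κ t / max t κ) = rampFun κ t := fun t => by
    rcases le_or_gt t κ with h | h
    · have : rampFun κ t = 0 := by
        simp [rampFun, max_eq_left hκ.le, max_eq_right (sub_nonpos.2 h)]
      simp [this]
    · rw [max_eq_left h.le, mul_div_cancel₀ _ (hκ.trans h).ne']
  refine ⟨cfcₙ (fun t => rampFun κ t / max t κ) T, (IsSelfAdjoint.cfcₙ).star_eq,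
    norm_cfcₙ_le fun t _ => ?_, ?_, ?_⟩
  · have h0 : 0 ≤ rampFun κ t := le_min zero_le_one (div_nonneg (le_max_right _ _) hκ.le)
    rw [Real.norm_of_nonneg (div_nonneg h0 (lt_max_of_lt_right hκ).le)]
    exact div_le_div₀ zero_le_one (min_le_left _ _) hκ (le_max_right _ _)
  · conv_rhs => arg 1; rw [← hid]
    rw [← cfcₙ_mul _ _ T (by fun_prop) rfl hc.continuousOn (by simp [rampFun_zero]), ramp]
    exact cfcₙ_congr fun t _ => (key t).symm
  · conv_rhs => arg 2; rw [← hid]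
    rw [← cfcₙ_mul _ _ T hc.continuousOn (by simp [rampFun_zero]) (by fun_prop) rfl, ramp]
    exact cfcₙ_congr fun t _ => by rw [mul_comm]; exact (key t).symm

/-- At a prime, one element in the corner of `x` is nearly orthogonal to all but few of the
`F i`. -/
lemma exists_witness {P : Submodule ℂ A} (hP : IsPrimeIdeal P) {x : A} (hx : 0 ≤ x) (hxP : x ∉ P)
    {N : ℕ} (F : Fin N → A) (hF : ∀ i, star (F i) = F i) {r : ℝ}
    (hFb : ‖∑ i, F i * F i‖ ≤ r) {c : ℝ} (hc : 0 < c) {R : ℕ} (hR : r < c * (R + 1)) :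
    ∃ (a : A) (Bad : Finset (Fin N)), RMem x a ∧ a ∉ P ∧ Bad.card ≤ R ∧
      ∀ i ∉ Bad, ∀ p, RMem a p → ‖F i * p‖ ≤ √c * ‖p‖ := by
  classical
  have hr : 0 ≤ r := (norm_nonneg _).trans hFb
  suffices ∀ j, ∀ G : Finset (Fin N), G.card ≤ j → ∀ D : A, 0 ≤ D → D ∉ P →
      ∃ (a : A) (Bad : Finset (Fin N)), RMem D a ∧ a ∉ P ∧ Bad ⊆ G ∧ Bad.card ≤ R ∧
        ∀ i ∈ G, i ∉ Bad → ∀ p, RMem a p → ‖F i * p‖ ≤ √c * ‖p‖ by
    obtain ⟨a, B, h1, h2, -, h4, h5⟩ := this N Finset.univ (by simp) x hx hxP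
    exact ⟨a, B, h1, h2, h4, fun i hi => h5 i (Finset.mem_univ i) hi⟩
  intro j
  induction j with
  | zero =>
    intro G hG D hD hDP
    obtain rfl : G = ∅ := Finset.card_eq_zero.1 (Nat.le_zero.1 hG)
    exact ⟨D, ∅, rmem_self D, hDP, subset_rfl, by simp, fun i hi => by simp at hi⟩
  | succ j ih =>
    intro G hG D hD hDP
    rcases le_or_gt G.card R with hGR | hGR
    · exact ⟨D, G, rmem_self D, hDP, subset_rfl, hGR, fun i hi hi' => absurd hi hi'⟩
    have hDs : star D = D := hD.isSelfAdjoint.star_eq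
    have hsa : IsSelfAdjoint (∑ i : {i // i ∈ G}, F i * F i) :=
      isSelfAdjoint_sum _ fun i _ => by simp [IsSelfAdjoint, star_mul, hF]
    have hsub : ‖∑ i : {i // i ∈ G}, F i * F i‖ ≤ r := by
      refine le_trans ?_ hFb
      have nn : ∀ i, 0 ≤ F i * F i := fun i => by
        simpa [hF i] using star_mul_self_nonneg (F i)
      refine CStarAlgebra.norm_le_norm_of_nonneg_of_le (Finset.sum_nonneg fun i _ => nn _) ?_
      rw [← Finset.attach_eq_univ, Finset.sum_attach G fun i => F i * F i]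
      exact Finset.sum_le_sum_of_subset_of_nonneg G.subset_univ fun i _ _ => nn i
    have hG' : D * (∑ i : {i // i ∈ G}, F i * F i) * D ≤ r • (D * D) := by
      have := CStarAlgebra.star_left_conjugate_le_norm_smul (a := D) hsa
      rw [hDs] at this
      refine this.trans (smul_le_smul_of_nonneg_right hsub ?_)
      have := star_mul_self_nonneg D
      rwa [hDs] at this
    obtain ⟨⟨i, hi⟩, hk⟩ := exists_res_notMem hP.1 hDs hDP (fun i : {i // i ∈ G} => F i)
      (fun i => hF _) (r • (D * D)) hG' (c := c) (r := r)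
      (by
        rw [Fintype.card_coe]
        have : (R : ℝ) + 1 ≤ G.card := by exact_mod_cast hGR
        nlinarith)
      (by rw [sub_self]; exact P.zero_mem)
    set a1 := res c D (F i)
    have hD1 : 0 ≤ a1 * star a1 := mul_star_self_nonneg a1
    have hD1P : a1 * star a1 ∉ P := fun h => hk (by
      have h1 := hP.1.star_mem (hP.1.mem_of_star_mul_le (a := star a1) h (by rw [star_star]))
      rwa [star_star] at h1)
    obtain ⟨a, B, h1, h2, h3, h4, h5⟩ := ih (G.erase i)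
      (by rw [Finset.card_erase_of_mem hi]; omega) (a1 * star a1) hD1 hD1P
    have hra : RMem a1 a := (rmem_mul a1 (star a1)).trans h1
    refine ⟨a, B, (RMem.trans (rmem_mul D _) hra), h2,
      h3.trans (Finset.erase_subset _ _), h4, fun l hl hlB p hp => ?_⟩
    by_cases hli : l = i
    · subst hli
      exact res_kill hc.le hDs (hF l) (hra.trans hp)
    · exact h5 l (Finset.mem_erase.2 ⟨hli, hl⟩) hlB p hp

/-- Refinement of a good cover, for any shape of refinement. -/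
lemma exists_refinement' {T : A} (hT : 0 ≤ T) {η : ℝ} (hη : 0 < η)
    {Φ : (K : ℕ) → (Fin K → Submodule ℂ A) → Prop}
    (href : ∀ (R : ℕ) (J : Fin R → Submodule ℂ A), (∀ r, IsClosedIdeal A (J r)) →
      (∀ P, IsClosedIdeal A P → (∀ r, J r ≤ P) → cut (2 * η) T ∈ P) →
      ∀ θ : ℝ, 0 < θ → ∃ (K : ℕ) (I : Fin K → Submodule ℂ A) (r : Fin K → Fin R),
        (∀ k, IsClosedIdeal A (I k) ∧ I k ≤ J (r k)) ∧ Φ K I ∧
        ∀ P, IsClosedIdeal A P → (∀ k, I k ≤ P) → Metric.infDist (cut (2 * η) T) (P : Set A) ≤ θ)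
    {α : Type*} (Jf : α → Submodule ℂ A) (Good : α → Prop)
    (hcl : ∀ a, Good a → IsClosedIdeal A (Jf a))
    (h : ∀ P, IsPrimeIdeal P → η < Metric.infDist T (P : Set A) → ∃ a, Good a ∧ ¬ Jf a ≤ P) :
    ∃ (K : ℕ) (I : Fin K → Submodule ℂ A) (r : Fin K → α),
      (∀ k, IsClosedIdeal A (I k) ∧ I k ≤ Jf (r k) ∧ Good (r k)) ∧ Φ K I ∧
      ∀ P, IsClosedIdeal A P → (∀ k, I k ≤ P) → Metric.infDist T (P : Set A) ≤ 4 * η := by
  classical
  set S : Set A := {z | ∃ a, Good a ∧ z ∈ Jf a}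
  have hG : Metric.infDist T (gen S : Set A) ≤ η := by
    refine infDist_le_of_forall_prime (isClosedIdeal_gen S) hT hη.le fun P hP hGP => ?_
    by_contra hcon
    obtain ⟨a, ha, hle⟩ := h P hP (not_le.1 hcon)
    exact hle fun z hz => hGP (subset_gen ⟨a, ha, hz⟩)
  obtain ⟨g, hg, hTg⟩ := exists_span_near (hG.trans_lt (show η < 2 * η by linarith))
  have hfin : ∃ s : Finset α, (∀ a ∈ s, Good a) ∧
      g ∈ gen {z | ∃ a ∈ s, z ∈ Jf a} := by
    clear hTg
    induction hg using Submodule.span_induction with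
    | mem z hz =>
      obtain ⟨x, s, ⟨a, ha, hs⟩, y, rfl⟩ := hz
      exact ⟨{a}, by simpa using ha, subset_gen
        ⟨a, by simp, ((hcl a ha).2 y _ ((hcl a ha).2 x s hs).1).2⟩⟩
    | zero => exact ⟨∅, by simp, Submodule.zero_mem _⟩
    | add u v _ _ hu hv =>
      obtain ⟨s, hs, hu⟩ := hu
      obtain ⟨t, ht, hv⟩ := hv
      refine ⟨s ∪ t, by simp only [Finset.mem_union]; rintro a (h | h); exacts [hs a h, ht a h],
        add_mem ?_ ?_⟩
      · refine gen_le (isClosedIdeal_gen _) ?_ hu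
        rintro z ⟨a, ha, hz⟩
        exact subset_gen ⟨a, by simp [ha], hz⟩
      · refine gen_le (isClosedIdeal_gen _) ?_ hv
        rintro z ⟨a, ha, hz⟩
        exact subset_gen ⟨a, by simp [ha], hz⟩
    | smul c u _ hu =>
      obtain ⟨s, hs, hu⟩ := hu
      exact ⟨s, hs, Submodule.smul_mem _ c hu⟩
  obtain ⟨s, hs, hgs⟩ := hfin
  set e := s.equivFin.symm
  set T' := cut (2 * η) T
  have hT' : T' ∈ gen {z | ∃ a ∈ s, z ∈ Jf a} :=
    (isClosedIdeal_gen _).cut_mem hT
      (lt_of_le_of_lt (Metric.infDist_le_dist_of_mem hgs) (by rwa [dist_eq_norm]))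
  obtain ⟨K, I, r, hI, horth, hcov⟩ := href s.card (fun i => Jf (e i))
    (fun i => hcl _ (hs _ (e i).2))
    (fun P hP hle => gen_le hP (by
      rintro z ⟨a, ha, hz⟩
      refine hle (e.symm ⟨a, ha⟩) ?_
      simpa using hz) hT') η hη
  refine ⟨K, I, fun k => e (r k), fun k => ⟨(hI k).1, (hI k).2, hs _ (e (r k)).2⟩, horth,
    fun P hP hle => ?_⟩
  have := Metric.infDist_le_infDist_add_dist (s := (P : Set A)) (x := T) (y := T')
  have := hcov P hP hle
  have : dist T T' ≤ 2 * η := by rw [dist_eq_norm]; exact norm_sub_cut_le (by linarith) hT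
  linarith

/-- Cuts of a positive element stay in the ideal generated by a lower cut. -/
lemma cut_mem_gen {κ μ : ℝ} (hμ : 0 < μ) (h : μ ≤ κ) {T : A} (hT : 0 ≤ T) :
    cut κ T ∈ gen {cut μ T} := by
  refine (isClosedIdeal_gen _).mem_of_nonneg_of_le (cut_nonneg κ T) ?_ (subset_gen rfl)
  refine cfcₙ_mono (hf := (continuous_cutFun κ).continuousOn) (hf0 := cutFun_zero κ)
    (hg := (continuous_cutFun μ).continuousOn) (hg0 := cutFun_zero μ) fun t _ => ?_
  simp only [cutFun, max_eq_left hμ.le, max_eq_left (hμ.le.trans h)]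
  exact max_le_max (by linarith) le_rfl

end Vale.Agent.P133dim
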