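import Vale.Agent.P133dim.Quasi
import Vale.Agent.P133dim.Asym
import Vale.Agent.P133dim.Part

/-!
Asymptotically central weights and their algebra.
-/

set_option linter.unusedSectionVars false

namespace Vale.Agent.P133dim

open Vale.Agent.P133 Unitization Filter Topology
open scoped CStarAlgebra

variable {A : Type*} [NonUnitalCStarAlgebra A] [PartialOrder A] [StarOrderedRing A]

lemma exists_family : ∀ {V : ℕ} (I : Fin V → Submodule ℂ A), (∀ v, IsClosedIdeal A (I v)) →
    ∀ (H : Fin V → Finset A), (∀ v, ∀ i ∈ H v, i ∈ I v) → ∀ (D : Finset A) {ε : ℝ}, 0 < ε →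
    ∃ f : Fin V → A, (∀ v, f v ∈ I v ∧ 0 ≤ f v ∧ ‖f v‖ ≤ 1) ∧
      (∀ v, ∀ i ∈ H v, ‖i * f v - i‖ ≤ ε ∧ ‖f v * i - i‖ ≤ ε) ∧
      (∀ v, ∀ g ∈ D, ‖g * f v - f v * g‖ ≤ ε) ∧
      ∀ v w, v ≠ w → ‖f v * f w - f w * f v‖ ≤ ε := by
  intro V
  induction V with
  | zero => exact fun I _ H _ D ε _ => ⟨Fin.elim0, fun v => v.elim0, fun v => v.elim0,
      fun v => v.elim0, fun v => v.elim0⟩
  | succ V ih =>
    intro I hI H hH D ε hε
    classical
    obtain ⟨f, h1, h2, h3, h4⟩ := ih (fun v => I v.succ) (fun v => hI v.succ) (fun v => H v.succ)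
      (fun v => hH v.succ) D hε
    obtain ⟨u, hu, hu0, hu1, hu2, hu3⟩ :=
      exists_quasicentral (hI 0) (D ∪ Finset.univ.image f) (H 0) (hH 0) hε
    refine ⟨Fin.cons u f, fun v => ?_, fun v => ?_, fun v g hg => ?_, fun v w hvw => ?_⟩
    · cases v using Fin.cases with
      | zero => simpa using ⟨hu, hu0, hu1⟩
      | succ v => simpa using h1 v
    · cases v using Fin.cases with
      | zero => simpa using hu2
      | succ v => simpa using h2 v
    · cases v using Fin.cases with
      | zero => simpa using hu3 g (Finset.mem_union_left _ hg)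
      | succ v => simpa using h3 v g hg
    · cases v using Fin.cases with
      | zero =>
        cases w using Fin.cases with
        | zero => exact absurd rfl hvw
        | succ w =>
          simp only [Fin.cons_zero, Fin.cons_succ]
          rw [norm_sub_rev]
          exact hu3 (f w) (Finset.mem_union_right _ (Finset.mem_image_of_mem f (Finset.mem_univ w)))
      | succ v =>
        cases w using Fin.cases with
        | zero =>
          simp only [Fin.cons_zero, Fin.cons_succ]
          exact hu3 (f v) (Finset.mem_union_right _ (Finset.mem_image_of_mem f (Finset.mem_univ v)))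
        | succ w =>
          simp only [Fin.cons_succ]
          exact h4 v w fun h => hvw (h ▸ rfl)

lemma az_of_le {u : ℕ → A} (h : ∀ n, ‖u n‖ ≤ 1 / ((n : ℝ) + 1)) :
    AZ fun n => (u n : A⁺¹) :=
  squeeze_zero_norm (fun n => by rw [norm_inr]; exact h n) tendsto_one_div_add_atTop_nhds_zero_nat

lemma exists_weights {V : ℕ} (I : Fin V → Submodule ℂ A) (hI : ∀ v, IsClosedIdeal A (I v))
    (H : Fin V → Finset A) (hH : ∀ v, ∀ i ∈ H v, i ∈ I v) (D : Finset A) :
    ∃ f : Fin V → ℕ → A, (∀ v n, f v n ∈ I v ∧ 0 ≤ f v n ∧ ‖f v n‖ ≤ 1) ∧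
      (∀ v w, AC (fun n => (f v n : A⁺¹)) fun n => (f w n : A⁺¹)) ∧
      (∀ v, ∀ d ∈ D, AC (fun n => (f v n : A⁺¹)) fun _ => (d : A⁺¹)) ∧
      ∀ v, ∀ i ∈ H v, AZ fun n => (1 - (f v n : A⁺¹)) * (i : A⁺¹) := by
  choose f h1 h2 h3 h4 using fun n : ℕ =>
    exists_family I hI H hH D (ε := 1 / ((n : ℝ) + 1)) (by positivity)
  refine ⟨fun v n => f n v, fun v n => h1 n v, fun v w => ?_, fun v d hd => ?_, fun v i hi => ?_⟩
  · rcases eq_or_ne v w with rfl | hvw
    · exact AC.self _
    · exact (az_of_le fun n => h4 n v w hvw).congr fun n => by simp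
  · exact (az_of_le fun n => by rw [norm_sub_rev]; exact h3 n v d hd).congr fun n => by simp
  · refine (az_of_le (u := fun n => -(f n v * i - i)) fun n => ?_).congr fun n => ?_
    · rw [norm_neg]; exact (h2 n v i hi).2
    · simp [sub_mul]

section Alg

variable {U : Type*} [CStarAlgebra U]

variable {V : ℕ} {f : Fin V → ℕ → U}

lemma bd_pick {a : ℕ → U} (ha : Bd a) (b : Bool) : Bd fun n => pick b (a n) := by
  cases b
  · exact (Bd.const 1).sub ha
  · exact ha

lemma ac_pick {a w : ℕ → U} (h : AC a w) (b : Bool) : AC (fun n => pick b (a n)) w := by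
  cases b
  · exact (AC.one_left w).sub_left h
  · exact h

lemma bd_Xw : ∀ {V : ℕ} {f : Fin V → ℕ → U}, (∀ v, Bd (f v)) → ∀ σ,
    Bd fun n => Xw (fun v => f v n) σ := by
  intro V
  induction V with
  | zero => exact fun _ σ => Bd.const 1
  | succ V ih => exact fun hb σ =>
      (ih (fun v => hb v.succ) fun v => σ v.succ).mul (bd_pick (hb 0) (σ 0))

lemma bd_Yw : ∀ {V : ℕ} {f : Fin V → ℕ → U}, (∀ v, Bd (f v)) → ∀ σ,
    Bd fun n => Yw (fun v => f v n) σ := by
  intro V
  induction V with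
  | zero => exact fun _ σ => Bd.const 1
  | succ V ih => exact fun hb σ =>
      (ih (fun v => hb v.succ) fun v => σ v.succ).mul ((bd_pick (hb 0) (σ 0)).mul (bd_pick (hb 0) (σ 0)))

lemma ac_Xw : ∀ {V : ℕ} {f : Fin V → ℕ → U}, (∀ v, Bd (f v)) → ∀ {w : ℕ → U},
    (∀ v, AC (f v) w) → ∀ σ, AC (fun n => Xw (fun v => f v n) σ) w := by
  intro V
  induction V with
  | zero => exact fun _ w _ σ => AC.one_left w
  | succ V ih =>
    intro f hb w hw σ
    exact AC.mul_left (bd_Xw (fun v => hb v.succ) _) (bd_pick (hb 0) (σ 0))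
      (ih (fun v => hb v.succ) (fun v => hw v.succ) _) (ac_pick (hw 0) (σ 0))

lemma ac_Xw_star (hb : ∀ v, Bd (f v)) (hs : ∀ v n, IsSelfAdjoint (f v n)) {w : ℕ → U}
    (hw : ∀ v, AC (f v) fun n => star (w n)) (σ : Fin V → Bool) :
    AC (fun n => star (Xw (fun v => f v n) σ)) w := by
  have := (ac_Xw hb hw σ).star
  simpa using this

lemma ac_pair (hb : ∀ v, Bd (f v)) (hc : ∀ v w, AC (f v) (f w)) (σ τ : Fin V → Bool) :
    AC (fun n => Xw (fun v => f v n) σ) fun n => Xw (fun v => f v n) τ :=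
  ac_Xw hb (fun v => (ac_Xw hb (fun w => hc w v) τ).symm) σ

lemma ac_star_pair (hb : ∀ v, Bd (f v)) (hs : ∀ v n, IsSelfAdjoint (f v n))
    (hc : ∀ v w, AC (f v) (f w)) (σ τ : Fin V → Bool) :
    AC (fun n => star (Xw (fun v => f v n) σ)) fun n => Xw (fun v => f v n) τ := by
  refine ac_Xw_star hb hs (fun v => AC.symm ?_) σ
  refine ac_Xw_star hb hs (fun w => ?_) τ
  simpa only [(hs v _).star_eq] using hc w v

/-- Weights avoiding an index annihilate what that index fixes. -/
lemma az_Xw_mul : ∀ {V : ℕ} {f : Fin V → ℕ → U}, (∀ v, Bd (f v)) → ∀ {c : U},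
    (∀ v, AC (f v) fun _ => c) → ∀ (σ : Fin V → Bool) (v : Fin V), σ v = false →
    AZ (fun n => (1 - f v n) * c) → AZ fun n => Xw (fun v => f v n) σ * c := by
  intro V
  induction V with
  | zero => intro f _ c _ σ v; exact v.elim0
  | succ V ih =>
    intro f hb c hc σ v hv hz
    cases v using Fin.cases with
    | zero =>
      refine (AZ.bd_mul (bd_Xw (fun v => hb v.succ) fun v => σ v.succ) hz).congr fun n => ?_
      simp only [Xw, hv, pick, Bool.false_eq_true, if_false, mul_assoc]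
    | succ v =>
      have h1 := ih (fun v => hb v.succ) (fun v => hc v.succ) (fun v => σ v.succ) v hv hz
      refine ((AZ.mul_bd h1 (bd_pick (hb 0) (σ 0))).add
        (AZ.bd_mul (bd_Xw (fun v => hb v.succ) fun v => σ v.succ)
          (ac_pick (hc 0) (σ 0)))).congr fun n => ?_
      simp only [Xw]
      noncomm_ring

/-- The squared weights are asymptotically the weights of the squares. -/
lemma az_sq (hb : ∀ v, Bd (f v)) (hs : ∀ v n, IsSelfAdjoint (f v n))
    (hc : ∀ v w, AC (f v) (f w)) (σ : Fin V → Bool) :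
    AZ fun n => star (Xw (fun v => f v n) σ) * Xw (fun v => f v n) σ *
        (star (Xw (fun v => f v n) σ) * Xw (fun v => f v n) σ)
      - star (Yw (fun v => f v n) σ) * Yw (fun v => f v n) σ := by
  have hXY : AZ fun n => Xw (fun v => f v n) σ * Xw (fun v => f v n) σ - Yw (fun v => f v n) σ := by
    clear hs
    induction V with
    | zero => exact AZ.zero.congr fun n => by simp [Xw, Yw]
    | succ V ih =>
      have h1 := ih (fun v => hb v.succ) (fun v w => hc v.succ w.succ) fun v => σ v.succ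
      have hX := bd_Xw (fun v => hb v.succ) fun v => σ v.succ
      have hp := bd_pick (hb 0) (σ 0)
      have h2 : AC (fun n => pick (σ 0) (f 0 n))
          fun n => Xw (fun v => f v.succ n) fun v => σ v.succ :=
        ac_pick (ac_Xw (fun v => hb v.succ) (fun v => hc v.succ 0) _).symm (σ 0)
      refine ((AZ.mul_bd h1 (hp.mul hp)).add
        (AZ.mul_bd (AZ.bd_mul hX h2) hp)).congr fun n => ?_
      simp only [Xw, Yw]
      noncomm_ring
  have hX := bd_Xw hb σ
  have hY := bd_Yw hb σ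
  refine (((AZ.mul_bd (AZ.bd_mul hX.star ((ac_star_pair hb hs hc σ σ).symm)) hX).add
    (AZ.bd_mul (hX.mul hX).star hXY)).add (AZ.mul_bd hXY.star hY)).congr fun n => ?_
  simp only [star_sub, star_mul]
  noncomm_ring

/-- Products of two weights are asymptotically positive. -/
lemma az_cross (hb : ∀ v, Bd (f v)) (hs : ∀ v n, IsSelfAdjoint (f v n))
    (hc : ∀ v w, AC (f v) (f w)) (σ τ : Fin V → Bool) :
    AZ fun n => star (Xw (fun v => f v n) σ) * Xw (fun v => f v n) σ *
        (star (Xw (fun v => f v n) τ) * Xw (fun v => f v n) τ)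
      - star (Xw (fun v => f v n) σ * Xw (fun v => f v n) τ) *
        (Xw (fun v => f v n) σ * Xw (fun v => f v n) τ) := by
  have hX := bd_Xw hb σ
  have hT := bd_Xw hb τ
  have h : AC (fun n => star (Xw (fun v => f v n) σ) * Xw (fun v => f v n) σ)
      fun n => star (Xw (fun v => f v n) τ) :=
    AC.mul_left hX.star hX
      (by simpa using (ac_pair hb hc σ τ).star) (ac_star_pair hb hs hc τ σ).symm
  refine (AZ.mul_bd h hT).congr fun n => ?_
  simp only [star_mul]
  noncomm_ring

end Alg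

/-- A sum weighted by a partition is small when all coefficients are. -/
lemma norm_conj_sum_le {ι : Type*} (s : Finset ι) (X : ι → A⁺¹) (C : ι → A) {d : ℝ} (hd : 0 ≤ d)
    (hC : ∀ i ∈ s, ‖C i‖ ≤ d) (hX : ∑ i ∈ s, star (X i) * X i ≤ 1) :
    ‖∑ i ∈ s, star (X i) * (C i : A⁺¹) * X i‖ ≤ 4 * d := by
  choose x hx0 hx1 hx2 using fun i => CStarAlgebra.exists_sum_four_nonneg (C i)
  have hpos : ∀ j : Fin 4, ‖∑ i ∈ s, star (X i) * (x i j : A⁺¹) * X i‖ ≤ d := by
    intro j
    have h0 : 0 ≤ ∑ i ∈ s, star (X i) * (x i j : A⁺¹) * X i :=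
      Finset.sum_nonneg fun i _ => star_left_conjugate_nonneg (inr_nonneg_iff.2 (hx0 i j)) _
    have h1 : ∑ i ∈ s, star (X i) * (x i j : A⁺¹) * X i ≤ d • (1 : A⁺¹) := by
      refine le_trans ?_ (smul_le_smul_of_nonneg_left hX hd)
      rw [Finset.smul_sum]
      refine Finset.sum_le_sum fun i hi => ?_
      refine (CStarAlgebra.star_left_conjugate_le_norm_smul
        ((hx0 i j).isSelfAdjoint.inr ℂ)).trans ?_
      rw [norm_inr]
      exact smul_le_smul_of_nonneg_right ((hx1 i j).trans (hC i hi)) (star_mul_self_nonneg _)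
    exact (CStarAlgebra.norm_le_iff_le_algebraMap _ hd h0).2
      (by rwa [Algebra.algebraMap_eq_smul_one])
  have e : ∑ i ∈ s, star (X i) * (C i : A⁺¹) * X i
      = ∑ j : Fin 4, Complex.I ^ (j : ℕ) • ∑ i ∈ s, star (X i) * (x i j : A⁺¹) * X i := by
    simp only [Finset.smul_sum]
    rw [Finset.sum_comm]
    refine Finset.sum_congr rfl fun i _ => ?_
    conv_lhs => rw [hx2 i]
    have em : ((∑ j : Fin 4, Complex.I ^ (j : ℕ) • x i j : A) : A⁺¹)
        = ∑ j : Fin 4, Complex.I ^ (j : ℕ) • (x i j : A⁺¹) := by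
      refine (map_sum (inrNonUnitalStarAlgHom ℂ A) (fun j : Fin 4 => Complex.I ^ (j : ℕ) • x i j)
        Finset.univ).trans (Finset.sum_congr rfl fun j _ => ?_)
      exact map_smul (inrNonUnitalStarAlgHom ℂ A) _ _
    rw [em]
    simp only [Finset.mul_sum, Finset.sum_mul, mul_smul_comm, smul_mul_assoc]
  rw [e]
  refine (norm_sum_le _ _).trans ?_
  calc ∑ j : Fin 4, ‖Complex.I ^ (j : ℕ) • ∑ i ∈ s, star (X i) * (x i j : A⁺¹) * X i‖
      ≤ ∑ _j : Fin 4, d := Finset.sum_le_sum fun j _ => by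
        rw [norm_smul, norm_pow, Complex.norm_I, one_pow, one_mul]; exact hpos j
    _ = 4 * d := by simp

end Vale.Agent.P133dim
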